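import Mathlib

/-!
Arithmetical sums needed for the inhomogeneous Erdős–Vaaler theorem: a crude divisor
bound and estimates for the divisor weight `L n = ∑_{e ∣ n} h e / e`,
with `h e = (1 + log₂ e) ^ 4`.
-/

namespace Vale.Agent.P028.ErdosVaaler

open Finset

noncomputable section

/-- The weight `(1 + log₂ n) ^ 4`. -/
def h (n : ℕ) : ℝ := ((1 : ℝ) + Nat.log 2 n) ^ 4

/-- The divisor weight. -/
def L (n : ℕ) : ℝ := ∑ e ∈ n.divisors, h e / e

lemma one_le_h (n : ℕ) : 1 ≤ h n :=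
  one_le_pow₀ (le_add_of_nonneg_right (Nat.cast_nonneg _))

lemma h_nonneg (n : ℕ) : 0 ≤ h n := zero_le_one.trans (one_le_h n)

lemma one_le_L {n : ℕ} (hn : n ≠ 0) : 1 ≤ L n := by
  have h1 : (1 : ℕ) ∈ n.divisors := Nat.one_mem_divisors.2 hn
  refine le_trans ?_ (single_le_sum (f := fun e : ℕ => h e / (e : ℝ))
    (fun e _ => div_nonneg (h_nonneg e) (Nat.cast_nonneg e)) h1)
  simp [h]

lemma L_nonneg (n : ℕ) : 0 ≤ L n :=
  sum_nonneg fun e _ => div_nonneg (h_nonneg e) (Nat.cast_nonneg e)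

lemma sum_inv_divisors_le_L (n : ℕ) : ∑ e ∈ n.divisors, (1 : ℝ) / e ≤ L n :=
  sum_le_sum fun e _ => div_le_div_of_nonneg_right (one_le_h e) (Nat.cast_nonneg e)

/-- A bounded multiplicative majorant for `(e+1)^K / 2^e`. -/
lemma exists_pow_le_two_pow (K : ℕ) :
    ∃ B : ℕ, 1 ≤ B ∧ ∀ e : ℕ, (e + 1) ^ K ≤ B * 2 ^ e := by
  refine ⟨2 ^ K * K.factorial, Nat.one_le_iff_ne_zero.2
    (mul_ne_zero (by positivity) (Nat.factorial_ne_zero K)), fun e => ?_⟩
  have h1 : (e + 1).ascFactorial K = K.factorial * (e + K).choose K :=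
    Nat.ascFactorial_eq_factorial_mul_choose e K
  have h2 : (e + 1) ^ K ≤ (e + 1).ascFactorial K :=
    Nat.pow_succ_le_ascFactorial (e + 1) K
  have h3 : (e + K).choose K ≤ 2 ^ (e + K) := Nat.choose_le_two_pow _ _
  calc (e + 1) ^ K ≤ K.factorial * (e + K).choose K := h1 ▸ h2
    _ ≤ K.factorial * 2 ^ (e + K) := Nat.mul_le_mul_left _ h3
    _ = 2 ^ K * K.factorial * 2 ^ e := by rw [pow_add]; ring

/-- The divisor bound `τ(n)^K ≤ B n`. -/
lemma exists_card_divisors_pow_le (K : ℕ) :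
    ∃ B : ℕ, ∀ n : ℕ, n ≠ 0 → n.divisors.card ^ K ≤ B * n := by
  obtain ⟨B₀, hB₀, hB⟩ := exists_pow_le_two_pow K
  refine ⟨B₀ ^ (2 ^ K), fun n hn => ?_⟩
  rw [Nat.card_divisors hn, ← prod_pow]
  conv_rhs => rw [← Nat.prod_factorization_pow_eq_self hn]
  rw [Finsupp.prod, Nat.support_factorization]
  calc ∏ p ∈ n.primeFactors, (n.factorization p + 1) ^ K
      ≤ ∏ p ∈ n.primeFactors,
          (if p < 2 ^ K then B₀ else 1) * p ^ n.factorization p := by
        refine prod_le_prod (fun _ _ => Nat.zero_le _) fun p hp => ?_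
        have hp2 : 2 ≤ p := (Nat.prime_of_mem_primeFactors hp).two_le
        split
        · exact (hB _).trans (Nat.mul_le_mul_left _ (Nat.pow_le_pow_left hp2 _))
        · rename_i hlt
          rw [one_mul]
          calc (n.factorization p + 1) ^ K ≤ (2 ^ n.factorization p) ^ K :=
                Nat.pow_le_pow_left Nat.lt_two_pow_self _
            _ = (2 ^ K) ^ n.factorization p := by rw [← pow_mul, ← pow_mul, mul_comm]
            _ ≤ p ^ n.factorization p := Nat.pow_le_pow_left (not_lt.1 hlt) _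
    _ = (∏ p ∈ n.primeFactors, if p < 2 ^ K then B₀ else 1) *
          ∏ p ∈ n.primeFactors, p ^ n.factorization p := prod_mul_distrib
    _ ≤ _ := by
        refine Nat.mul_le_mul_right _ ?_
        rw [← prod_filter, prod_const]
        refine Nat.pow_le_pow_right hB₀ ?_
        calc (n.primeFactors.filter (· < 2 ^ K)).card ≤ (range (2 ^ K)).card :=
              card_le_card fun p hp => mem_range.2 (mem_filter.1 hp).2
          _ = _ := card_range _

/-- Polynomials in `a` are at most a constant times `2 ^ (a / N)`. -/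
lemma exists_poly_le_two_pow (N k : ℕ) (hN : 0 < N) :
    ∃ B : ℕ, ∀ a : ℕ, (a + 2) ^ k ≤ B * 2 ^ (a / N) := by
  obtain ⟨B₀, -, hB⟩ := exists_pow_le_two_pow k
  refine ⟨(N + 2) ^ k * B₀, fun a => ?_⟩
  have h1 : a + 2 ≤ (N + 2) * (a / N + 1) := by
    nlinarith [Nat.div_add_mod a N, Nat.mod_lt a hN]
  calc (a + 2) ^ k ≤ ((N + 2) * (a / N + 1)) ^ k := Nat.pow_le_pow_left h1 _
    _ = (N + 2) ^ k * (a / N + 1) ^ k := mul_pow _ _ _
    _ ≤ (N + 2) ^ k * (B₀ * 2 ^ (a / N)) := Nat.mul_le_mul_left _ (hB _)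
    _ = _ := (mul_assoc _ _ _).symm

/-- Dyadic form of the divisor bound. -/
lemma exists_card_divisors_dyadic (N : ℕ) (hN : 0 < N) :
    ∃ B : ℝ, 0 ≤ B ∧ ∀ a n : ℕ, n < 2 ^ (a + 1) → (n.divisors.card : ℝ) ≤ B * 2 ^ (a / N) := by
  obtain ⟨B, hB⟩ := exists_card_divisors_pow_le N
  refine ⟨((B + 1) * 4 : ℕ), Nat.cast_nonneg _, fun a n hn => ?_⟩
  have key : n.divisors.card ^ N ≤ ((B + 1) * 4 * 2 ^ (a / N)) ^ N := by
    rcases eq_or_ne n 0 with rfl | h0
    · simp [hN.ne']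
    refine (hB n h0).trans ?_
    have e1 : a + 1 ≤ N * (a / N) + 2 * N := by
      have := Nat.div_add_mod a N
      have := Nat.mod_lt a hN
      omega
    have e4 : (B + 1) ≤ (B + 1) ^ N := Nat.le_self_pow hN.ne' _
    calc B * n ≤ (B + 1) ^ N * 2 ^ (a + 1) := Nat.mul_le_mul (by omega) hn.le
      _ ≤ (B + 1) ^ N * 2 ^ (N * (a / N) + 2 * N) :=
          Nat.mul_le_mul_left _ (Nat.pow_le_pow_right two_pos e1)
      _ = _ := by
          rw [mul_pow, mul_pow, pow_add, ← pow_mul 2 (a / N) N, mul_comm (a / N) N,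
            pow_mul 2 2 N]
          norm_num
          ring
  exact_mod_cast (Nat.pow_le_pow_iff_left hN.ne').1 key

lemma h_le_dyadic {a n : ℕ} (hn : n < 2 ^ (a + 1)) : h n ≤ ((a + 2) ^ 4 : ℕ) := by
  have h1 : Nat.log 2 n ≤ a + 1 := by
    rcases eq_or_ne n 0 with rfl | h0
    · simp
    · exact ((Nat.log_lt_iff_lt_pow one_lt_two h0).2 hn).le
  unfold h
  push_cast
  refine pow_le_pow_left₀ (by positivity) ?_ 4
  have : (Nat.log 2 n : ℝ) ≤ (a : ℝ) + 1 := by exact_mod_cast h1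
  linarith

lemma h_mul_le (m n : ℕ) : h (m * n) ≤ 16 * (h m * h n) := by
  rcases eq_or_ne m 0 with rfl | hm
  · simp only [zero_mul]
    nlinarith [one_le_h n, one_le_h 0, mul_le_mul (le_refl (h 0)) (one_le_h n)
      zero_le_one (h_nonneg 0)]
  rcases eq_or_ne n 0 with rfl | hn
  · simp only [mul_zero]
    nlinarith [one_le_h m, one_le_h 0, mul_le_mul (one_le_h m) (le_refl (h 0))
      (h_nonneg 0) (h_nonneg m)]
  have h1 : Nat.log 2 (m * n) ≤ Nat.log 2 m + Nat.log 2 n + 1 := by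
    have a := Nat.lt_pow_succ_log_self one_lt_two m
    have b := Nat.lt_pow_succ_log_self one_lt_two n
    have c : m * n < 2 ^ (Nat.log 2 m + Nat.log 2 n + 2) := by
      have := Nat.mul_lt_mul'' a b
      rw [← pow_add] at this
      convert this using 2
      omega
    have := (Nat.log_lt_iff_lt_pow one_lt_two (mul_ne_zero hm hn)).2 c
    omega
  have h2 : (Nat.log 2 (m * n) : ℝ) ≤ Nat.log 2 m + Nat.log 2 n + 1 := by exact_mod_cast h1
  unfold h
  rw [← mul_pow, show (16 : ℝ) = 2 ^ 4 by norm_num, ← mul_pow]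
  refine pow_le_pow_left₀ (by positivity) ?_ 4
  have : (0 : ℝ) ≤ (Nat.log 2 m : ℝ) * Nat.log 2 n := by positivity
  nlinarith

/-- The two weights used in the convergent series. -/
lemma exists_h_sq_le :
    ∃ B : ℝ, 0 ≤ B ∧ ∀ n : ℕ, 0 < n → h n ^ 2 ≤ B * (n : ℝ) ^ ((1 : ℝ) / 8) := by
  obtain ⟨B, hB⟩ := exists_poly_le_two_pow 8 8 (by norm_num)
  refine ⟨B, Nat.cast_nonneg _, fun n hn => ?_⟩
  set a := Nat.log 2 n with ha
  have h1 : h n ^ 2 ≤ (((a + 2) ^ 8 : ℕ) : ℝ) := by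
    unfold h
    rw [← pow_mul]
    push_cast
    exact pow_le_pow_left₀ (by positivity) (by rw [← ha]; linarith) _
  have h2 : ((2 : ℝ) ^ (a / 8)) ≤ (n : ℝ) ^ ((1 : ℝ) / 8) := by
    have h3 : (((2 : ℝ) ^ (a / 8)) ^ 8) ≤ (n : ℝ) := by
      rw [← pow_mul]
      calc (2 : ℝ) ^ (a / 8 * 8) ≤ 2 ^ a :=
            pow_le_pow_right₀ one_le_two (Nat.div_mul_le_self a 8)
        _ ≤ n := by exact_mod_cast Nat.pow_log_le_self 2 hn.ne'
    calc (2 : ℝ) ^ (a / 8) = (((2 : ℝ) ^ (a / 8)) ^ 8) ^ ((1 : ℝ) / 8) := by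
          rw [← Real.rpow_natCast _ 8, ← Real.rpow_mul (by positivity)]; norm_num
      _ ≤ _ := Real.rpow_le_rpow (by positivity) h3 (by norm_num)
  calc h n ^ 2 ≤ (((a + 2) ^ 8 : ℕ) : ℝ) := h1
    _ ≤ ((B * 2 ^ (a / 8) : ℕ) : ℝ) := by exact_mod_cast hB a
    _ ≤ B * (n : ℝ) ^ ((1 : ℝ) / 8) := by
        push_cast
        exact mul_le_mul_of_nonneg_left h2 (Nat.cast_nonneg _)

/-- Uniform bound for the sums `∑ h(n)^2 n^(-5/4)` over any finite set of positive integers. -/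
lemma exists_sum_h_sq_le :
    ∃ B : ℝ, 0 ≤ B ∧ ∀ s : Finset ℕ, (∀ n ∈ s, 0 < n) →
      ∑ n ∈ s, h n ^ 2 / (n : ℝ) ^ ((5 : ℝ) / 4) ≤ B := by
  obtain ⟨B, hB0, hB⟩ := exists_h_sq_le
  have hs : Summable fun n : ℕ => (1 : ℝ) / (n : ℝ) ^ ((9 : ℝ) / 8) :=
    Real.summable_one_div_nat_rpow.2 (by norm_num)
  refine ⟨B * ∑' n : ℕ, (1 : ℝ) / (n : ℝ) ^ ((9 : ℝ) / 8),
    mul_nonneg hB0 (tsum_nonneg fun n => by positivity), fun s hpos => ?_⟩
  calc ∑ n ∈ s, h n ^ 2 / (n : ℝ) ^ ((5 : ℝ) / 4)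
      ≤ ∑ n ∈ s, B * ((1 : ℝ) / (n : ℝ) ^ ((9 : ℝ) / 8)) := by
        refine sum_le_sum fun n hn => ?_
        have hn' : (0 : ℝ) < n := Nat.cast_pos.2 (hpos n hn)
        rw [show (5 : ℝ) / 4 = 9 / 8 + 1 / 8 by norm_num, Real.rpow_add hn',
          div_le_iff₀ (by positivity)]
        refine (hB n (hpos n hn)).trans (le_of_eq ?_)
        field_simp
    _ ≤ _ := by
        rw [← mul_sum]
        exact mul_le_mul_of_nonneg_left (hs.sum_le_tsum _ fun n _ => by positivity) hB0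

end

end Vale.Agent.P028.ErdosVaaler
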