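import Vale.Agent.P028.ErdosVaaler.Pairs

/-!
Column sums and the assembly of the bound on the exceptional overlaps.
-/

namespace Vale.Agent.P028.ErdosVaaler

open Finset

noncomputable section

open scoped Classical

/-- Column sums with the weight `L q ^ 2`. -/
lemma exists_col {γ c : ℝ} {w : ℕ} (hdio : Dio γ c w) {C : ℝ} (hC : 0 ≤ C) :
    ∃ A : ℝ, 0 ≤ A ∧ ∀ (ψ : ℕ → ℝ), Small C ψ → ∀ (r i : ℕ) (S : Finset ℕ), 0 < r →
      (∀ q ∈ S, r < q ∧ Nat.log 2 q - Nat.log 2 r = i ∧ i ≤ Nat.log 2 q / NN w) →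
      ∑ q ∈ S, T γ ψ q r * L q ^ 2 ≤ A * (ψ r * L r) := by
  obtain ⟨G, hG, hadm⟩ := exists_adm hdio hC
  obtain ⟨A₀, hA₀, hhit⟩ := exists_hit_progression hdio G hG
  obtain ⟨BL, hBL, hL⟩ := exists_L_le_Ls w
  obtain ⟨A₅, hA₅, hlcmsum⟩ := exists_lcm_sum_le
  obtain ⟨B₁, hB₁0, hB₁⟩ := exists_card_divisors_dyadic (NN w) (NN_pos w)
  obtain ⟨B₄, hB₄0, hB₄⟩ := sum_Icc_h_div_le w
  refine ⟨BL ^ 2 * (48 * C * A₅ + A₀ * B₁ * B₄ ^ 2), by positivity,
    fun ψ hψ r i S hr hS => ?_⟩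
  set b := Nat.log 2 r with hb
  set a := b + i with ha
  set s := a / NN w with hs
  set M := 2 ^ (16 * s) with hM
  set E := 2 ^ (2 * s) with hE
  obtain ⟨hrb, hbr⟩ := dyadic_mem hr hb.symm
  have hrR : (0 : ℝ) < r := Nat.cast_pos.2 hr
  rcases S.eq_empty_or_nonempty with rfl | hne
  · rw [sum_empty]
    exact mul_nonneg (by positivity) (mul_nonneg (hψ r).1 (L_nonneg r))
  have hqa : ∀ q ∈ S, Nat.log 2 q = a ∧ i ≤ s := fun q hq => by
    obtain ⟨h1, h2, h3⟩ := hS q hq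
    have hle : b ≤ Nat.log 2 q := Nat.log_mono_right h1.le
    have e : Nat.log 2 q = a := by omega
    exact ⟨e, by rw [e] at h3; exact h3⟩
  obtain ⟨q₀, hq₀⟩ := hne
  have his : i ≤ s := (hqa q₀ hq₀).2
  set m := min (C / ((2 : ℝ) ^ a) ^ 2) (ψ r / (r : ℝ)) with hm
  have hm0 : 0 ≤ m := le_min (by positivity) (div_nonneg (hψ r).1 hrR.le)
  set DC : ℕ → ℝ := fun d => ((r : ℝ) * (C / 2 ^ a) + 2 * 2 ^ a * ψ r) / (d : ℝ) with hDC
  set adm : Finset ℕ := r.divisors.filter (fun d : ℕ => (M : ℝ) ^ (w + 1) * (d : ℝ) ≤ G * 2 ^ a)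
    with hadm'
  set P : ℕ → ℕ → Prop := fun d q => d ∣ q ∧ Hit γ (DC d) (((q : ℝ) - r) / d) with hP
  have step1 : ∀ q ∈ S, T γ ψ q r ≤ m * ∑ d ∈ adm, if P d q then (d : ℝ) else 0 := by
    intro q hq
    obtain ⟨hrq, hi, -⟩ := hS q hq
    obtain ⟨hla, -⟩ := hqa q hq
    obtain ⟨hqa', hqa''⟩ := dyadic_mem (hr.trans hrq) hla
    have hqR : (0 : ℝ) < q := Nat.cast_pos.2 (hr.trans hrq)
    have h2a : (2 : ℝ) ^ a ≤ q := by exact_mod_cast hqa'
    have hq2 : (q : ℝ) ≤ 2 * 2 ^ a := by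
      have := hqa''.le
      rw [pow_succ'] at this
      exact_mod_cast this
    have hψq : ψ q ≤ C / 2 ^ a :=
      (hψ q).2.trans (div_le_div_of_nonneg_left hC (by positivity) h2a)
    unfold T
    split
    · rename_i hit
      have hg : q.gcd r ∈ adm := by
        refine mem_filter.2 ⟨Nat.mem_divisors.2 ⟨Nat.gcd_dvd_right q r, hr.ne'⟩, ?_⟩
        have h3 := hadm ψ a i q r hψ hr hrq hla (by rw [ha, Nat.add_sub_cancel]; exact hrb) his hit
        rw [hM]; push_cast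
        refine h3.trans (mul_le_mul_of_nonneg_left ?_ hG.le)
        exact pow_le_pow_right₀ one_le_two (Nat.sub_le a i)
      have hPg : P (q.gcd r) q := ⟨Nat.gcd_dvd_left q r, hit.mono ((min_le_right _ _).trans
        (div_le_div_of_nonneg_right (add_le_add
          (mul_le_mul_of_nonneg_left hψq hrR.le)
          (mul_le_mul_of_nonneg_right hq2 (hψ r).1)) (Nat.cast_nonneg _)))⟩
      have hmin : min (ψ q / q) (ψ r / r) ≤ m := by
        refine min_le_min ?_ le_rfl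
        calc ψ q / q ≤ (C / 2 ^ a) / 2 ^ a :=
              div_le_div₀ (by positivity) hψq (by positivity) h2a
          _ = _ := by rw [div_div, sq]
      calc (q.gcd r : ℝ) * min (ψ q / q) (ψ r / r) ≤ (q.gcd r : ℝ) * m :=
            mul_le_mul_of_nonneg_left hmin (Nat.cast_nonneg _)
        _ = m * (if P (q.gcd r) q then (q.gcd r : ℝ) else 0) := by rw [if_pos hPg, mul_comm]
        _ ≤ _ := mul_le_mul_of_nonneg_left (single_le_sum
            (f := fun d : ℕ => if P d q then (d : ℝ) else 0)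
            (fun d _ => by split <;> [exact Nat.cast_nonneg _; exact le_rfl]) hg) hm0
    · exact mul_nonneg hm0 (sum_nonneg fun d _ => by split <;> [exact Nat.cast_nonneg _; exact le_rfl])
  have h2b : (2 : ℝ) ^ a / r ≤ 2 ^ i := by
    rw [div_le_iff₀ hrR, ha, pow_add, mul_comm]
    refine mul_le_mul_of_nonneg_left ?_ (by positivity)
    exact_mod_cast hrb
  have hcount : ∀ d ∈ adm, ∀ x ∈ Icc 1 E, ∀ y ∈ Icc 1 E,
      ((S.filter (fun q => P d q ∧ x ∣ q ∧ y ∣ q)).card : ℝ) * d * m ≤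
        ψ r * (48 * C * (1 / (d : ℝ)) * (((x.lcm y).gcd d : ℝ) / (x.lcm y : ℝ))
          + A₀ * 2 ^ i / (M : ℝ)) := by
    intro d hd x hx y hy
    obtain ⟨hd1, hd2⟩ := mem_filter.1 hd
    have hd0 : 0 < d := Nat.pos_of_mem_divisors hd1
    set e := x.lcm y with he
    have he0 : 0 < e := Nat.lcm_pos (mem_Icc.1 hx).1 (mem_Icc.1 hy).1
    have hdR : (0 : ℝ) < d := Nat.cast_pos.2 hd0
    have heR : (0 : ℝ) < e := Nat.cast_pos.2 he0
    obtain ⟨f, hf⟩ := Nat.gcd_dvd_left e d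
    have hg0 : 0 < e.gcd d := Nat.gcd_pos_of_pos_left _ he0
    have hf0 : 0 < f := by
      rcases Nat.eq_zero_or_pos f with rfl | h0
      · rw [mul_zero] at hf; omega
      · exact h0
    have hfR : (0 : ℝ) < f := Nat.cast_pos.2 hf0
    have hlcm : d.lcm e = d * f := by
      rw [Nat.lcm, Nat.gcd_comm d e]
      conv_lhs => arg 1; rw [hf]
      rw [mul_left_comm, Nat.mul_div_cancel_left _ hg0]
    have hDC0 : 0 ≤ DC d := by
      have := (hψ r).1
      positivity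
    have key := hhit d f a r M (DC d) (S.filter (fun q => P d q ∧ x ∣ q ∧ y ∣ q)) hd0 hf0
      Nat.one_le_two_pow hDC0 hd2 ?_
    · have hfe : (1 : ℝ) / f = (e.gcd d : ℝ) / e := by
        rw [div_eq_div_iff hfR.ne' heR.ne', one_mul]
        exact_mod_cast hf
      have hmD : 2 ^ a * m * DC d ≤ 3 * C * ψ r / d := by
        rw [hDC]
        simp only
        rw [mul_div_assoc']
        refine div_le_div_of_nonneg_right ?_ hdR.le
        have h1 : m * r ≤ ψ r := (le_div_iff₀ hrR).1 (min_le_right _ _)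
        have h2 : m * ((2 : ℝ) ^ a) ^ 2 ≤ C := (le_div_iff₀ (by positivity)).1 (min_le_left _ _)
        have e1 : 2 ^ a * m * ((r : ℝ) * (C / 2 ^ a) + 2 * 2 ^ a * ψ r)
            = C * (m * r) + 2 * ψ r * (m * ((2 : ℝ) ^ a) ^ 2) := by field_simp
        rw [e1]
        have h3 := mul_le_mul_of_nonneg_left h1 hC
        have h4 := mul_le_mul_of_nonneg_left h2
          (mul_nonneg (zero_le_two : (0 : ℝ) ≤ 2) (hψ r).1)
        linarith
      have hm2 : 2 ^ a * m ≤ ψ r * 2 ^ i := by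
        calc 2 ^ a * m ≤ 2 ^ a * (ψ r / r) :=
              mul_le_mul_of_nonneg_left (min_le_right _ _) (by positivity)
          _ = ψ r * ((2 : ℝ) ^ a / r) := by ring
          _ ≤ _ := mul_le_mul_of_nonneg_left h2b (hψ r).1
      calc ((S.filter (fun q => P d q ∧ x ∣ q ∧ y ∣ q)).card : ℝ) * d * m
          ≤ (16 * (2 ^ a / ((d : ℝ) * f)) * DC d + A₀ * (2 ^ a / ((d : ℝ) * M))) * d * m :=
            mul_le_mul_of_nonneg_right (mul_le_mul_of_nonneg_right key hdR.le) hm0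
        _ = 16 * (2 ^ a * m * DC d) * (1 / f) + A₀ * (2 ^ a * m) / M := by
            field_simp
        _ ≤ 16 * (3 * C * ψ r / d) * (1 / f) + A₀ * (ψ r * 2 ^ i) / M := by gcongr
        _ = _ := by rw [hfe]; ring
    · intro q hq
      obtain ⟨hqS, ⟨hdq, hhit'⟩, hxq, hyq⟩ := mem_filter.1 hq
      obtain ⟨hrq, -, -⟩ := hS q hqS
      exact ⟨(dyadic_mem (hr.trans hrq) (hqa q hqS).1).2, hr.trans hrq,
        hlcm ▸ Nat.lcm_dvd hdq (Nat.lcm_dvd hxq hyq), hhit'⟩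
  calc ∑ q ∈ S, T γ ψ q r * L q ^ 2
      ≤ ∑ q ∈ S, (m * ∑ d ∈ adm, if P d q then (d : ℝ) else 0) * (BL ^ 2 * Ls E q ^ 2) := by
        refine sum_le_sum fun q hq => mul_le_mul (step1 q hq) ?_ (sq_nonneg _) ?_
        · rw [← mul_pow]
          exact pow_le_pow_left₀ (L_nonneg q) (hL a q (hr.trans (hS q hq).1)
            (dyadic_mem (hr.trans (hS q hq).1) (hqa q hq).1).2) 2
        · exact mul_nonneg hm0 (sum_nonneg fun d _ => by split <;> [exact Nat.cast_nonneg _; exact le_rfl])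
    _ = BL ^ 2 * ∑ d ∈ adm, ∑ x ∈ Icc 1 E, ∑ y ∈ Icc 1 E,
          (h x * h y / ((x : ℝ) * y)) *
            (((S.filter (fun q => P d q ∧ x ∣ q ∧ y ∣ q)).card : ℝ) * d * m) := by
        simp only [Ls, sq (∑ e ∈ Icc 1 E, _), mul_sum, sum_mul]
        simp_rw [card_filter, Nat.cast_sum, sum_mul, mul_sum]
        rw [sum_comm]
        refine (sum_congr rfl fun x _ => sum_comm).trans ?_
        refine (sum_congr rfl fun x _ => sum_congr rfl fun y _ => sum_comm).trans ?_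
        refine Eq.trans ?_ (Eq.trans sum_comm (sum_congr rfl fun x _ => sum_comm)).symm
        refine sum_congr rfl fun x _ => sum_congr rfl fun y _ => sum_congr rfl fun d _ =>
          sum_congr rfl fun q _ => ?_
        by_cases h1 : P d q <;> by_cases h2 : x ∣ q <;> by_cases h3 : y ∣ q <;>
          simp [h1, h2, h3] <;> ring
    _ ≤ BL ^ 2 * ∑ d ∈ adm, ∑ x ∈ Icc 1 E, ∑ y ∈ Icc 1 E, (h x * h y / ((x : ℝ) * y)) *
          (ψ r * (48 * C * (1 / (d : ℝ)) * (((x.lcm y).gcd d : ℝ) / (x.lcm y : ℝ))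
            + A₀ * 2 ^ i / (M : ℝ))) := by
        refine mul_le_mul_of_nonneg_left ?_ (sq_nonneg _)
        exact sum_le_sum fun d hd => sum_le_sum fun x hx => sum_le_sum fun y hy =>
          mul_le_mul_of_nonneg_left (hcount d hd x hx y hy)
            (div_nonneg (mul_nonneg (h_nonneg x) (h_nonneg y)) (by positivity))
    _ = BL ^ 2 * ψ r * (48 * C * (∑ d ∈ adm, (1 / (d : ℝ)) * (∑ x ∈ Icc 1 E, ∑ y ∈ Icc 1 E,
            h x * h y / ((x : ℝ) * y) * (((x.lcm y).gcd d : ℝ) / (x.lcm y : ℝ))))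
          + (adm.card : ℝ) * (A₀ * 2 ^ i / (M : ℝ) *
              ((∑ x ∈ Icc 1 E, h x / (x : ℝ)) * ∑ y ∈ Icc 1 E, h y / (y : ℝ)))) := by
        rw [sum_mul_sum, ← nsmul_eq_mul, ← sum_const]
        simp only [mul_sum, ← sum_add_distrib]
        exact sum_congr rfl fun d _ => sum_congr rfl fun x _ => sum_congr rfl fun y _ => by ring
    _ ≤ BL ^ 2 * ψ r * (48 * C * (A₅ * L r) + A₀ * B₁ * B₄ ^ 2 * L r) := by
        refine mul_le_mul_of_nonneg_left ?_ (mul_nonneg (sq_nonneg _) (hψ r).1)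
        refine add_le_add (mul_le_mul_of_nonneg_left ?_ (by positivity)) ?_
        · refine le_trans (sum_le_sum_of_subset_of_nonneg (filter_subset _ _) fun d _ _ => ?_)
            (hlcmsum r _ fun e he => (mem_Icc.1 he).1)
          exact mul_nonneg (by positivity) (sum_nonneg fun x _ => sum_nonneg fun y _ =>
            mul_nonneg (div_nonneg (mul_nonneg (h_nonneg x) (h_nonneg y)) (by positivity))
              (by positivity))
        · have hcard : (adm.card : ℝ) ≤ B₁ * 2 ^ s := by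
            refine le_trans (by exact_mod_cast card_le_card (filter_subset _ _)) (hB₁ a r ?_)
            exact hbr.trans_le (Nat.pow_le_pow_right two_pos (by omega))
          have hh := hB₄ a
          have hsum0 : (0 : ℝ) ≤ ∑ y ∈ Icc 1 E, h y / (y : ℝ) :=
            sum_nonneg fun y _ => div_nonneg (h_nonneg y) (Nat.cast_nonneg y)
          have hMs : (2 : ℝ) ^ s * 2 ^ i * (2 ^ (3 * s) * 2 ^ (3 * s)) ≤ (M : ℝ) := by
            rw [hM]; push_cast; simp only [← pow_add]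
            exact pow_le_pow_right₀ one_le_two (by omega)
          calc (adm.card : ℝ) * (A₀ * 2 ^ i / (M : ℝ) *
                ((∑ x ∈ Icc 1 E, h x / (x : ℝ)) * ∑ y ∈ Icc 1 E, h y / (y : ℝ)))
              ≤ B₁ * 2 ^ s * (A₀ * 2 ^ i / (M : ℝ) * ((B₄ * 2 ^ (3 * s)) * (B₄ * 2 ^ (3 * s)))) := by
                gcongr
            _ = A₀ * B₁ * B₄ ^ 2 *
                  ((2 ^ s * 2 ^ i * (2 ^ (3 * s) * 2 ^ (3 * s))) / (M : ℝ)) := by ring
            _ ≤ A₀ * B₁ * B₄ ^ 2 * 1 :=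
                mul_le_mul_of_nonneg_left (div_le_one_of_le₀ hMs (Nat.cast_nonneg _)) (by positivity)
            _ ≤ _ := mul_le_mul_of_nonneg_left (one_le_L hr.ne') (by positivity)
    _ = _ := by ring

/-- The exceptional overlaps of any finite family sum to a linear term. -/
theorem exists_sum_T_le {γ c : ℝ} {w : ℕ} (hdio : Dio γ c w) {C : ℝ} (hC : 0 ≤ C) :
    ∃ K : ℝ, 0 ≤ K ∧ ∀ (ψ : ℕ → ℝ), Small C ψ → ∀ F : Finset ℕ, (∀ q ∈ F, 0 < q) →
      ∑ q ∈ F, ∑ r ∈ F.filter (· < q), T γ ψ q r ≤ K * ∑ q ∈ F, ψ q := by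
  obtain ⟨A₁, hA₁, hfar⟩ := exists_far w
  obtain ⟨A₂, hA₂, hrow⟩ := exists_row hdio hC
  obtain ⟨A₃, hA₃, hcol⟩ := exists_col hdio hC
  refine ⟨A₁ + 2 * A₂ + 2 * A₂ + 2 * A₃, by positivity, fun ψ hψ F hF => ?_⟩
  set ix : ℕ → ℕ → ℕ := fun q r => Nat.log 2 q - Nat.log 2 r with hix
  set near : ℕ → ℕ → Prop := fun q r => ix q r ≤ Nat.log 2 q / NN w with hnear
  set n := F.sup (fun q => Nat.log 2 q) + 1 with hn
  set R : ℕ → ℕ → Finset ℕ :=
    fun q i => F.filter (fun r => r < q ∧ near q r ∧ ix q r = i) with hR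
  set Q : ℕ → ℕ → Finset ℕ :=
    fun r i => F.filter (fun q => r < q ∧ near q r ∧ ix q r = i) with hQ
  -- the three near weights
  set Wa : ℕ → ℕ → ℕ → ℝ :=
    fun q _r i => if L q ≤ (1 + (i : ℝ)) ^ 2 then 1 else 0 with hWa
  set Wb : ℕ → ℕ → ℝ := fun q r => L r / L q with hWb
  set Wc : ℕ → ℕ → ℕ → ℝ :=
    fun q r i => L q ^ 2 / ((1 + (i : ℝ)) ^ 2 * L r) with hWc
  have hT0 : ∀ q r, 0 ≤ T γ ψ q r := fun q r => T_nonneg hψ q r
  have hsplit : ∀ q ∈ F, ∀ r ∈ F, ∀ i : ℕ,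
      1 ≤ Wa q r i + Wb q r + Wc q r i := by
    intro q hq r hr i
    have hLq : 0 < L q := zero_lt_one.trans_le (one_le_L (hF q hq).ne')
    have hLr : 0 < L r := zero_lt_one.trans_le (one_le_L (hF r hr).ne')
    have hb : 0 ≤ L r / L q := div_nonneg hLr.le hLq.le
    have hc : 0 ≤ L q ^ 2 / ((1 + (i : ℝ)) ^ 2 * L r) := by positivity
    simp only [hWa, hWb, hWc]
    split
    · linarith
    · rename_i hbig
      rw [not_le] at hbig
      rcases le_total (L q) (L r) with hle | hle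
      · have : 1 ≤ L r / L q := (one_le_div hLq).2 hle
        linarith
      · have : 1 ≤ L q ^ 2 / ((1 + (i : ℝ)) ^ 2 * L r) := by
          rw [one_le_div (by positivity), sq (L q)]
          exact mul_le_mul hbig.le hle hLr.le hLq.le
        linarith
  have hrowfib : ∀ q ∈ F, ∑ r ∈ F.filter (fun r => r < q ∧ near q r), T γ ψ q r
      = ∑ i ∈ range n, ∑ r ∈ R q i, T γ ψ q r := by
    intro q hq
    rw [← sum_fiberwise_of_maps_to (g := fun r => ix q r) (t := range n)]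
    · exact sum_congr rfl fun i _ => sum_congr (by rw [hR, filter_filter]; simp only [and_assoc]) fun _ _ => rfl
    · intro r _
      exact mem_range.2 (Nat.lt_succ_of_le ((Nat.sub_le _ _).trans
        (le_sup (f := fun q => Nat.log 2 q) hq)))
  have hfar' : ∀ q ∈ F, ∑ r ∈ F.filter (fun r => r < q ∧ ¬ near q r), T γ ψ q r ≤ A₁ * ψ q :=
    fun q hq => hfar γ C ψ hψ q _ fun r hr => by
      obtain ⟨hrF, h1, h2⟩ := mem_filter.1 hr
      exact ⟨hF r hrF, h1, not_le.1 h2⟩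
  have hrow' : ∀ q ∈ F, ∀ i : ℕ, ∑ r ∈ R q i, T γ ψ q r * L r
      ≤ A₂ * (ψ q * L q) / (1 + (i : ℝ)) ^ 4 := by
    intro q hq i
    rcases (R q i).eq_empty_or_nonempty with he | ⟨r₀, hr₀⟩
    · rw [he, sum_empty]
      exact div_nonneg (mul_nonneg hA₂ (mul_nonneg (hψ q).1 (L_nonneg q))) (by positivity)
    · obtain ⟨-, -, h2, h3⟩ := mem_filter.1 hr₀
      refine hrow ψ hψ q i _ (hF q hq) (h3 ▸ h2) fun r hr => ?_
      obtain ⟨hrF, h1, -, h3'⟩ := mem_filter.1 hr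
      exact ⟨hF r hrF, h1, h3'⟩
  have hcol' : ∀ r ∈ F, ∀ i : ℕ, ∑ q ∈ Q r i, T γ ψ q r * L q ^ 2 ≤ A₃ * (ψ r * L r) :=
    fun r hr i => hcol ψ hψ r i _ (hF r hr) fun q hq => by
      obtain ⟨-, h1, h2, h3⟩ := mem_filter.1 hq
      exact ⟨h1, h3, h3 ▸ h2⟩
  have hsq : ∀ x : ℝ, 0 ≤ x → ∑ i ∈ range n, x / (1 + (i : ℝ)) ^ 2 ≤ 2 * x := by
    intro x hx
    calc ∑ i ∈ range n, x / (1 + (i : ℝ)) ^ 2 = x * ∑ i ∈ range n, 1 / (1 + (i : ℝ)) ^ 2 := by
          rw [mul_sum]; exact sum_congr rfl fun i _ => by ring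
      _ ≤ x * 2 := mul_le_mul_of_nonneg_left (sum_inv_sq_le n) hx
      _ = _ := mul_comm _ _
  have hA : ∀ q ∈ F, ∑ i ∈ range n, ∑ r ∈ R q i, T γ ψ q r * Wa q r i ≤ 2 * (A₂ * ψ q) := by
    intro q hq
    refine le_trans (sum_le_sum fun i _ => ?_) (hsq _ (mul_nonneg hA₂ (hψ q).1))
    simp only [hWa]
    split
    · rename_i hle
      calc ∑ r ∈ R q i, T γ ψ q r * 1 ≤ ∑ r ∈ R q i, T γ ψ q r * L r :=
            sum_le_sum fun r hr => mul_le_mul_of_nonneg_left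
              (one_le_L (hF r (mem_filter.1 hr).1).ne') (hT0 q r)
        _ ≤ A₂ * (ψ q * L q) / (1 + (i : ℝ)) ^ 4 := hrow' q hq i
        _ ≤ A₂ * (ψ q * (1 + (i : ℝ)) ^ 2) / (1 + (i : ℝ)) ^ 4 := by
            have := (hψ q).1
            gcongr
        _ = A₂ * ψ q / (1 + (i : ℝ)) ^ 2 := by field_simp
    · simp only [mul_zero, sum_const_zero]
      exact div_nonneg (mul_nonneg hA₂ (hψ q).1) (by positivity)
  have hB : ∀ q ∈ F, ∑ i ∈ range n, ∑ r ∈ R q i, T γ ψ q r * Wb q r ≤ 2 * (A₂ * ψ q) := by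
    intro q hq
    have hLq : 0 < L q := zero_lt_one.trans_le (one_le_L (hF q hq).ne')
    refine le_trans (sum_le_sum fun i _ => ?_) (hsq _ (mul_nonneg hA₂ (hψ q).1))
    calc ∑ r ∈ R q i, T γ ψ q r * (L r / L q) = (∑ r ∈ R q i, T γ ψ q r * L r) / L q := by
          rw [sum_div]; exact sum_congr rfl fun r _ => by ring
      _ ≤ (A₂ * (ψ q * L q) / (1 + (i : ℝ)) ^ 4) / L q :=
          div_le_div_of_nonneg_right (hrow' q hq i) hLq.le
      _ = A₂ * ψ q / (1 + (i : ℝ)) ^ 4 := by field_simp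
      _ ≤ _ := div_le_div_of_nonneg_left (mul_nonneg hA₂ (hψ q).1) (by positivity)
          (pow_le_pow_right₀ (le_add_of_nonneg_right (Nat.cast_nonneg _)) (by norm_num))
  have hC' : ∑ q ∈ F, ∑ i ∈ range n, ∑ r ∈ R q i, T γ ψ q r * Wc q r i
      ≤ ∑ r ∈ F, 2 * (A₃ * ψ r) := by
    have e : ∑ q ∈ F, ∑ i ∈ range n, ∑ r ∈ R q i, T γ ψ q r * Wc q r i
        = ∑ r ∈ F, ∑ i ∈ range n, ∑ q ∈ Q r i, T γ ψ q r * Wc q r i := by
      simp only [hR, hQ, sum_filter]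
      exact (sum_congr rfl fun q _ => sum_comm).trans (sum_comm.trans (sum_congr rfl fun r _ => sum_comm))
    rw [e]
    refine sum_le_sum fun r hr => le_trans (sum_le_sum fun i _ => ?_)
      (hsq _ (mul_nonneg hA₃ (hψ r).1))
    have hLr : 0 < L r := zero_lt_one.trans_le (one_le_L (hF r hr).ne')
    calc ∑ q ∈ Q r i, T γ ψ q r * (L q ^ 2 / ((1 + (i : ℝ)) ^ 2 * L r))
        = (∑ q ∈ Q r i, T γ ψ q r * L q ^ 2) / ((1 + (i : ℝ)) ^ 2 * L r) := by
          rw [sum_div]; exact sum_congr rfl fun q _ => by ring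
      _ ≤ A₃ * (ψ r * L r) / ((1 + (i : ℝ)) ^ 2 * L r) :=
          div_le_div_of_nonneg_right (hcol' r hr i) (by positivity)
      _ = _ := by field_simp
  calc ∑ q ∈ F, ∑ r ∈ F.filter (· < q), T γ ψ q r
      = ∑ q ∈ F, ((∑ r ∈ F.filter (fun r => r < q ∧ ¬ near q r), T γ ψ q r)
          + ∑ r ∈ F.filter (fun r => r < q ∧ near q r), T γ ψ q r) := by
        refine sum_congr rfl fun q _ => ?_
        rw [add_comm, ← filter_filter, ← filter_filter, sum_filter_add_sum_filter_not]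
    _ ≤ ∑ q ∈ F, (A₁ * ψ q + ((∑ i ∈ range n, ∑ r ∈ R q i, T γ ψ q r * Wa q r i)
          + (∑ i ∈ range n, ∑ r ∈ R q i, T γ ψ q r * Wb q r)
          + ∑ i ∈ range n, ∑ r ∈ R q i, T γ ψ q r * Wc q r i)) := by
        refine sum_le_sum fun q hq => add_le_add (hfar' q hq) ?_
        rw [hrowfib q hq]
        simp only [← sum_add_distrib]
        refine sum_le_sum fun i _ => sum_le_sum fun r hr => ?_
        rw [← mul_add, ← mul_add]
        exact le_mul_of_one_le_right (hT0 q r) (hsplit q hq r (mem_filter.1 hr).1 i)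
    _ = A₁ * (∑ q ∈ F, ψ q) + ((∑ q ∈ F, ∑ i ∈ range n, ∑ r ∈ R q i, T γ ψ q r * Wa q r i)
          + (∑ q ∈ F, ∑ i ∈ range n, ∑ r ∈ R q i, T γ ψ q r * Wb q r)
          + ∑ q ∈ F, ∑ i ∈ range n, ∑ r ∈ R q i, T γ ψ q r * Wc q r i) := by
        rw [sum_add_distrib, sum_add_distrib, sum_add_distrib, mul_sum]
    _ ≤ A₁ * (∑ q ∈ F, ψ q) + ((∑ q ∈ F, 2 * (A₂ * ψ q)) + (∑ q ∈ F, 2 * (A₂ * ψ q))
          + ∑ r ∈ F, 2 * (A₃ * ψ r)) :=
        add_le_add le_rfl (add_le_add (add_le_add (sum_le_sum hA) (sum_le_sum hB)) hC')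
    _ = _ := by simp only [← mul_sum]; ring

end

end Vale.Agent.P028.ErdosVaaler
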