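import Vale.Agent.P028.ErdosVaaler.Limit

/-!
Every shift: extra divergence by a power of the divisor function above one suffices.
-/

namespace Vale.Agent.P028.ErdosVaaler

open Finset MeasureTheory

noncomputable section

open scoped Classical

lemma sum_gcd_le (q : ℕ) (S : Finset ℕ) (hS : S ⊆ Ioc 0 q) :
    ∑ r ∈ S, (q.gcd r : ℝ) ≤ (q.divisors.card : ℝ) * q := by
  rcases Nat.eq_zero_or_pos q with rfl | hq
  · simp [Finset.subset_empty.1 (by simpa using hS)]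
  calc ∑ r ∈ S, (q.gcd r : ℝ) ≤ ∑ r ∈ Ioc 0 q, (q.gcd r : ℝ) :=
        sum_le_sum_of_subset_of_nonneg hS fun r _ _ => Nat.cast_nonneg _
    _ ≤ ∑ r ∈ Ioc 0 q, ∑ d ∈ q.divisors, (if d ∣ r then (d : ℝ) else 0) := by
        refine sum_le_sum fun r _ => ?_
        refine le_trans (le_of_eq ?_) (single_le_sum (f := fun d : ℕ => if d ∣ r then (d : ℝ) else 0)
          (fun d _ => by split <;> [exact Nat.cast_nonneg _; exact le_rfl])
          (Nat.mem_divisors.2 ⟨Nat.gcd_dvd_left q r, hq.ne'⟩))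
        rw [if_pos (Nat.gcd_dvd_right q r)]
    _ ≤ (q.divisors.card : ℝ) * q := by
        rw [sum_comm, ← nsmul_eq_mul]
        refine sum_le_card_nsmul _ _ _ fun d _ => ?_
        rw [← sum_filter, sum_const, Nat.Ioc_filter_dvd_card_eq_div, nsmul_eq_mul]
        exact_mod_cast Nat.div_mul_le_self q d

lemma second_moment_divisor (γ : ℝ) (ψ : ℕ → ℝ) (h0 : ∀ q, 0 ≤ ψ q) (F : Finset ℕ)
    (hF : ∀ q ∈ F, 0 < q ∧ ψ q ≤ 1 / 2)
    (hgood : ∑ q ∈ F, ψ q * (q.divisors.card : ℝ) ≤ (∑ q ∈ F, ψ q) ^ 2) :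
    ∑ q ∈ F, ∑ r ∈ F, unitMeasure.real (A γ (ψ q) q ∩ A γ (ψ r) r)
      ≤ 108 * ((∑ q ∈ F, ψ q) ^ 2 + ∑ q ∈ F, ψ q) := by
  set φ : ℕ → ℝ := fun q => if q ∈ F then ψ q else 0 with hφ
  set C := ∑ q ∈ F, (q : ℝ) * ψ q with hC
  have hφe : ∀ q ∈ F, φ q = ψ q := fun q hq => if_pos hq
  have hsmall : Small C φ := by
    intro q
    by_cases hq : q ∈ F
    · rw [hφe q hq]
      refine ⟨h0 q, (le_div_iff₀ (Nat.cast_pos.2 (hF q hq).1)).2 ?_⟩
      rw [mul_comm]
      exact single_le_sum (f := fun q : ℕ => (q : ℝ) * ψ q)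
        (fun r _ => mul_nonneg (Nat.cast_nonneg r) (h0 r)) hq
    · simp only [hφ, if_neg hq]
      exact ⟨le_rfl, div_nonneg (sum_nonneg fun r _ =>
        mul_nonneg (Nat.cast_nonneg r) (h0 r)) (Nat.cast_nonneg q)⟩
  set U : ℕ → ℕ → ℝ := fun q r => if r < q then (q.gcd r : ℝ) * (ψ q / q) else 0 with hU
  have hU0 : ∀ q r, 0 ≤ U q r := fun q r => by
    simp only [hU]
    split <;> [exact mul_nonneg (Nat.cast_nonneg _) (div_nonneg (h0 q) (Nat.cast_nonneg q)); exact le_rfl]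
  have hmeas : ∀ q r, unitMeasure.real (A γ (ψ q) q ∩ A γ (ψ r) r)
      = volume.real ((A γ (ψ q) q ∩ A γ (ψ r) r) ∩ Set.Ico 0 1) := fun q r =>
    unit_real_apply ((measurableSet_A _ _ q).inter (measurableSet_A _ _ r))
  have hlt : ∀ q ∈ F, ∀ r ∈ F, r < q →
      volume.real ((A γ (ψ q) q ∩ A γ (ψ r) r) ∩ Set.Ico 0 1) ≤ 48 * (ψ q * ψ r) + 6 * U q r := by
    intro q hq r hr hrq
    have h := overlap_le (γ := γ) hsmall (hF r hr).1 hrq (by rw [hφe q hq]; exact (hF q hq).2)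
      (by rw [hφe r hr]; exact (hF r hr).2)
    have h2 := T_le_gcd (γ := γ) hsmall q r
    rw [hφe q hq, hφe r hr] at h
    rw [hφe q hq] at h2
    have e : U q r = (q.gcd r : ℝ) * (ψ q / q) := if_pos hrq
    linarith
  have hpair : ∀ q ∈ F, ∀ r ∈ F, unitMeasure.real (A γ (ψ q) q ∩ A γ (ψ r) r)
      ≤ 48 * (ψ q * ψ r) + 6 * (U q r + U r q) + (if q = r then 6 * ψ q else 0) := by
    intro q hq r hr
    have hp : 0 ≤ ψ q * ψ r := mul_nonneg (h0 q) (h0 r)
    have hu1 := hU0 q r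
    have hu2 := hU0 r q
    rw [hmeas]
    rcases lt_trichotomy r q with h | heq | h
    · rw [if_neg h.ne']
      linarith [hlt q hq r hr h]
    · subst heq
      rw [if_pos rfl, Set.inter_self]
      have h := (abs_le.1 (abs_measure_A_inter_sub_le (γ := γ) (hF r hr).1 (h0 r) (hF r hr).2
        zero_le_one)).2
      have : 4 * ψ r / (r : ℝ) ≤ 4 * ψ r :=
        div_le_self (by linarith [h0 r]) (Nat.one_le_cast.2 (hF r hr).1)
      linarith
    · rw [Set.inter_comm (A γ (ψ q) q), if_neg h.ne, mul_comm (ψ q) (ψ r)]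
      linarith [hlt r hr q hq h]
  have hUsum : ∑ q ∈ F, ∑ r ∈ F, U q r ≤ (∑ q ∈ F, ψ q) ^ 2 := by
    refine le_trans (sum_le_sum fun q hq => ?_) hgood
    simp only [hU]
    rw [← sum_filter, ← sum_mul]
    have hqR : (0 : ℝ) < q := Nat.cast_pos.2 (hF q hq).1
    calc (∑ r ∈ F.filter (· < q), (q.gcd r : ℝ)) * (ψ q / q)
        ≤ ((q.divisors.card : ℝ) * q) * (ψ q / q) := by
          refine mul_le_mul_of_nonneg_right (sum_gcd_le q _ fun r hr => ?_) (div_nonneg (h0 q) hqR.le)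
          exact mem_Ioc.2 ⟨(hF r (mem_filter.1 hr).1).1, (mem_filter.1 hr).2.le⟩
      _ = ψ q * (q.divisors.card : ℝ) := by field_simp
  have hS0 : 0 ≤ ∑ q ∈ F, ψ q := sum_nonneg fun q _ => h0 q
  calc ∑ q ∈ F, ∑ r ∈ F, unitMeasure.real (A γ (ψ q) q ∩ A γ (ψ r) r)
      ≤ ∑ q ∈ F, ∑ r ∈ F,
          (48 * (ψ q * ψ r) + 6 * (U q r + U r q) + (if q = r then 6 * ψ q else 0)) :=
        sum_le_sum fun q hq => sum_le_sum fun r hr => hpair q hq r hr
    _ = 48 * (∑ q ∈ F, ψ q) ^ 2 + 6 * ((∑ q ∈ F, ∑ r ∈ F, U q r) + ∑ q ∈ F, ∑ r ∈ F, U r q)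
          + 6 * ∑ q ∈ F, ψ q := by
        have e : ∀ q ∈ F, (∑ r ∈ F, if q = r then 6 * ψ q else 0) = 6 * ψ q := fun q hq => by
          rw [sum_ite_eq, if_pos hq]
        simp only [sum_add_distrib]
        rw [sum_congr rfl e]
        simp only [← mul_sum, ← sum_mul, sum_add_distrib]
        ring
    _ ≤ _ := by
        rw [sum_comm (f := fun q r => U r q)]
        nlinarith [sq_nonneg (∑ q ∈ F, ψ q)]

lemma exists_good_block {ψ : ℕ → ℝ} (h0 : ∀ q, 0 ≤ ψ q) {ε : ℝ} (hε : 0 < ε)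
    (hdiv : ¬ Summable fun q : ℕ => ψ q / (q.divisors.card : ℝ) ^ (1 + ε)) (N : ℕ) :
    ∃ F : Finset ℕ, (∀ q ∈ F, N < q) ∧ 1 ≤ ∑ q ∈ F, ψ q ∧
      ∑ q ∈ F, ψ q * (q.divisors.card : ℝ) ≤ (∑ q ∈ F, ψ q) ^ 2 := by
  by_contra hno
  push Not at hno
  set x := (2 : ℝ) ^ (-ε) with hx
  have hx0 : 0 ≤ x := by positivity
  have hx1 : x < 1 := Real.rpow_lt_one_of_one_lt_of_neg one_lt_two (neg_neg_of_pos hε)
  have hclass : ∀ (j : ℕ) (F : Finset ℕ), (∀ q ∈ F, N < q ∧ q.divisors.card ≤ 2 ^ (j + 1)) →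
      ∑ q ∈ F, ψ q ≤ 2 ^ (j + 1) := by
    intro j F hF
    by_contra hlt
    rw [not_le] at hlt
    have h1 : (1 : ℝ) ≤ 2 ^ (j + 1) := one_le_pow₀ one_le_two
    have h2 := hno F (fun q hq => (hF q hq).1) (h1.trans hlt.le)
    have h3 : ∑ q ∈ F, ψ q * (q.divisors.card : ℝ) ≤ (∑ q ∈ F, ψ q) * 2 ^ (j + 1) := by
      rw [sum_mul]
      exact sum_le_sum fun q hq => mul_le_mul_of_nonneg_left
        (by exact_mod_cast (hF q hq).2) (h0 q)
    nlinarith
  refine hdiv (summable_of_sum_le (c := 2 * (1 - x)⁻¹ + ∑ q ∈ range (N + 1),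
    ψ q / (q.divisors.card : ℝ) ^ (1 + ε)) (fun q => div_nonneg (h0 q) (by positivity)) fun u => ?_)
  rw [← sum_filter_add_sum_filter_not u (fun q => N < q)]
  refine add_le_add ?_ (sum_le_sum_of_subset_of_nonneg (fun q hq => mem_range.2
    (Nat.lt_succ_of_le (not_lt.1 (mem_filter.1 hq).2))) fun q _ _ =>
      div_nonneg (h0 q) (by positivity))
  set v := u.filter (fun q => N < q) with hv
  set key : ℕ → ℕ := fun q => Nat.log 2 q.divisors.card with hkey
  rw [← sum_fiberwise_of_maps_to (g := key) (t := range (v.sup key + 1))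
    (fun q hq => mem_range.2 (Nat.lt_succ_of_le (le_sup (f := key) hq)))]
  calc ∑ j ∈ range (v.sup key + 1), ∑ q ∈ v.filter (fun q => key q = j),
        ψ q / (q.divisors.card : ℝ) ^ (1 + ε)
      ≤ ∑ j ∈ range (v.sup key + 1), 2 * x ^ j := by
        refine sum_le_sum fun j _ => ?_
        set G := v.filter (fun q => key q = j) with hG
        have hG' : ∀ q ∈ G, N < q ∧ 2 ^ j ≤ q.divisors.card ∧ q.divisors.card ≤ 2 ^ (j + 1) := by
          intro q hq
          obtain ⟨hqv, hqj⟩ := mem_filter.1 hq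
          have hNq : N < q := (mem_filter.1 hqv).2
          have hpos : 0 < q.divisors.card := card_pos.2 ⟨1, Nat.one_mem_divisors.2 (by omega)⟩
          obtain ⟨a, b⟩ := dyadic_mem hpos hqj
          exact ⟨hNq, a, b.le⟩
        calc ∑ q ∈ G, ψ q / (q.divisors.card : ℝ) ^ (1 + ε)
            ≤ ∑ q ∈ G, ψ q / ((2 : ℝ) ^ j) ^ (1 + ε) := by
              refine sum_le_sum fun q hq => div_le_div_of_nonneg_left (h0 q) (by positivity) ?_
              exact Real.rpow_le_rpow (by positivity) (by exact_mod_cast (hG' q hq).2.1) (by linarith)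
          _ ≤ 2 ^ (j + 1) / ((2 : ℝ) ^ j) ^ (1 + ε) := by
              rw [← sum_div]
              exact div_le_div_of_nonneg_right
                (hclass j G fun q hq => ⟨(hG' q hq).1, (hG' q hq).2.2⟩) (by positivity)
          _ = 2 * x ^ j := by
              rw [Real.rpow_add (by positivity), Real.rpow_one, hx, ← Real.rpow_natCast ((2 : ℝ) ^ (-ε)) j,
                ← Real.rpow_mul zero_le_two, ← Real.rpow_natCast (2 : ℝ) j, ← Real.rpow_mul zero_le_two,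
                neg_mul, Real.rpow_neg zero_le_two, mul_comm ε (j : ℝ), pow_succ,
                Real.rpow_natCast]
              field_simp
    _ ≤ 2 * (1 - x)⁻¹ := by
        rw [← mul_sum]
        refine mul_le_mul_of_nonneg_left ?_ zero_le_two
        rw [← tsum_geometric_of_lt_one hx0 hx1]
        exact (summable_geometric_of_lt_one hx0 hx1).sum_le_tsum _ fun i _ => by positivity

theorem full_measure_divisor (γ : ℝ) {ψ : ℕ → ℝ} (h0 : ∀ q, 0 ≤ ψ q) {ε : ℝ} (hε : 0 < ε)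
    (hdiv : ¬ Summable fun q : ℕ => ψ q / (q.divisors.card : ℝ) ^ (1 + ε)) :
    ∀ᵐ x : ℝ, {q : ℕ | 0 < q ∧ ∃ a : ℤ, |(q : ℝ) * x - a - γ| < ψ q}.Infinite := by
  by_cases hbig : {q : ℕ | 1 / 2 < ψ q}.Infinite
  · refine Filter.Eventually.of_forall fun x => ((hbig.sdiff (Set.finite_singleton 0))).mono ?_
    rintro q ⟨hq, hq0⟩
    refine ⟨Nat.pos_of_ne_zero hq0, round ((q : ℝ) * x - γ), ?_⟩
    have := abs_sub_round ((q : ℝ) * x - γ)
    rw [sub_right_comm]
    exact this.trans_lt hq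
  · rw [Set.not_infinite] at hbig
    obtain ⟨M, hM⟩ := hbig.bddAbove
    choose F hFn hFS hgood using fun n : ℕ => exists_good_block h0 hε hdiv (n + M)
    have hFq : ∀ n, ∀ q ∈ F n, 0 < q ∧ ψ q ≤ 1 / 2 ∧ n < q := fun n q hq => by
      have h1 := hFn n q hq
      refine ⟨by omega, not_lt.1 fun hlt => ?_, by omega⟩
      have h2 : q ≤ M := hM hlt
      omega
    exact ae_of_unit_null (unit_null_of_blocks (by norm_num) h0 F hFq hFS fun n =>
      second_moment_divisor γ ψ h0 (F n) (fun q hq => ⟨(hFq n q hq).1, (hFq n q hq).2.1⟩) (hgood n))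

end

end Vale.Agent.P028.ErdosVaaler
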