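import Mathlib

/-!
An upper bound for the number of multiples in a progression which send `t * γ` near an
integer, for `γ` of finite irrationality exponent.
-/

namespace Vale.Agent.P028.ErdosVaaler

open Finset

/-- `t γ` is within `D` of an integer. -/
def Hit (γ D t : ℝ) : Prop := ∃ n : ℤ, |t * γ - n| < D

/-- Every positive multiple of `γ` stays at distance `c / k ^ w` from the integers. -/
def Dio (γ c : ℝ) (w : ℕ) : Prop :=
  0 < c ∧ 1 ≤ w ∧ ∀ k : ℕ, 0 < k → ∀ n : ℤ, c / (k : ℝ) ^ w ≤ |(k : ℝ) * γ - n|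

lemma Hit.mono {γ D D' t : ℝ} (h : Hit γ D t) (hD : D ≤ D') : Hit γ D' t := by
  obtain ⟨n, hn⟩ := h
  exact ⟨n, hn.trans_le hD⟩

lemma Hit.neg {γ D t : ℝ} (h : Hit γ D t) : Hit γ D (-t) := by
  obtain ⟨n, hn⟩ := h
  refine ⟨-n, ?_⟩
  push_cast
  rw [show -t * γ - -(n : ℝ) = -(t * γ - n) by ring, abs_neg]
  exact hn

lemma hit_count_rational {α β D : ℝ} {u : ℤ} {v L : ℕ} (hD : 0 ≤ D) (hv : 0 < v) (hvL : v ≤ L)
    (hco : Nat.Coprime u.natAbs v) (happ : |(v : ℝ) * α - u| ≤ 1 / ((L : ℝ) + 1))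
    (S : Finset ℕ) (hS : ∀ j ∈ S, j < L ∧ ∃ n : ℤ, |(j : ℝ) * α + β - n| < D) :
    (S.card : ℝ) ≤ 4 * L * D + 6 * ((L : ℝ) / v) := by
  classical
  have hvR : (0 : ℝ) < v := Nat.cast_pos.2 hv
  set N : ℕ := ⌊2 * v * D + 3⌋₊ with hN
  have hmain : S.card ≤ N * (S.image (fun j => j / v)).card := by
    refine card_le_mul_card_image S N fun b _ => ?_
    set F := S.filter (fun j => j / v = b) with hF
    set cb : ℝ := v * β + (b : ℝ) * v * (v * α) with hcb
    set I := Icc ⌈-cb - (v * D + 1)⌉ ⌊-cb + (v * D + 1)⌋ with hI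
    let g : ℕ → ℤ := fun j =>
      if hj : ∃ n : ℤ, |(j : ℝ) * α + β - n| < D then ((j % v : ℕ) : ℤ) * u - hj.choose * v else 0
    have hmap : ∀ j ∈ F, g j ∈ I := by
      intro j hj
      obtain ⟨hjS, hjb⟩ := mem_filter.1 hj
      have hex := (hS j hjS).2
      simp only [g, dif_pos hex]
      set n := hex.choose with hn
      have hnD : |(j : ℝ) * α + β - n| < D := hex.choose_spec
      have hj' : (j : ℝ) = (b : ℝ) * v + (j % v : ℕ) := by
        have := Nat.div_add_mod j v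
        rw [hjb, mul_comm] at this
        exact_mod_cast this.symm
      have hsmall : |((j % v : ℕ) : ℝ) * ((v : ℝ) * α - u)| ≤ 1 := by
        rw [abs_mul, Nat.abs_cast]
        calc ((j % v : ℕ) : ℝ) * |(v : ℝ) * α - u| ≤ (L : ℝ) * (1 / ((L : ℝ) + 1)) := by
              refine mul_le_mul ?_ happ (abs_nonneg _) (Nat.cast_nonneg _)
              exact Nat.cast_le.2 (((Nat.mod_lt j hv).le).trans hvL)
          _ ≤ 1 := by rw [mul_one_div, div_le_one (by positivity)]; linarith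
      have e : (v : ℝ) * ((j : ℝ) * α + β - n)
          = ((((j % v : ℕ) : ℤ) * u - n * v : ℤ) : ℝ) + cb
            + ((j % v : ℕ) : ℝ) * ((v : ℝ) * α - u) := by
        rw [hcb, hj']; generalize j % v = t; push_cast; ring
      have h1 : |(v : ℝ) * ((j : ℝ) * α + β - n)| < v * D := by
        rw [abs_mul, Nat.abs_cast]
        exact mul_lt_mul_of_pos_left hnD hvR
      rw [e] at h1
      obtain ⟨a1, a2⟩ := abs_lt.1 h1
      obtain ⟨b1, b2⟩ := abs_le.1 hsmall
      exact mem_Icc.2 ⟨Int.ceil_le.2 (by linarith), Int.le_floor.2 (by linarith)⟩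
    have hinj : Set.InjOn g F := by
      intro x hx y hy hxy
      obtain ⟨hxS, hxb⟩ := mem_filter.1 (mem_coe.1 hx)
      obtain ⟨hyS, hyb⟩ := mem_filter.1 (mem_coe.1 hy)
      simp only [g, dif_pos (hS x hxS).2, dif_pos (hS y hyS).2] at hxy
      have hd : (v : ℤ) ∣ (((x % v : ℕ) : ℤ) - ((y % v : ℕ) : ℤ)) * u :=
        ⟨(hS x hxS).2.choose - (hS y hyS).2.choose, by linear_combination hxy⟩
      have hc : IsCoprime (v : ℤ) u := by
        rw [Int.isCoprime_iff_gcd_eq_one, Int.gcd, Int.natAbs_natCast]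
        exact Nat.coprime_comm.1 hco
      have h2 := hc.dvd_of_dvd_mul_right hd
      have hxlt : ((x % v : ℕ) : ℤ) < v := Int.ofNat_lt.2 (Nat.mod_lt x hv)
      have hylt : ((y % v : ℕ) : ℤ) < v := Int.ofNat_lt.2 (Nat.mod_lt y hv)
      have h3 : ((x % v : ℕ) : ℤ) - ((y % v : ℕ) : ℤ) = 0 :=
        Int.eq_zero_of_abs_lt_dvd h2 (abs_lt.2 ⟨by omega, by omega⟩)
      have h4 : x % v = y % v := by omega
      rw [← Nat.div_add_mod x v, ← Nat.div_add_mod y v, hxb, hyb, h4]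
    have hcard : F.card ≤ I.card := card_le_card_of_injOn g hmap hinj
    refine hcard.trans (Nat.le_floor ?_)
    have hIc : (I.card : ℤ) ≤ max (⌊-cb + (v * D + 1)⌋ + 1 - ⌈-cb - (v * D + 1)⌉) 0 := by
      rw [hI, Int.card_Icc, Int.toNat_eq_max]
    have hIR : (I.card : ℝ) ≤ max (((⌊-cb + (v * D + 1)⌋ + 1 - ⌈-cb - (v * D + 1)⌉ : ℤ)) : ℝ) 0 := by
      exact_mod_cast hIc
    refine hIR.trans (max_le ?_ (by positivity))
    push_cast
    linarith [Int.floor_le (-cb + (v * D + 1)), Int.le_ceil (-cb - (v * D + 1))]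
  have himg : ((S.image (fun j => j / v)).card : ℝ) ≤ (L : ℝ) / v + 1 := by
    have hsub : S.image (fun j => j / v) ⊆ range (L / v + 1) := by
      intro b hb
      obtain ⟨j, hj, rfl⟩ := mem_image.1 hb
      exact mem_range.2 (Nat.lt_succ_of_le (Nat.div_le_div_right (hS j hj).1.le))
    calc ((S.image (fun j => j / v)).card : ℝ) ≤ ((L / v + 1 : ℕ) : ℝ) := by
          exact_mod_cast (card_le_card hsub).trans (card_range _).le
      _ ≤ _ := by push_cast; exact add_le_add Nat.cast_div_le le_rfl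
  have hNle : (N : ℝ) ≤ 2 * v * D + 3 := Nat.floor_le (by positivity)
  have hLv : (1 : ℝ) ≤ (L : ℝ) / v := (one_le_div hvR).2 (Nat.cast_le.2 hvL)
  calc (S.card : ℝ) ≤ (N : ℝ) * (S.image (fun j => j / v)).card := by exact_mod_cast hmain
    _ ≤ (2 * v * D + 3) * ((L : ℝ) / v + 1) :=
        mul_le_mul hNle himg (Nat.cast_nonneg _) (by positivity)
    _ = 2 * L * D + 3 * ((L : ℝ) / v) + 2 * v * D + 3 := by field_simp; ring
    _ ≤ 4 * L * D + 6 * ((L : ℝ) / v) := by
        have : (v : ℝ) * D ≤ (L : ℝ) * D := mul_le_mul_of_nonneg_right (Nat.cast_le.2 hvL) hD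
        linarith

/-- Hit count along a progression of multiples of `m` in a dyadic interval. -/
lemma exists_hit_progression {γ c : ℝ} {w : ℕ} (hdio : Dio γ c w) (G : ℝ) (hG : 0 < G) :
    ∃ A : ℝ, 0 ≤ A ∧ ∀ (d f a y M : ℕ) (D : ℝ) (S : Finset ℕ), 0 < d → 0 < f → 1 ≤ M → 0 ≤ D →
      (M : ℝ) ^ (w + 1) * d ≤ G * 2 ^ a →
      (∀ x ∈ S, x < 2 ^ (a + 1) ∧ 0 < x ∧ d * f ∣ x ∧ Hit γ D (((x : ℝ) - y) / d)) →
      (S.card : ℝ) ≤ 16 * (2 ^ a / ((d : ℝ) * f)) * D + A * (2 ^ a / ((d : ℝ) * M)) := by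
  obtain ⟨hc, hw, hdio⟩ := hdio
  set κ := min 1 (c / G) with hκ
  have hκ0 : 0 < κ := lt_min one_pos (div_pos hc hG)
  refine ⟨1 + 4 + 24 / κ, by positivity, ?_⟩
  intro d f a y M D S hd hf hM hD hdM hS
  set m := d * f with hm
  have hm0 : 0 < m := Nat.mul_pos hd hf
  have hdR : (0 : ℝ) < d := Nat.cast_pos.2 hd
  have hfR : (0 : ℝ) < f := Nat.cast_pos.2 hf
  have hMR : (0 : ℝ) < M := Nat.cast_pos.2 hM
  set P : ℝ := 2 ^ a / (d : ℝ) with hP
  have hPM : (2 : ℝ) ^ a / ((d : ℝ) * M) = P / M := by rw [hP, div_div]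
  have hPm : (2 : ℝ) ^ a / ((d : ℝ) * f) = P / f := by rw [hP, div_div]
  rw [hPM, hPm]
  have hP0 : 0 < P := by positivity
  by_cases hbig : 2 ^ (a + 1) < m
  · have : S = ∅ := eq_empty_of_forall_notMem fun x hx => by
      obtain ⟨h1, h2, h3, -⟩ := hS x hx
      have := Nat.le_of_dvd h2 h3
      omega
    rw [this, card_empty, Nat.cast_zero]
    positivity
  set L := 2 ^ (a + 1) / m + 1 with hL
  have hfL : (f : ℝ) * L ≤ 4 * P := by
    have h1 : m * L ≤ 4 * 2 ^ a := by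
      have := Nat.div_mul_le_self (2 ^ (a + 1)) m
      rw [hL, mul_add, mul_one, mul_comm m]
      rw [pow_succ] at this hbig ⊢
      omega
    have h2 : (d : ℝ) * f * L ≤ 4 * 2 ^ a := by exact_mod_cast h1
    rw [hP, ← mul_div_assoc, le_div_iff₀ hdR]
    linarith
  set T := S.image (fun x => x / m) with hT
  have hinj : Set.InjOn (fun x => x / m) S := fun x hx z hz hxz => by
    have hxz' : x / m = z / m := hxz
    rw [← Nat.div_mul_cancel (hS x hx).2.2.1, hxz', Nat.div_mul_cancel (hS z hz).2.2.1]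
  have hcard : S.card = T.card := (card_image_of_injOn hinj).symm
  have hTprop : ∀ j ∈ T, j < L ∧
      ∃ n : ℤ, |(j : ℝ) * ((f : ℝ) * γ) + (-(y : ℝ) / d * γ) - n| < D := by
    intro j hj
    obtain ⟨x, hx, rfl⟩ := mem_image.1 hj
    obtain ⟨h1, -, h3, n, hn⟩ := hS x hx
    refine ⟨Nat.lt_succ_of_le (Nat.div_le_div_right h1.le), n, ?_⟩
    obtain ⟨j, rfl⟩ := h3
    rw [Nat.mul_div_cancel_left j hm0]
    convert hn using 2
    rw [hm]; push_cast; field_simp; ring
  rw [hcard]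
  by_cases hsmall : (L : ℝ) ≤ P / M
  · have h1 : (T.card : ℝ) ≤ L := by
      have : T.card ≤ L := (card_le_card (fun j hj => mem_range.2 (hTprop j hj).1)).trans
        (card_range L).le
      exact_mod_cast this
    calc (T.card : ℝ) ≤ P / M := h1.trans hsmall
      _ ≤ (1 + 4 + 24 / κ) * (P / M) :=
          le_mul_of_one_le_left (by positivity) (by have : (0 : ℝ) ≤ 24 / κ := (by positivity); linarith)
      _ ≤ _ := le_add_of_nonneg_left (by positivity)
  rw [not_le] at hsmall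
  have hL0 : 0 < L := Nat.succ_pos _
  obtain ⟨q, hq1, hq2⟩ := Real.exists_rat_abs_sub_le_and_den_le ((f : ℝ) * γ) hL0
  set v := q.den with hv
  have hv0 : 0 < v := q.den_pos
  have hvR : (0 : ℝ) < v := Nat.cast_pos.2 hv0
  have happ : |(v : ℝ) * ((f : ℝ) * γ) - q.num| ≤ 1 / ((L : ℝ) + 1) := by
    have e : (v : ℝ) * ((f : ℝ) * γ) - q.num = (v : ℝ) * ((f : ℝ) * γ - q) := by
      rw [mul_sub, Rat.cast_def, hv]
      field_simp
    rw [e, abs_mul, Nat.abs_cast]
    calc (v : ℝ) * |(f : ℝ) * γ - q| ≤ (v : ℝ) * (1 / (((L : ℝ) + 1) * v)) :=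
          mul_le_mul_of_nonneg_left hq1 hvR.le
      _ = _ := by field_simp
  have hmain := hit_count_rational hD hv0 hq2 q.reduced happ T hTprop
  have hvf : κ * M ≤ (v : ℝ) * f := by
    by_contra hlt
    rw [not_le] at hlt
    have h1 : c / ((v : ℝ) * f) ^ w ≤ 1 / ((L : ℝ) + 1) := by
      refine le_trans ?_ happ
      have := hdio (v * f) (Nat.mul_pos hv0 hf) q.num
      push_cast at this
      rwa [← mul_assoc]
    rw [div_le_div_iff₀ (by positivity) (by positivity), one_mul] at h1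
    have h2 : ((v : ℝ) * f) ^ w ≤ c / G * (M : ℝ) ^ w := by
      calc ((v : ℝ) * f) ^ w ≤ (κ * M) ^ w := pow_le_pow_left₀ (by positivity) hlt.le w
        _ = κ ^ w * (M : ℝ) ^ w := mul_pow _ _ _
        _ ≤ _ := mul_le_mul_of_nonneg_right
            ((pow_le_of_le_one hκ0.le (min_le_left _ _) (by omega)).trans (min_le_right _ _))
            (by positivity)
    have h3 : (M : ℝ) ^ w ≤ G * (L : ℝ) := by
      have h4 : (M : ℝ) ^ (w + 1) ≤ G * P := by
        rw [hP, ← mul_div_assoc, le_div_iff₀ hdR]; exact hdM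
      have h5 : P ≤ (L : ℝ) * M := ((div_lt_iff₀ hMR).1 hsmall).le
      have h6 : (M : ℝ) ^ w * M ≤ G * L * M := by
        rw [← pow_succ]
        calc (M : ℝ) ^ (w + 1) ≤ G * P := h4
          _ ≤ G * ((L : ℝ) * M) := mul_le_mul_of_nonneg_left h5 hG.le
          _ = _ := (mul_assoc _ _ _).symm
      exact le_of_mul_le_mul_right h6 hMR
    have h7 : c / G * (M : ℝ) ^ w ≤ c * L := by
      calc c / G * (M : ℝ) ^ w ≤ c / G * (G * L) := mul_le_mul_of_nonneg_left h3 (by positivity)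
        _ = c * L := by field_simp
    linarith
  have hLv : (L : ℝ) / v ≤ 4 / κ * (P / M) := by
    rw [div_le_iff₀ hvR]
    calc (L : ℝ) = (f * L : ℝ) / f := by field_simp
      _ ≤ 4 * P / f := div_le_div_of_nonneg_right hfL hfR.le
      _ ≤ 4 * P / f * ((v : ℝ) * f / (κ * M)) :=
          le_mul_of_one_le_right (by positivity) ((one_le_div (by positivity)).2 hvf)
      _ = _ := by field_simp
  have hLD : 4 * (L : ℝ) * D ≤ 16 * (P / f) * D := by
    refine mul_le_mul_of_nonneg_right ?_ hD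
    have : (L : ℝ) ≤ 4 * P / f := (le_div_iff₀' hfR).2 hfL
    calc 4 * (L : ℝ) ≤ 4 * (4 * P / f) := by linarith
      _ = _ := by ring
  have hX : 0 ≤ P / M := by positivity
  calc (T.card : ℝ) ≤ 4 * L * D + 6 * ((L : ℝ) / v) := hmain
    _ ≤ 16 * (P / f) * D + 6 * (4 / κ * (P / M)) := by linarith
    _ ≤ _ := by
        have e : 6 * (4 / κ * (P / M)) = 24 / κ * (P / M) := by ring
        rw [e]
        nlinarith

end Vale.Agent.P028.ErdosVaaler
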