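import Vale.Agent.P028.ErdosVaaler.LevelPairs

/-!
Column sums inside one level and the assembly: the exceptional overlaps of a level sum to
`O(F^(3δ))` times the total mass.
-/

namespace Vale.Agent.P028.ErdosVaaler

open Finset

noncomputable section

open scoped Classical

/-- Column sums at one level with the weight `W F q ^ 2`. -/
lemma exists_col_level {γ c : ℝ} {w : ℕ} (hdio : Dio γ c w) {δ : ℝ} (hδ : 0 < δ) (hδ' : δ ≤ 1 / 8) :
    ∃ A : ℝ, 0 ≤ A ∧ ∀ (F : ℝ) (ψ : ℕ → ℝ), 1 ≤ F → Small (2 * F) ψ →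
      ∀ (r i : ℕ) (S : Finset ℕ), 0 < r → Level F ψ r →
      (∀ q ∈ S, r < q ∧ Nat.log 2 q - Nat.log 2 r = i ∧ i ≤ Nat.log 2 q / NL w ∧
        F ≤ 2 ^ (Nat.log 2 q / NL w)) →
      ∑ q ∈ S, T2 γ ψ q r * W F q ^ 2 ≤ A * F ^ (3 * δ) * (ψ r * W F r) := by
  obtain ⟨G, hG, hadm⟩ := exists_adm_level hdio
  obtain ⟨A₀, hA₀, hhit⟩ := exists_hit_progression hdio G hG
  obtain ⟨BW, hBW, hW⟩ := exists_W_le_Ws w
  obtain ⟨A₂, hA₂, hmom⟩ := exists_moment_two hδ (hδ'.trans (by norm_num))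
  obtain ⟨B₁, hB₁0, hB₁⟩ := exists_card_divisors_dyadic (NL w) (NL_pos w)
  refine ⟨BW ^ 2 * (96 * A₂ + A₀ * B₁), by positivity, fun F ψ hF1 hψ r i S hr hlev hS => ?_⟩
  have hF : 0 < F := zero_lt_one.trans_le hF1
  set b := Nat.log 2 r with hb
  set a := b + i with ha
  set s := a / NL w with hs
  set M := 2 ^ (16 * s) with hM
  set E := 2 ^ (3 * s) with hE
  obtain ⟨hrb, hbr⟩ := dyadic_mem hr hb.symm
  have hrR : (0 : ℝ) < r := Nat.cast_pos.2 hr
  have hW1 : 1 ≤ W F r := one_le_W hF1 hr.ne'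
  have hFp : 1 ≤ F ^ (3 * δ) := Real.one_le_rpow hF1 (by linarith)
  rcases S.eq_empty_or_nonempty with rfl | hne
  · rw [sum_empty]
    exact mul_nonneg (by positivity) (mul_nonneg (hψ r).1 (W_nonneg F r))
  have hqa : ∀ q ∈ S, Nat.log 2 q = a ∧ i ≤ s ∧ F ≤ 2 ^ s := fun q hq => by
    obtain ⟨h1, h2, h3, h4⟩ := hS q hq
    have hle : b ≤ Nat.log 2 q := Nat.log_mono_right h1.le
    have e : Nat.log 2 q = a := by omega
    exact ⟨e, by rw [e] at h3; exact h3, by rw [e] at h4; exact h4⟩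
  obtain ⟨q₀, hq₀⟩ := hne
  have his : i ≤ s := (hqa q₀ hq₀).2.1
  have hFs : F ≤ 2 ^ s := (hqa q₀ hq₀).2.2
  set m := min (2 * F / ((2 : ℝ) ^ a) ^ 2) (ψ r / (r : ℝ)) with hm
  have hm0 : 0 ≤ m := le_min (by positivity) (div_nonneg (hψ r).1 hrR.le)
  set DC : ℕ → ℝ := fun d => ((r : ℝ) * (2 * F / 2 ^ a) + 2 * 2 ^ a * ψ r) / (d : ℝ) with hDC
  set base : Finset ℕ := r.divisors.filter (fun d : ℕ => F < (d : ℝ)) with hbase
  set adm : Finset ℕ := base.filter (fun d : ℕ => (M : ℝ) ^ (w + 1) * (d : ℝ) ≤ G * 2 ^ a)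
    with hadm'
  set P : ℕ → ℕ → Prop := fun d q => d ∣ q ∧ Hit γ (DC d) (((q : ℝ) - r) / d) with hP
  have step1 : ∀ q ∈ S, T2 γ ψ q r ≤ m * ∑ d ∈ adm, if P d q then (d : ℝ) else 0 := by
    intro q hq
    obtain ⟨hrq, hi, -, -⟩ := hS q hq
    obtain ⟨hla, -, -⟩ := hqa q hq
    obtain ⟨hqa', hqa''⟩ := dyadic_mem (hr.trans hrq) hla
    have h2a : (2 : ℝ) ^ a ≤ q := by exact_mod_cast hqa'
    have hq2 : (q : ℝ) ≤ 2 * 2 ^ a := by
      have := hqa''.le
      rw [pow_succ'] at this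
      exact_mod_cast this
    have hψq : ψ q ≤ 2 * F / 2 ^ a :=
      (hψ q).2.trans (div_le_div_of_nonneg_left (by linarith) (by positivity) h2a)
    rcases T2_eq_or (γ := γ) hψ hr hrq hlev with h0 | ⟨hFg, hit, heq⟩
    · rw [h0]
      exact mul_nonneg hm0 (sum_nonneg fun d _ => by split <;> [exact Nat.cast_nonneg _; exact le_rfl])
    · rw [heq]
      have hg : q.gcd r ∈ adm := by
        refine mem_filter.2 ⟨mem_filter.2
          ⟨Nat.mem_divisors.2 ⟨Nat.gcd_dvd_right q r, hr.ne'⟩, hFg⟩, ?_⟩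
        have h3 := hadm ψ F a i q r hF.le hψ hr hrq hla (by rw [ha, Nat.add_sub_cancel]; exact hrb)
          his hFs hit
        rw [hM]; push_cast
        refine h3.trans (mul_le_mul_of_nonneg_left ?_ hG.le)
        exact pow_le_pow_right₀ one_le_two (Nat.sub_le a i)
      have hPg : P (q.gcd r) q := ⟨Nat.gcd_dvd_left q r, hit.mono ((min_le_right _ _).trans
        (div_le_div_of_nonneg_right (add_le_add
          (mul_le_mul_of_nonneg_left hψq hrR.le)
          (mul_le_mul_of_nonneg_right hq2 (hψ r).1)) (Nat.cast_nonneg _)))⟩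
      have hmin : min (ψ q / q) (ψ r / r) ≤ m := by
        refine min_le_min ?_ le_rfl
        calc ψ q / q ≤ (2 * F / 2 ^ a) / 2 ^ a :=
              div_le_div₀ (by positivity) hψq (by positivity) h2a
          _ = _ := by rw [div_div, sq]
      calc (q.gcd r : ℝ) * min (ψ q / q) (ψ r / r) ≤ (q.gcd r : ℝ) * m :=
            mul_le_mul_of_nonneg_left hmin (Nat.cast_nonneg _)
        _ = m * (if P (q.gcd r) q then (q.gcd r : ℝ) else 0) := by rw [if_pos hPg, mul_comm]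
        _ ≤ _ := mul_le_mul_of_nonneg_left (single_le_sum
            (f := fun d : ℕ => if P d q then (d : ℝ) else 0)
            (fun d _ => by split <;> [exact Nat.cast_nonneg _; exact le_rfl]) hg) hm0
  have h2b : (2 : ℝ) ^ a / r ≤ 2 ^ i := by
    rw [div_le_iff₀ hrR, ha, pow_add, mul_comm]
    refine mul_le_mul_of_nonneg_left ?_ (by positivity)
    exact_mod_cast hrb
  have hcount : ∀ d ∈ adm, ∀ x ∈ Icc 1 E, ∀ y ∈ Icc 1 E,
      ((S.filter (fun q => P d q ∧ x ∣ q ∧ y ∣ q)).card : ℝ) * d * m ≤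
        ψ r * (96 * (F / (d : ℝ)) * (((x.lcm y).gcd d : ℝ) / (x.lcm y : ℝ))
          + A₀ * 2 ^ i / (M : ℝ)) := by
    intro d hd x hx y hy
    obtain ⟨hd1, hd2⟩ := mem_filter.1 hd
    have hd0 : 0 < d := Nat.pos_of_mem_divisors (mem_filter.1 hd1).1
    set e := x.lcm y with he
    have he0 : 0 < e := Nat.lcm_pos (mem_Icc.1 hx).1 (mem_Icc.1 hy).1
    have hdR : (0 : ℝ) < d := Nat.cast_pos.2 hd0
    have heR : (0 : ℝ) < e := Nat.cast_pos.2 he0
    obtain ⟨f, hf⟩ := Nat.gcd_dvd_left e d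
    have hg0 : 0 < e.gcd d := Nat.gcd_pos_of_pos_left _ he0
    have hf0 : 0 < f := by
      rcases Nat.eq_zero_or_pos f with rfl | h0
      · rw [mul_zero] at hf; omega
      · exact h0
    have hfR : (0 : ℝ) < f := Nat.cast_pos.2 hf0
    have hlcm : d.lcm e = d * f := by
      rw [Nat.lcm, Nat.gcd_comm d e]
      conv_lhs => arg 1; rw [hf]
      rw [mul_left_comm, Nat.mul_div_cancel_left _ hg0]
    have hDC0 : 0 ≤ DC d := by
      have := (hψ r).1
      positivity
    have key := hhit d f a r M (DC d) (S.filter (fun q => P d q ∧ x ∣ q ∧ y ∣ q)) hd0 hf0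
      Nat.one_le_two_pow hDC0 hd2 ?_
    · have hfe : (1 : ℝ) / f = (e.gcd d : ℝ) / e := by
        rw [div_eq_div_iff hfR.ne' heR.ne', one_mul]
        exact_mod_cast hf
      have hmD : 2 ^ a * m * DC d ≤ 6 * ψ r * (F / d) := by
        rw [hDC]
        simp only
        rw [← mul_div_assoc (6 * ψ r), mul_div_assoc']
        refine div_le_div_of_nonneg_right ?_ hdR.le
        have h1 : m * r ≤ ψ r := (le_div_iff₀ hrR).1 (min_le_right _ _)
        have h2 : m * ((2 : ℝ) ^ a) ^ 2 ≤ 2 * F := (le_div_iff₀ (by positivity)).1 (min_le_left _ _)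
        have e1 : 2 ^ a * m * ((r : ℝ) * (2 * F / 2 ^ a) + 2 * 2 ^ a * ψ r)
            = 2 * F * (m * r) + 2 * ψ r * (m * ((2 : ℝ) ^ a) ^ 2) := by field_simp
        rw [e1]
        have h3 := mul_le_mul_of_nonneg_left h1 (show (0 : ℝ) ≤ 2 * F by positivity)
        have h4 := mul_le_mul_of_nonneg_left h2
          (mul_nonneg (zero_le_two : (0 : ℝ) ≤ 2) (hψ r).1)
        linarith
      have hm2 : 2 ^ a * m ≤ ψ r * 2 ^ i := by
        calc 2 ^ a * m ≤ 2 ^ a * (ψ r / r) :=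
              mul_le_mul_of_nonneg_left (min_le_right _ _) (by positivity)
          _ = ψ r * ((2 : ℝ) ^ a / r) := by ring
          _ ≤ _ := mul_le_mul_of_nonneg_left h2b (hψ r).1
      calc ((S.filter (fun q => P d q ∧ x ∣ q ∧ y ∣ q)).card : ℝ) * d * m
          ≤ (16 * (2 ^ a / ((d : ℝ) * f)) * DC d + A₀ * (2 ^ a / ((d : ℝ) * M))) * d * m :=
            mul_le_mul_of_nonneg_right (mul_le_mul_of_nonneg_right key hdR.le) hm0
        _ = 16 * (2 ^ a * m * DC d) * (1 / f) + A₀ * (2 ^ a * m) / M := by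
            field_simp
        _ ≤ 16 * (6 * ψ r * (F / d)) * (1 / f) + A₀ * (ψ r * 2 ^ i) / M := by gcongr
        _ = _ := by rw [hfe]; ring
    · intro q hq
      obtain ⟨hqS, ⟨hdq, hhit'⟩, hxq, hyq⟩ := mem_filter.1 hq
      obtain ⟨hrq, -, -, -⟩ := hS q hqS
      exact ⟨(dyadic_mem (hr.trans hrq) (hqa q hqS).1).2, hr.trans hrq,
        hlcm ▸ Nat.lcm_dvd hdq (Nat.lcm_dvd hxq hyq), hhit'⟩
  calc ∑ q ∈ S, T2 γ ψ q r * W F q ^ 2
      ≤ ∑ q ∈ S, (m * ∑ d ∈ adm, if P d q then (d : ℝ) else 0) * (BW ^ 2 * Ws F E q ^ 2) := by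
        refine sum_le_sum fun q hq => mul_le_mul (step1 q hq) ?_ (sq_nonneg _) ?_
        · rw [← mul_pow]
          exact pow_le_pow_left₀ (W_nonneg F q) (hW F a q hF1 hFs (hr.trans (hS q hq).1)
            (dyadic_mem (hr.trans (hS q hq).1) (hqa q hq).1).2) 2
        · exact mul_nonneg hm0 (sum_nonneg fun d _ => by split <;> [exact Nat.cast_nonneg _; exact le_rfl])
    _ = BW ^ 2 * ∑ d ∈ adm, ∑ x ∈ Icc 1 E, ∑ y ∈ Icc 1 E, (wt F x * wt F y) *
            (((S.filter (fun q => P d q ∧ x ∣ q ∧ y ∣ q)).card : ℝ) * d * m) := by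
        simp only [Ws, sq (∑ e ∈ Icc 1 E, _), mul_sum, sum_mul]
        simp_rw [card_filter, Nat.cast_sum, sum_mul, mul_sum]
        rw [sum_comm]
        refine (sum_congr rfl fun x _ => sum_comm).trans ?_
        refine (sum_congr rfl fun x _ => sum_congr rfl fun y _ => sum_comm).trans ?_
        refine Eq.trans ?_ (Eq.trans sum_comm (sum_congr rfl fun x _ => sum_comm)).symm
        refine sum_congr rfl fun x _ => sum_congr rfl fun y _ => sum_congr rfl fun d _ =>
          sum_congr rfl fun q _ => ?_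
        by_cases h1 : P d q <;> by_cases h2 : x ∣ q <;> by_cases h3 : y ∣ q <;>
          simp [h1, h2, h3] <;> ring
    _ ≤ BW ^ 2 * ∑ d ∈ adm, ∑ x ∈ Icc 1 E, ∑ y ∈ Icc 1 E, (wt F x * wt F y) *
          (ψ r * (96 * (F / (d : ℝ)) * (((x.lcm y).gcd d : ℝ) / (x.lcm y : ℝ))
            + A₀ * 2 ^ i / (M : ℝ))) := by
        refine mul_le_mul_of_nonneg_left ?_ (sq_nonneg _)
        exact sum_le_sum fun d hd => sum_le_sum fun x hx => sum_le_sum fun y hy =>
          mul_le_mul_of_nonneg_left (hcount d hd x hx y hy)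
            (mul_nonneg (wt_nonneg F x) (wt_nonneg F y))
    _ = BW ^ 2 * ψ r * (96 * (∑ d ∈ adm, (F / (d : ℝ)) * (∑ x ∈ Icc 1 E, ∑ y ∈ Icc 1 E,
            wt F x * wt F y * (((x.lcm y).gcd d : ℝ) / (x.lcm y : ℝ))))
          + (adm.card : ℝ) * (A₀ * 2 ^ i / (M : ℝ) *
              ((∑ x ∈ Icc 1 E, wt F x) * ∑ y ∈ Icc 1 E, wt F y))) := by
        rw [sum_mul_sum, ← nsmul_eq_mul, ← sum_const]
        simp only [mul_sum, ← sum_add_distrib]
        exact sum_congr rfl fun d _ => sum_congr rfl fun x _ => sum_congr rfl fun y _ => by ring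
    _ ≤ BW ^ 2 * ψ r * (96 * (A₂ * (F ^ (3 * δ) * W F r)) + A₀ * B₁ * (F ^ (3 * δ) * W F r)) := by
        refine mul_le_mul_of_nonneg_left ?_ (mul_nonneg (sq_nonneg _) (hψ r).1)
        refine add_le_add (mul_le_mul_of_nonneg_left ?_ (by norm_num)) ?_
        · calc ∑ d ∈ adm, (F / (d : ℝ)) * (∑ x ∈ Icc 1 E, ∑ y ∈ Icc 1 E,
                wt F x * wt F y * (((x.lcm y).gcd d : ℝ) / (x.lcm y : ℝ)))
              ≤ ∑ d ∈ adm, A₂ * (F ^ (3 * δ) * wt F d) := by
                refine sum_le_sum fun d hd => ?_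
                obtain ⟨hd1, hFd⟩ := mem_filter.1 (mem_filter.1 hd).1
                calc (F / (d : ℝ)) * _ ≤ (F / (d : ℝ)) * (A₂ * (F ^ (2 * δ) * (d : ℝ) ^ δ)) :=
                      mul_le_mul_of_nonneg_left (hmom F hF d (Nat.pos_of_mem_divisors hd1).ne' _
                        fun e he => (mem_Icc.1 he).1) (by positivity)
                  _ = A₂ * (F / (d : ℝ) * (F ^ (2 * δ) * (d : ℝ) ^ δ)) := by ring
                  _ ≤ _ := mul_le_mul_of_nonneg_left (div_le_wt_col hF hδ hδ' hFd) hA₂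
            _ ≤ ∑ d ∈ r.divisors, A₂ * (F ^ (3 * δ) * wt F d) :=
                sum_le_sum_of_subset_of_nonneg ((filter_subset _ _).trans (filter_subset _ _))
                  fun d _ _ => mul_nonneg hA₂ (mul_nonneg (by positivity) (wt_nonneg F d))
            _ = _ := by rw [W, mul_sum, mul_sum]
        · have hcard : (adm.card : ℝ) ≤ B₁ * 2 ^ s := by
            refine le_trans (by exact_mod_cast card_le_card ((filter_subset _ _).trans (filter_subset _ _))) (hB₁ a r ?_)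
            exact hbr.trans_le (Nat.pow_le_pow_right two_pos (by omega))
          have hh : ∑ x ∈ Icc 1 E, wt F x ≤ (2 : ℝ) ^ (3 * s) :=
            (sum_wt_Icc_le F E).trans (le_of_eq (by rw [hE]; push_cast; rfl))
          have hsum0 : (0 : ℝ) ≤ ∑ y ∈ Icc 1 E, wt F y := sum_nonneg fun y _ => wt_nonneg F y
          have hMs : (2 : ℝ) ^ s * 2 ^ i * (2 ^ (3 * s) * 2 ^ (3 * s)) ≤ (M : ℝ) := by
            rw [hM]; push_cast; simp only [← pow_add]
            exact pow_le_pow_right₀ one_le_two (by omega)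
          calc (adm.card : ℝ) * (A₀ * 2 ^ i / (M : ℝ) *
                ((∑ x ∈ Icc 1 E, wt F x) * ∑ y ∈ Icc 1 E, wt F y))
              ≤ B₁ * 2 ^ s * (A₀ * 2 ^ i / (M : ℝ) * (2 ^ (3 * s) * 2 ^ (3 * s))) := by
                gcongr
            _ = A₀ * B₁ * ((2 ^ s * 2 ^ i * (2 ^ (3 * s) * 2 ^ (3 * s))) / (M : ℝ)) := by ring
            _ ≤ A₀ * B₁ * 1 :=
                mul_le_mul_of_nonneg_left (div_le_one_of_le₀ hMs (Nat.cast_nonneg _)) (by positivity)
            _ ≤ _ := mul_le_mul_of_nonneg_left (one_le_mul_of_one_le_of_one_le hFp hW1) (by positivity)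
    _ = _ := by ring

/-- The base `2^(-1/8)`. -/
def th : ℝ := Real.sqrt geo

lemma th_pos : 0 < th := Real.sqrt_pos.2 geo_pos

lemma th_lt_one : th < 1 := by
  have h := Real.sqrt_lt_sqrt geo_pos.le geo_lt_one
  rwa [Real.sqrt_one] at h

lemma geo_pow_eq (i : ℕ) : geo ^ i = th ^ i * th ^ i := by
  rw [← mul_pow, th, Real.mul_self_sqrt geo_pos.le]

lemma half_pow_le_th (i : ℕ) : 1 / (2 : ℝ) ^ i ≤ th ^ i := by
  rw [← one_div_pow]
  refine pow_le_pow_left₀ (by norm_num) ?_ i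
  have hg : (1 : ℝ) / 2 ≤ geo := by
    calc (1 : ℝ) / 2 = (1 / 2 : ℝ) ^ (1 : ℝ) := (Real.rpow_one _).symm
      _ ≤ geo := Real.rpow_le_rpow_of_exponent_ge (by norm_num) (by norm_num) (by norm_num)
  refine hg.trans ?_
  rw [th]
  exact Real.le_sqrt_of_sq_le (by nlinarith [geo_pos, geo_lt_one])

/-- The exceptional overlaps of a level sum to `O(F^(3δ))` times the mass. -/
theorem exists_sum_T2_le {γ c : ℝ} {w : ℕ} (hdio : Dio γ c w) {δ : ℝ} (hδ : 0 < δ)
    (hδ' : δ ≤ 1 / 8) :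
    ∃ K : ℝ, 0 ≤ K ∧ ∀ (F : ℝ) (ψ : ℕ → ℝ), 1 ≤ F → Small (2 * F) ψ → ∀ B : Finset ℕ,
      (∀ q ∈ B, 0 < q ∧ Level F ψ q) →
      ∑ q ∈ B, ∑ r ∈ B.filter (· < q), T2 γ ψ q r ≤ K * F ^ (3 * δ) * ∑ q ∈ B, ψ q := by
  obtain ⟨A₁, hA₁, hfar⟩ := exists_far' (NL w) (NL_pos w)
  obtain ⟨A₂, hA₂, hrow⟩ := exists_row_level hdio
  obtain ⟨A₃, hA₃, hcol⟩ := exists_col_level hdio hδ hδ'
  obtain ⟨BW, hBW, hW⟩ := exists_W_le_Ws w
  obtain ⟨A₄, hA₄, hmom⟩ := exists_moment_one hδ (hδ'.trans (by norm_num))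
  obtain ⟨k, hk⟩ := exists_nat_gt (1 / δ)
  have hkR : (0 : ℝ) < k := lt_trans (by positivity) hk
  have hk0 : 0 < k := by exact_mod_cast hkR
  obtain ⟨B₅, hB₅, hτ⟩ := exists_card_divisors_dyadic (NL w * k) (Nat.mul_pos (NL_pos w) hk0)
  refine ⟨B₅ + A₁ + (96 + A₂) * (1 - th)⁻¹ + BW * (96 * A₄ + A₂) * (1 - th)⁻¹
    + A₃ * (1 - th)⁻¹, ?_, fun F ψ hF1 hψ B hB => ?_⟩
  · have : 0 < 1 - th := by linarith [th_lt_one]
    positivity
  have hF : 0 < F := zero_lt_one.trans_le hF1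
  have hth := th_pos
  have hFp : 1 ≤ F ^ (3 * δ) := Real.one_le_rpow hF1 (by linarith)
  have hFδ : 0 < F ^ δ := by positivity
  have hFle : F ^ δ ≤ F ^ (3 * δ) := Real.rpow_le_rpow_of_exponent_le hF1 (by linarith)
  set big : ℕ → Prop := fun q => (2 : ℝ) ^ (Nat.log 2 q / NL w) < F with hbig
  set ix : ℕ → ℕ → ℕ := fun q r => Nat.log 2 q - Nat.log 2 r with hix
  set near : ℕ → ℕ → Prop :=
    fun q r => ix q r ≤ Nat.log 2 q / NL w ∧ ¬ big q with hnear
  set n := B.sup (fun q => Nat.log 2 q) + 1 with hn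
  set R : ℕ → ℕ → Finset ℕ :=
    fun q i => B.filter (fun r => r < q ∧ near q r ∧ ix q r = i) with hR
  set Q : ℕ → ℕ → Finset ℕ :=
    fun r i => B.filter (fun q => r < q ∧ near q r ∧ ix q r = i) with hQ
  set Wa : ℕ → ℕ → ℝ := fun q i => if W F q * th ^ i ≤ F ^ δ then 1 else 0 with hWa
  set Wb : ℕ → ℕ → ℝ := fun q r => W F r / W F q with hWb
  set Wc : ℕ → ℕ → ℕ → ℝ :=
    fun q r i => th ^ i * W F q ^ 2 / (F ^ δ * W F r) with hWc
  have hT0 : ∀ q r, 0 ≤ T2 γ ψ q r := fun q r => T2_nonneg hψ q r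
  have hsplit : ∀ q ∈ B, ∀ r ∈ B, ∀ i : ℕ, 1 ≤ Wa q i + Wb q r + Wc q r i := by
    intro q hq r hr i
    have hWq : 0 < W F q := zero_lt_one.trans_le (one_le_W hF1 (hB q hq).1.ne')
    have hWr : 0 < W F r := zero_lt_one.trans_le (one_le_W hF1 (hB r hr).1.ne')
    have hb : 0 ≤ W F r / W F q := div_nonneg hWr.le hWq.le
    have hc : 0 ≤ th ^ i * W F q ^ 2 / (F ^ δ * W F r) := by positivity
    simp only [hWa, hWb, hWc]
    split
    · linarith
    · rename_i hgt
      rw [not_le] at hgt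
      rcases le_total (W F q) (W F r) with hle | hle
      · have : 1 ≤ W F r / W F q := (one_le_div hWq).2 hle
        linarith
      · have : 1 ≤ th ^ i * W F q ^ 2 / (F ^ δ * W F r) := by
          rw [one_le_div (by positivity)]
          calc F ^ δ * W F r ≤ (W F q * th ^ i) * W F q :=
                mul_le_mul hgt.le hle hWr.le (by positivity)
            _ = _ := by ring
        linarith
  have hrowfib : ∀ q ∈ B, ∑ r ∈ B.filter (fun r => r < q ∧ near q r), T2 γ ψ q r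
      = ∑ i ∈ range n, ∑ r ∈ R q i, T2 γ ψ q r := by
    intro q hq
    rw [← sum_fiberwise_of_maps_to (g := fun r => ix q r) (t := range n)]
    · exact sum_congr rfl fun i _ => sum_congr (by rw [hR, filter_filter]; simp only [and_assoc]) fun _ _ => rfl
    · intro r _
      exact mem_range.2 (Nat.lt_succ_of_le ((Nat.sub_le _ _).trans
        (le_sup (f := fun q => Nat.log 2 q) hq)))
  have hrest : ∀ q ∈ B, ∑ r ∈ B.filter (fun r => r < q ∧ ¬ near q r), T2 γ ψ q r
      ≤ (B₅ + A₁) * F ^ (3 * δ) * ψ q := by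
    intro q hq
    have hq0 := (hB q hq).1
    have hqR : (0 : ℝ) < q := Nat.cast_pos.2 hq0
    have hmono : ∀ {x : ℝ}, 0 ≤ x → x ≤ B₅ + A₁ → ∀ {y : ℝ}, y ≤ x * (F ^ (3 * δ) * ψ q) →
        y ≤ (B₅ + A₁) * F ^ (3 * δ) * ψ q := by
      intro x _ hx y hy
      refine hy.trans ?_
      rw [mul_assoc]
      exact mul_le_mul_of_nonneg_right hx (mul_nonneg (by positivity) (hψ q).1)
    by_cases hbq : big q
    · refine hmono hB₅ (le_add_of_nonneg_right hA₁) ?_
      calc ∑ r ∈ B.filter (fun r => r < q ∧ ¬ near q r), T2 γ ψ q r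
          ≤ ∑ r ∈ B.filter (fun r => r < q ∧ ¬ near q r), (q.gcd r : ℝ) * (ψ q / q) :=
            sum_le_sum fun r _ => (T2_le_T hψ q r).trans (T_le_gcd hψ q r)
        _ ≤ ((q.divisors.card : ℝ) * q) * (ψ q / q) := by
            rw [← sum_mul]
            refine mul_le_mul_of_nonneg_right (sum_gcd_le q _ fun r hr => ?_)
              (div_nonneg (hψ q).1 hqR.le)
            exact mem_Ioc.2 ⟨(hB r (mem_filter.1 hr).1).1, (mem_filter.1 hr).2.1.le⟩
        _ = (q.divisors.card : ℝ) * ψ q := by field_simp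
        _ ≤ B₅ * F ^ (3 * δ) * ψ q := by
            refine mul_le_mul_of_nonneg_right ?_ (hψ q).1
            refine (hτ _ q (Nat.lt_pow_succ_log_self one_lt_two q)).trans
              (mul_le_mul_of_nonneg_left ?_ hB₅)
            set s := Nat.log 2 q / NL w with hs
            rw [← Nat.div_div_eq_div_mul, ← hs, ← Real.rpow_natCast]
            calc (2 : ℝ) ^ ((s / k : ℕ) : ℝ) ≤ (2 : ℝ) ^ ((s : ℝ) * δ) := by
                  refine Real.rpow_le_rpow_of_exponent_le one_le_two (Nat.cast_div_le.trans ?_)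
                  rw [div_le_iff₀ hkR, mul_assoc]
                  refine le_mul_of_one_le_right (Nat.cast_nonneg s) ?_
                  rw [div_lt_iff₀ hδ] at hk
                  linarith
              _ = ((2 : ℝ) ^ s) ^ δ := by rw [Real.rpow_mul zero_le_two, Real.rpow_natCast]
              _ ≤ F ^ δ := Real.rpow_le_rpow (by positivity) hbq.le hδ.le
              _ ≤ _ := hFle
        _ = _ := by ring
    · refine hmono hA₁ (le_add_of_nonneg_left hB₅) ?_
      refine (sum_le_sum fun r _ => T2_le_T hψ q r).trans ((hfar γ (2 * F) ψ hψ q _ fun r hr => ?_).trans ?_)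
      · obtain ⟨hrB, h1, h2⟩ := mem_filter.1 hr
        exact ⟨(hB r hrB).1, h1, not_le.1 fun h => h2 ⟨h, hbq⟩⟩
      · exact mul_le_mul_of_nonneg_left (le_mul_of_one_le_left (hψ q).1 hFp) hA₁
  have hrowS : ∀ q i, ∀ r ∈ R q i, 0 < r ∧ r < q ∧ Nat.log 2 q - Nat.log 2 r = i ∧ Level F ψ r :=
    fun q i r hr => by
      obtain ⟨hrB, h1, -, h3⟩ := mem_filter.1 hr
      exact ⟨(hB r hrB).1, h1, h3, (hB r hrB).2⟩
  have hgsum : ∀ x : ℝ, 0 ≤ x → ∑ i ∈ range n, x * th ^ i ≤ x * (1 - th)⁻¹ := by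
    intro x hx
    rw [← mul_sum]
    refine mul_le_mul_of_nonneg_left ?_ hx
    rw [← tsum_geometric_of_lt_one th_pos.le th_lt_one]
    exact (summable_geometric_of_lt_one th_pos.le th_lt_one).sum_le_tsum _ fun i _ => by positivity
  have herr : ∀ (i s : ℕ) (x : ℝ), x ≤ 2 ^ (3 * s) →
      x / (2 ^ i * 2 ^ (15 * s)) ≤ 1 / 2 ^ i := by
    intro i s x hx
    rw [div_le_div_iff₀ (by positivity) (by positivity), one_mul]
    have : (2 : ℝ) ^ (3 * s) ≤ 2 ^ (15 * s) := pow_le_pow_right₀ one_le_two (by omega)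
    nlinarith [pow_pos (two_pos (α := ℝ)) i]
  have hA : ∀ q ∈ B, ∑ i ∈ range n, ∑ r ∈ R q i, T2 γ ψ q r * Wa q i
      ≤ (96 + A₂) * F ^ (3 * δ) * ψ q * (1 - th)⁻¹ := by
    intro q hq
    have hψq := (hψ q).1
    refine le_trans (sum_le_sum fun i _ => ?_) (hgsum _ (by positivity))
    simp only [hWa]
    split
    · rename_i hle
      rcases (R q i).eq_empty_or_nonempty with he | ⟨r₀, hr₀⟩
      · rw [he, sum_empty]; positivity
      obtain ⟨-, -, ⟨h2, h4⟩, h3⟩ := mem_filter.1 hr₀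
      have h := hrow F ψ hF hψ q i (R q i) {1} (fun _ => 1) (hB q hq).1 (h3 ▸ h2) (not_lt.1 h4)
        (fun e he => by rw [mem_singleton.1 he]; exact one_pos) (fun _ => zero_le_one) (hrowS q i)
      simp only [sum_singleton, one_dvd, if_true, Nat.gcd_one_left, Nat.cast_one, div_one, one_mul,
        mul_one] at h
      simp only [mul_one]
      refine h.trans ?_
      rw [mul_comm (ψ q)]
      calc _ ≤ (16 * (6 * th ^ i * F ^ δ) + A₂ * th ^ i) * ψ q := by
            refine mul_le_mul_of_nonneg_right (add_le_add (mul_le_mul_of_nonneg_left ?_ (by norm_num))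
              (mul_le_mul_of_nonneg_left ((herr i _ 1 (one_le_pow₀ one_le_two)).trans
                (half_pow_le_th i)) hA₂)) hψq
            calc ∑ d ∈ q.divisors.filter (fun d : ℕ => F < (d : ℝ)),
                  min (1 / (2 : ℝ) ^ i) (6 * F / d)
                ≤ ∑ d ∈ q.divisors.filter (fun d : ℕ => F < (d : ℝ)), 6 * geo ^ i * wt F d :=
                  sum_le_sum fun d hd => min_le_wt_plain hF (mem_filter.1 hd).2 i
              _ ≤ ∑ d ∈ q.divisors, 6 * geo ^ i * wt F d :=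
                  sum_le_sum_of_subset_of_nonneg (filter_subset _ _) fun d _ _ =>
                    mul_nonneg (by rw [geo_pow_eq]; positivity) (wt_nonneg F d)
              _ = 6 * th ^ i * (W F q * th ^ i) := by rw [← mul_sum, W, geo_pow_eq]; ring
              _ ≤ _ := mul_le_mul_of_nonneg_left hle (by positivity)
        _ ≤ (16 * (6 * th ^ i * F ^ (3 * δ)) + A₂ * th ^ i * F ^ (3 * δ)) * ψ q := by
            refine mul_le_mul_of_nonneg_right (add_le_add ?_
              (le_mul_of_one_le_right (by positivity) hFp)) hψq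
            gcongr
        _ = _ := by ring
    · simp only [mul_zero, sum_const_zero]
      positivity
  have hBb : ∀ q ∈ B, ∑ i ∈ range n, ∑ r ∈ R q i, T2 γ ψ q r * Wb q r
      ≤ BW * (96 * A₄ + A₂) * F ^ (3 * δ) * ψ q * (1 - th)⁻¹ := by
    intro q hq
    have hψq := (hψ q).1
    have hWq1 : 1 ≤ W F q := one_le_W hF1 (hB q hq).1.ne'
    have hWq : 0 < W F q := zero_lt_one.trans_le hWq1
    refine le_trans (sum_le_sum fun i _ => ?_) (hgsum _ (by positivity))
    rcases (R q i).eq_empty_or_nonempty with he | ⟨r₀, hr₀⟩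
    · rw [he, sum_empty]; positivity
    obtain ⟨-, -, ⟨h2, h4⟩, h3⟩ := mem_filter.1 hr₀
    set s := Nat.log 2 q / NL w with hs
    set E := 2 ^ (3 * s) with hE
    have h := hrow F ψ hF hψ q i (R q i) (Icc 1 E) (fun e => wt F e) (hB q hq).1 (h3 ▸ h2)
      (not_lt.1 h4) (fun e he => (mem_Icc.1 he).1) (fun e => wt_nonneg F e) (hrowS q i)
    calc ∑ r ∈ R q i, T2 γ ψ q r * (W F r / W F q)
        ≤ ∑ r ∈ R q i, T2 γ ψ q r * (BW * Ws F E r / W F q) := by
          refine sum_le_sum fun r hr => mul_le_mul_of_nonneg_left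
            (div_le_div_of_nonneg_right ?_ hWq.le) (hT0 q r)
          obtain ⟨hr0, hrq, -, -⟩ := hrowS q i r hr
          exact hW F (Nat.log 2 q) r hF1 (not_lt.1 h4) hr0
            (hrq.trans (Nat.lt_pow_succ_log_self one_lt_two q))
      _ = BW / W F q * ∑ r ∈ R q i, T2 γ ψ q r * Ws F E r := by
          rw [mul_sum]; exact sum_congr rfl fun r _ => by ring
      _ ≤ BW / W F q * (ψ q * (16 * (6 * A₄ * F ^ (3 * δ) * th ^ i * W F q)
            + A₂ * th ^ i)) := by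
          refine mul_le_mul_of_nonneg_left (h.trans (mul_le_mul_of_nonneg_left ?_ hψq)) (by positivity)
          refine add_le_add (mul_le_mul_of_nonneg_left ?_ (by norm_num))
            (mul_le_mul_of_nonneg_left ((herr i s _ ((sum_wt_Icc_le F E).trans
              (le_of_eq (by rw [hE]; push_cast; rfl)))).trans (half_pow_le_th i)) hA₂)
          calc ∑ d ∈ q.divisors.filter (fun d : ℕ => F < (d : ℝ)),
                min (1 / (2 : ℝ) ^ i) (6 * F / d) * ∑ e ∈ Icc 1 E, wt F e * ((e.gcd d : ℝ) / e)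
              ≤ ∑ d ∈ q.divisors.filter (fun d : ℕ => F < (d : ℝ)),
                  A₄ * (6 * F ^ (3 * δ) * geo ^ i * wt F d) := by
                refine sum_le_sum fun d hd => ?_
                obtain ⟨hd1, hFd⟩ := mem_filter.1 hd
                calc _ ≤ min (1 / (2 : ℝ) ^ i) (6 * F / d) * (A₄ * (F ^ δ * (d : ℝ) ^ δ)) :=
                      mul_le_mul_of_nonneg_left (hmom F hF d (Nat.pos_of_mem_divisors hd1).ne' _
                        fun e he => (mem_Icc.1 he).1) (le_min (by positivity) (by positivity))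
                  _ = A₄ * (min (1 / (2 : ℝ) ^ i) (6 * F / d) * (F ^ δ * (d : ℝ) ^ δ)) := by ring
                  _ ≤ _ := mul_le_mul_of_nonneg_left (min_le_wt_weighted hF hδ hδ' hF1 hFd i) hA₄
            _ ≤ ∑ d ∈ q.divisors, A₄ * (6 * F ^ (3 * δ) * geo ^ i * wt F d) :=
                sum_le_sum_of_subset_of_nonneg (filter_subset _ _) fun d _ _ =>
                  mul_nonneg hA₄ (mul_nonneg (by rw [geo_pow_eq]; positivity) (wt_nonneg F d))
            _ = 6 * A₄ * F ^ (3 * δ) * geo ^ i * W F q := by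
                rw [← mul_sum, ← mul_sum, W]; ring
            _ ≤ _ := by
                refine mul_le_mul_of_nonneg_right (mul_le_mul_of_nonneg_left ?_ (by positivity)) hWq.le
                rw [geo_pow_eq]
                exact mul_le_of_le_one_left (by positivity) (pow_le_one₀ th_pos.le th_lt_one.le)
      _ = BW * ψ q * (96 * A₄ * F ^ (3 * δ) * th ^ i + A₂ * th ^ i / W F q) := by
          field_simp; ring
      _ ≤ BW * ψ q * (96 * A₄ * F ^ (3 * δ) * th ^ i + A₂ * th ^ i * F ^ (3 * δ)) := by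
          refine mul_le_mul_of_nonneg_left (add_le_add le_rfl ?_) (by positivity)
          exact (div_le_self (by positivity) hWq1).trans (le_mul_of_one_le_right (by positivity) hFp)
      _ = _ := by ring
  have hC : ∑ q ∈ B, ∑ i ∈ range n, ∑ r ∈ R q i, T2 γ ψ q r * Wc q r i
      ≤ ∑ r ∈ B, A₃ * F ^ (3 * δ) * ψ r * (1 - th)⁻¹ := by
    have e : ∑ q ∈ B, ∑ i ∈ range n, ∑ r ∈ R q i, T2 γ ψ q r * Wc q r i
        = ∑ r ∈ B, ∑ i ∈ range n, ∑ q ∈ Q r i, T2 γ ψ q r * Wc q r i := by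
      simp only [hR, hQ, sum_filter]
      exact (sum_congr rfl fun q _ => sum_comm).trans (sum_comm.trans (sum_congr rfl fun r _ => sum_comm))
    rw [e]
    refine sum_le_sum fun r hr => le_trans (sum_le_sum fun i _ => ?_) (hgsum _ (by
      have := (hψ r).1
      positivity))
    have hψr := (hψ r).1
    have hWr : 0 < W F r := zero_lt_one.trans_le (one_le_W hF1 (hB r hr).1.ne')
    have hcb := hcol F ψ hF1 hψ r i (Q r i) (hB r hr).1 (hB r hr).2 fun q hq => by
      obtain ⟨-, h1, ⟨h2, h4⟩, h3⟩ := mem_filter.1 hq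
      exact ⟨h1, h3, h3 ▸ h2, not_lt.1 h4⟩
    calc ∑ q ∈ Q r i, T2 γ ψ q r * (th ^ i * W F q ^ 2 / (F ^ δ * W F r))
        = (th ^ i / (F ^ δ * W F r)) * ∑ q ∈ Q r i, T2 γ ψ q r * W F q ^ 2 := by
          rw [mul_sum]; exact sum_congr rfl fun q _ => by ring
      _ ≤ (th ^ i / (F ^ δ * W F r)) * (A₃ * F ^ (3 * δ) * (ψ r * W F r)) :=
          mul_le_mul_of_nonneg_left hcb (by positivity)
      _ = (A₃ * F ^ (3 * δ) * ψ r * th ^ i) / F ^ δ := by field_simp
      _ ≤ _ := div_le_self (by positivity) (Real.one_le_rpow hF1 hδ.le)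
  calc ∑ q ∈ B, ∑ r ∈ B.filter (· < q), T2 γ ψ q r
      = ∑ q ∈ B, ((∑ r ∈ B.filter (fun r => r < q ∧ ¬ near q r), T2 γ ψ q r)
          + ∑ r ∈ B.filter (fun r => r < q ∧ near q r), T2 γ ψ q r) := by
        refine sum_congr rfl fun q _ => ?_
        rw [add_comm, ← sum_filter_add_sum_filter_not (B.filter (· < q)) (fun r => near q r),
          filter_filter, filter_filter]
    _ ≤ ∑ q ∈ B, ((B₅ + A₁) * F ^ (3 * δ) * ψ q
          + ((∑ i ∈ range n, ∑ r ∈ R q i, T2 γ ψ q r * Wa q i)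
          + (∑ i ∈ range n, ∑ r ∈ R q i, T2 γ ψ q r * Wb q r)
          + ∑ i ∈ range n, ∑ r ∈ R q i, T2 γ ψ q r * Wc q r i)) := by
        refine sum_le_sum fun q hq => add_le_add (hrest q hq) ?_
        rw [hrowfib q hq]
        simp only [← sum_add_distrib]
        refine sum_le_sum fun i _ => sum_le_sum fun r hr => ?_
        rw [← mul_add, ← mul_add]
        exact le_mul_of_one_le_right (hT0 q r) (hsplit q hq r (mem_filter.1 hr).1 i)
    _ = (∑ q ∈ B, (B₅ + A₁) * F ^ (3 * δ) * ψ q)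
          + ((∑ q ∈ B, ∑ i ∈ range n, ∑ r ∈ R q i, T2 γ ψ q r * Wa q i)
          + (∑ q ∈ B, ∑ i ∈ range n, ∑ r ∈ R q i, T2 γ ψ q r * Wb q r)
          + ∑ q ∈ B, ∑ i ∈ range n, ∑ r ∈ R q i, T2 γ ψ q r * Wc q r i) := by
        rw [sum_add_distrib, sum_add_distrib, sum_add_distrib]
    _ ≤ _ := add_le_add le_rfl (add_le_add (add_le_add (sum_le_sum hA) (sum_le_sum hBb)) hC)
    _ = _ := by simp only [← mul_sum, ← sum_mul]; ring

end

end Vale.Agent.P028.ErdosVaaler
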