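import Vale.Agent.P028.ErdosVaaler.LevelColumn

/-!
Full measure from divergence of `∑ ψ(q) / (1 + q ψ(q)) ^ ε`.
-/

namespace Vale.Agent.P028.ErdosVaaler

open Finset MeasureTheory

noncomputable section

open scoped Classical

lemma exists_second_moment_level {γ c : ℝ} {w : ℕ} (hdio : Dio γ c w) {δ : ℝ} (hδ : 0 < δ)
    (hδ' : δ ≤ 1 / 8) :
    ∃ K : ℝ, 0 ≤ K ∧ ∀ (F : ℝ) (ψ : ℕ → ℝ), 1 ≤ F → (∀ q, 0 ≤ ψ q) → ∀ B : Finset ℕ,
      (∀ q ∈ B, 0 < q ∧ ψ q ≤ 1 / 2 ∧ Level F ψ q) → F ^ (3 * δ) ≤ ∑ q ∈ B, ψ q →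
      ∑ q ∈ B, ∑ r ∈ B, unitMeasure.real (A γ (ψ q) q ∩ A γ (ψ r) r)
        ≤ K * ((∑ q ∈ B, ψ q) ^ 2 + ∑ q ∈ B, ψ q) := by
  obtain ⟨K, hK, hT⟩ := exists_sum_T2_le hdio hδ hδ'
  refine ⟨12 * K + 102, by positivity, fun F ψ hF1 h0 B hB hbig => ?_⟩
  set φ : ℕ → ℝ := fun q => if q ∈ B then ψ q else 0 with hφ
  have hφe : ∀ q ∈ B, φ q = ψ q := fun q hq => if_pos hq
  have hsmall : Small (2 * F) φ := by
    intro q
    by_cases hq : q ∈ B
    · rw [hφe q hq]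
      refine ⟨h0 q, (le_div_iff₀ (Nat.cast_pos.2 (hB q hq).1)).2 ?_⟩
      rw [mul_comm]
      exact (hB q hq).2.2.2
    · simp only [hφ, if_neg hq]
      exact ⟨le_rfl, div_nonneg (by linarith) (Nat.cast_nonneg q)⟩
  set U : ℕ → ℕ → ℝ := fun q r => if r < q then T2 γ φ q r else 0 with hU
  have hU0 : ∀ q r, 0 ≤ U q r := fun q r => by
    simp only [hU]; split <;> [exact T2_nonneg hsmall q r; exact le_rfl]
  have hmeas : ∀ q r, unitMeasure.real (A γ (ψ q) q ∩ A γ (ψ r) r)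
      = volume.real ((A γ (ψ q) q ∩ A γ (ψ r) r) ∩ Set.Ico 0 1) := fun q r =>
    unit_real_apply ((measurableSet_A _ _ q).inter (measurableSet_A _ _ r))
  have hlt : ∀ q ∈ B, ∀ r ∈ B, r < q →
      volume.real ((A γ (ψ q) q ∩ A γ (ψ r) r) ∩ Set.Ico 0 1) ≤ 48 * (ψ q * ψ r) + 6 * U q r := by
    intro q hq r hr hrq
    have h := overlap_le' (γ := γ) hsmall (hB r hr).1 hrq (by rw [hφe q hq]; exact (hB q hq).2.1)
      (by rw [hφe r hr]; exact (hB r hr).2.1)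
    have e : U q r = T2 γ φ q r := if_pos hrq
    rw [e]
    unfold T2
    rwa [hφe q hq, hφe r hr] at h ⊢
  have hpair : ∀ q ∈ B, ∀ r ∈ B, unitMeasure.real (A γ (ψ q) q ∩ A γ (ψ r) r)
      ≤ 48 * (ψ q * ψ r) + 6 * (U q r + U r q) + (if q = r then 6 * ψ q else 0) := by
    intro q hq r hr
    have hp : 0 ≤ ψ q * ψ r := mul_nonneg (h0 q) (h0 r)
    have hu1 := hU0 q r
    have hu2 := hU0 r q
    rw [hmeas]
    rcases lt_trichotomy r q with h | heq | h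
    · rw [if_neg h.ne']
      linarith [hlt q hq r hr h]
    · subst heq
      rw [if_pos rfl, Set.inter_self]
      have h := (abs_le.1 (abs_measure_A_inter_sub_le (γ := γ) (hB r hr).1 (h0 r) (hB r hr).2.1
        zero_le_one)).2
      have : 4 * ψ r / (r : ℝ) ≤ 4 * ψ r :=
        div_le_self (by linarith [h0 r]) (Nat.one_le_cast.2 (hB r hr).1)
      linarith
    · rw [Set.inter_comm (A γ (ψ q) q), if_neg h.ne, mul_comm (ψ q) (ψ r)]
      linarith [hlt r hr q hq h]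
  have hlev : ∀ q ∈ B, 0 < q ∧ Level F φ q := fun q hq =>
    ⟨(hB q hq).1, by unfold Level; rw [hφe q hq]; exact (hB q hq).2.2⟩
  have hsum : ∑ q ∈ B, φ q = ∑ q ∈ B, ψ q := sum_congr rfl hφe
  have hS0 : 0 ≤ ∑ q ∈ B, ψ q := sum_nonneg fun q _ => h0 q
  have hUsum : ∑ q ∈ B, ∑ r ∈ B, U q r ≤ K * (∑ q ∈ B, ψ q) ^ 2 := by
    refine le_trans (le_of_eq (sum_congr rfl fun q _ => ?_)) ((hT F φ hF1 hsmall B hlev).trans ?_)
    · rw [sum_filter]
    · rw [hsum, sq, ← mul_assoc]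
      exact mul_le_mul_of_nonneg_right (mul_le_mul_of_nonneg_left hbig hK) hS0
  calc ∑ q ∈ B, ∑ r ∈ B, unitMeasure.real (A γ (ψ q) q ∩ A γ (ψ r) r)
      ≤ ∑ q ∈ B, ∑ r ∈ B,
          (48 * (ψ q * ψ r) + 6 * (U q r + U r q) + (if q = r then 6 * ψ q else 0)) :=
        sum_le_sum fun q hq => sum_le_sum fun r hr => hpair q hq r hr
    _ = 48 * (∑ q ∈ B, ψ q) ^ 2 + 6 * ((∑ q ∈ B, ∑ r ∈ B, U q r) + ∑ q ∈ B, ∑ r ∈ B, U r q)
          + 6 * ∑ q ∈ B, ψ q := by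
        have e : ∀ q ∈ B, (∑ r ∈ B, if q = r then 6 * ψ q else 0) = 6 * ψ q := fun q hq => by
          rw [sum_ite_eq, if_pos hq]
        simp only [sum_add_distrib]
        rw [sum_congr rfl e]
        simp only [← mul_sum, ← sum_mul, sum_add_distrib]
        ring
    _ ≤ _ := by
        rw [sum_comm (f := fun q r => U r q)]
        nlinarith [sq_nonneg (∑ q ∈ B, ψ q), mul_nonneg hK hS0]

lemma exists_level_block {ψ : ℕ → ℝ} (h0 : ∀ q, 0 ≤ ψ q) {η ε : ℝ} (hη : 0 ≤ η) (hηε : η < ε)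
    (hsmall : Summable fun q : ℕ => min (ψ q) (1 / (q : ℝ)))
    (hdiv : ¬ Summable fun q : ℕ => ψ q / (1 + (q : ℝ) * ψ q) ^ ε) (N : ℕ) :
    ∃ (F : ℝ) (B : Finset ℕ), 1 ≤ F ∧ (∀ q ∈ B, N < q ∧ Level F ψ q) ∧
      1 ≤ ∑ q ∈ B, ψ q ∧ F ^ η ≤ ∑ q ∈ B, ψ q := by
  by_contra hno
  push Not at hno
  set x := (2 : ℝ) ^ (η - ε) with hx
  have hx0 : 0 ≤ x := by positivity
  have hx1 : x < 1 := Real.rpow_lt_one_of_one_lt_of_neg one_lt_two (by linarith)
  have hε : 0 < ε := lt_of_le_of_lt hη hηε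
  have hclass : ∀ (l : ℕ) (B : Finset ℕ), (∀ q ∈ B, N < q ∧ Level ((2 : ℝ) ^ l) ψ q) →
      ∑ q ∈ B, ψ q ≤ ((2 : ℝ) ^ l) ^ η := by
    intro l B hB
    by_contra hlt
    rw [not_le] at hlt
    have h1 : (1 : ℝ) ≤ ((2 : ℝ) ^ l) ^ η := Real.one_le_rpow (one_le_pow₀ one_le_two) hη
    have h2 := hno ((2 : ℝ) ^ l) B (one_le_pow₀ one_le_two) hB (h1.trans hlt.le)
    linarith
  have hterm0 : ∀ q : ℕ, 0 ≤ ψ q / (1 + (q : ℝ) * ψ q) ^ ε := fun q => by
    have := h0 q; positivity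
  refine hdiv (summable_of_sum_le (c := (1 - x)⁻¹ + (∑' q : ℕ, min (ψ q) (1 / (q : ℝ)))
    + ∑ q ∈ range (N + 1), ψ q / (1 + (q : ℝ) * ψ q) ^ ε) hterm0 fun u => ?_)
  rw [← sum_filter_add_sum_filter_not u (fun q => N < q)]
  refine add_le_add ?_ (sum_le_sum_of_subset_of_nonneg (fun q hq => mem_range.2
    (Nat.lt_succ_of_le (not_lt.1 (mem_filter.1 hq).2))) fun q _ _ => hterm0 q)
  set v := u.filter (fun q => N < q) with hv
  rw [← sum_filter_add_sum_filter_not v (fun q : ℕ => 1 ≤ (q : ℝ) * ψ q)]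
  refine add_le_add ?_ ?_
  · set v' := v.filter (fun q : ℕ => 1 ≤ (q : ℝ) * ψ q) with hv'
    set key : ℕ → ℕ := fun q => Nat.log 2 ⌊(q : ℝ) * ψ q⌋₊ with hkey
    rw [← sum_fiberwise_of_maps_to (g := key) (t := range (v'.sup key + 1))
      (fun q hq => mem_range.2 (Nat.lt_succ_of_le (le_sup (f := key) hq)))]
    calc ∑ l ∈ range (v'.sup key + 1), ∑ q ∈ v'.filter (fun q => key q = l),
          ψ q / (1 + (q : ℝ) * ψ q) ^ ε
        ≤ ∑ l ∈ range (v'.sup key + 1), x ^ l := by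
          refine sum_le_sum fun l _ => ?_
          set G := v'.filter (fun q => key q = l) with hG
          have hG' : ∀ q ∈ G, N < q ∧ Level ((2 : ℝ) ^ l) ψ q := by
            intro q hq
            obtain ⟨hqv, hql⟩ := mem_filter.1 hq
            obtain ⟨hqv1, hq1⟩ := mem_filter.1 hqv
            have hpos : 0 < ⌊(q : ℝ) * ψ q⌋₊ := Nat.floor_pos.2 hq1
            obtain ⟨a, b⟩ := dyadic_mem hpos hql
            refine ⟨(mem_filter.1 hqv1).2, ?_, ?_⟩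
            · exact le_trans (by exact_mod_cast a) (Nat.floor_le (zero_le_one.trans hq1))
            · have hb : (⌊(q : ℝ) * ψ q⌋₊ : ℝ) + 1 ≤ 2 * 2 ^ l := by
                rw [← pow_succ']; exact_mod_cast b
              linarith [Nat.lt_floor_add_one ((q : ℝ) * ψ q)]
          have h2l : (0 : ℝ) < ((2 : ℝ) ^ l) ^ ε := by positivity
          calc ∑ q ∈ G, ψ q / (1 + (q : ℝ) * ψ q) ^ ε ≤ ∑ q ∈ G, ψ q / ((2 : ℝ) ^ l) ^ ε := by
                refine sum_le_sum fun q hq => div_le_div_of_nonneg_left (h0 q) h2l ?_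
                exact Real.rpow_le_rpow (by positivity) (by linarith [(hG' q hq).2.1]) hε.le
            _ ≤ ((2 : ℝ) ^ l) ^ η / ((2 : ℝ) ^ l) ^ ε := by
                rw [← sum_div]
                exact div_le_div_of_nonneg_right (hclass l G hG') h2l.le
            _ = x ^ l := by
                rw [← Real.rpow_sub (by positivity), hx, ← Real.rpow_natCast,
                  ← Real.rpow_mul zero_le_two, ← Real.rpow_natCast ((2 : ℝ) ^ (η - ε)) l,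
                  ← Real.rpow_mul zero_le_two, mul_comm]
      _ ≤ (1 - x)⁻¹ := by
          rw [← tsum_geometric_of_lt_one hx0 hx1]
          exact (summable_geometric_of_lt_one hx0 hx1).sum_le_tsum _ fun i _ => by positivity
  · refine le_trans (sum_le_sum fun q hq => ?_)
      (hsmall.sum_le_tsum _ fun q _ => le_min (h0 q) (by positivity))
    obtain ⟨hqv, hlt⟩ := mem_filter.1 hq
    rw [not_le] at hlt
    have hq0 : (0 : ℝ) < q := Nat.cast_pos.2 (Nat.zero_lt_of_lt (mem_filter.1 hqv).2)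
    have h1 : (1 : ℝ) ≤ (1 + (q : ℝ) * ψ q) ^ ε :=
      Real.one_le_rpow (le_add_of_nonneg_right (mul_nonneg hq0.le (h0 q))) hε.le
    refine le_min (div_le_self (h0 q) h1) ((div_le_self (h0 q) h1).trans ?_)
    rw [le_div_iff₀ hq0]
    linarith

theorem full_measure_level {γ c : ℝ} {w : ℕ} (hdio : Dio γ c w) {ε : ℝ} (hε : 0 < ε)
    {ψ : ℕ → ℝ} (h0 : ∀ q, 0 ≤ ψ q)
    (hdiv : ¬ Summable fun q : ℕ => ψ q / (1 + (q : ℝ) * ψ q) ^ ε) :
    ∀ᵐ x : ℝ, {q : ℕ | 0 < q ∧ ∃ a : ℤ, |(q : ℝ) * x - a - γ| < ψ q}.Infinite := by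
  by_cases hsmall : Summable fun q : ℕ => min (ψ q) (1 / (q : ℝ))
  swap
  · refine (full_measure hdio zero_le_one (ψ := fun q : ℕ => min (ψ q) (1 / (q : ℝ)))
      (fun q => le_min (h0 q) (by positivity)) (fun q _ => min_le_right _ _) hsmall).mono
      fun x hx => hx.mono ?_
    rintro q ⟨hq, a, ha⟩
    exact ⟨hq, a, lt_of_lt_of_le ha (min_le_left _ _)⟩
  by_cases hbig : {q : ℕ | 1 / 2 < ψ q}.Infinite
  · refine Filter.Eventually.of_forall fun x => ((hbig.sdiff (Set.finite_singleton 0))).mono ?_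
    rintro q ⟨hq, hq0⟩
    refine ⟨Nat.pos_of_ne_zero hq0, round ((q : ℝ) * x - γ), ?_⟩
    have := abs_sub_round ((q : ℝ) * x - γ)
    rw [sub_right_comm]
    exact this.trans_lt hq
  rw [Set.not_infinite] at hbig
  obtain ⟨M, hM⟩ := hbig.bddAbove
  set δ := min (ε / 6) (1 / 8) with hδdef
  have hδ : 0 < δ := lt_min (by positivity) (by norm_num)
  have hηε : 3 * δ < ε := by linarith [min_le_left (ε / 6) (1 / 8)]
  obtain ⟨K, hK, hmom⟩ := exists_second_moment_level (γ := γ) hdio hδ (min_le_right _ _)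
  choose Fl B hF1 hBn hBS hBF using fun n : ℕ =>
    exists_level_block h0 (show 0 ≤ 3 * δ by positivity) hηε hsmall hdiv (n + M)
  have hBq : ∀ n, ∀ q ∈ B n, 0 < q ∧ ψ q ≤ 1 / 2 ∧ n < q := fun n q hq => by
    have h1 := (hBn n q hq).1
    refine ⟨by omega, not_lt.1 fun hlt => ?_, by omega⟩
    have h2 : q ≤ M := hM hlt
    omega
  exact ae_of_unit_null (unit_null_of_blocks hK h0 B hBq hBS fun n =>
    hmom (Fl n) ψ (hF1 n) h0 (B n)
      (fun q hq => ⟨(hBq n q hq).1, (hBq n q hq).2.1, (hBn n q hq).2⟩) (hBF n))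

end

end Vale.Agent.P028.ErdosVaaler
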