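import Vale.Agent.P028.ErdosVaaler.LevelSums
import Vale.Agent.P028.ErdosVaaler.Divisor

/-!
Exceptional overlaps inside one level `F ≤ q ψ(q) ≤ 2F`: definitions and row sums.
-/

namespace Vale.Agent.P028.ErdosVaaler

open Finset

noncomputable section

open scoped Classical

/-- The exceptional overlap, present only when `D < 1/2`. -/
def T2 (γ : ℝ) (ψ : ℕ → ℝ) (q r : ℕ) : ℝ :=
  if ((r : ℝ) * ψ q + q * ψ r) / (q.gcd r : ℝ) < 1 / 2 then T γ ψ q r else 0

/-- `q ψ(q)` lies in `[F, 2F]`. -/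
def Level (F : ℝ) (ψ : ℕ → ℝ) (q : ℕ) : Prop := F ≤ q * ψ q ∧ (q : ℝ) * ψ q ≤ 2 * F

lemma T2_nonneg {γ C : ℝ} {ψ : ℕ → ℝ} (hψ : Small C ψ) (q r : ℕ) : 0 ≤ T2 γ ψ q r := by
  unfold T2
  split <;> [exact T_nonneg hψ q r; exact le_rfl]

lemma T2_le_T {γ C : ℝ} {ψ : ℕ → ℝ} (hψ : Small C ψ) (q r : ℕ) :
    T2 γ ψ q r ≤ T γ ψ q r := by
  unfold T2
  split <;> [exact le_rfl; exact T_nonneg hψ q r]

lemma T2_eq_or {γ C F : ℝ} {ψ : ℕ → ℝ} (hψ : Small C ψ) {q r : ℕ} (hr : 0 < r) (hrq : r < q)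
    (hlev : Level F ψ r) :
    T2 γ ψ q r = 0 ∨ (F < (q.gcd r : ℝ) ∧
      Hit γ (min (1 / 2) (((r : ℝ) * ψ q + q * ψ r) / (q.gcd r : ℝ)))
        (((q : ℝ) - r) / (q.gcd r : ℝ)) ∧
      T2 γ ψ q r = (q.gcd r : ℝ) * min (ψ q / q) (ψ r / r)) := by
  by_cases hD : ((r : ℝ) * ψ q + q * ψ r) / (q.gcd r : ℝ) < 1 / 2
  · by_cases hH : Hit γ (min (1 / 2) (((r : ℝ) * ψ q + q * ψ r) / (q.gcd r : ℝ)))
        (((q : ℝ) - r) / (q.gcd r : ℝ))
    · refine Or.inr ⟨?_, hH, ?_⟩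
      · have hg : (0 : ℝ) < (q.gcd r : ℝ) :=
          Nat.cast_pos.2 (Nat.gcd_pos_of_pos_left _ (hr.trans hrq))
        rw [div_lt_iff₀ hg] at hD
        have h1 : F ≤ (q : ℝ) * ψ r :=
          hlev.1.trans (mul_le_mul_of_nonneg_right (Nat.cast_le.2 hrq.le) (hψ r).1)
        have h2 : 0 ≤ (r : ℝ) * ψ q := mul_nonneg (Nat.cast_nonneg r) (hψ q).1
        linarith
      · unfold T2; rw [if_pos hD]; unfold T; rw [if_pos hH]
    · refine Or.inl ?_
      unfold T2; rw [if_pos hD]; unfold T; rw [if_neg hH]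
  · exact Or.inl (by unfold T2; rw [if_neg hD])

/-- The exponent fixing which scales count as near, for one level. -/
def NL (w : ℕ) : ℕ := (16 * w + 17) * (w + 1) + 2

lemma NL_pos (w : ℕ) : 0 < NL w := Nat.succ_pos _

lemma exists_adm_level {γ c : ℝ} {w : ℕ} (hdio : Dio γ c w) :
    ∃ G : ℝ, 0 < G ∧ ∀ (ψ : ℕ → ℝ) (F : ℝ) (a i q r : ℕ), 0 ≤ F → Small (2 * F) ψ → 0 < r →
      r < q → Nat.log 2 q = a → 2 ^ (a - i) ≤ r → i ≤ a / NL w → F ≤ 2 ^ (a / NL w) →
      Hit γ (min (1 / 2) (((r : ℝ) * ψ q + q * ψ r) / (q.gcd r : ℝ)))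
        (((q : ℝ) - r) / (q.gcd r : ℝ)) →
      ((2 : ℝ) ^ (16 * (a / NL w))) ^ (w + 1) * (q.gcd r : ℝ) ≤ G * 2 ^ (a - i) := by
  obtain ⟨hc, hw, hdio⟩ := hdio
  refine ⟨6 * 2 ^ w / c + 1, by positivity, ?_⟩
  intro ψ F a i q r hF0 hψ hr hrq ha hbr his hFs hhit
  obtain ⟨n, hn⟩ := hhit
  set g := q.gcd r with hg
  set G := 6 * 2 ^ w / c + 1 with hG
  have hq : 0 < q := hr.trans hrq
  have hg0 : 0 < g := Nat.gcd_pos_of_pos_left _ hq
  have hgR : (0 : ℝ) < g := Nat.cast_pos.2 hg0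
  obtain ⟨q', hq'⟩ := Nat.gcd_dvd_left q r
  obtain ⟨r', hr'⟩ := Nat.gcd_dvd_right q r
  rw [← hg] at hq' hr'
  have hlt : r' < q' := Nat.lt_of_mul_lt_mul_left (a := g) (by rw [← hq', ← hr']; exact hrq)
  have hk : ((q : ℝ) - r) / g = ((q' - r' : ℕ) : ℝ) := by
    rw [hq', hr', Nat.cast_sub hlt.le]; push_cast; field_simp
  rw [hk] at hn
  have hk0 : 0 < q' - r' := Nat.sub_pos_of_lt hlt
  obtain ⟨hqa, haq⟩ := dyadic_mem hq ha
  set s := a / NL w with hs
  have h1 : c / (((q' - r' : ℕ) : ℝ)) ^ w ≤ 6 * 2 ^ s * 2 ^ i / g := by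
    refine (hdio _ hk0 n).trans (hn.le.trans ((min_le_right _ _).trans ?_))
    refine div_le_div_of_nonneg_right
      ((D_le (by linarith) hψ hr hrq haq hbr).trans ?_) hgR.le
    rw [show 3 * (2 * F) = 6 * F by ring]
    gcongr
  have h2 : ((q' - r' : ℕ) : ℝ) * g ≤ 2 ^ (a + 1) := by
    have : (q' - r') * g ≤ 2 ^ (a + 1) := by
      rw [Nat.sub_mul, mul_comm q', ← hq']
      omega
    exact_mod_cast this
  have hkR : (0 : ℝ) < ((q' - r' : ℕ) : ℝ) := Nat.cast_pos.2 hk0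
  rw [div_le_div_iff₀ (by positivity) hgR] at h1
  have h3 : c * (g : ℝ) ^ (w + 1) ≤ 6 * 2 ^ s * 2 ^ i * (2 ^ (a + 1)) ^ w := by
    calc c * (g : ℝ) ^ (w + 1) = c * g * (g : ℝ) ^ w := by ring
      _ ≤ 6 * 2 ^ s * 2 ^ i * ((q' - r' : ℕ) : ℝ) ^ w * (g : ℝ) ^ w :=
          mul_le_mul_of_nonneg_right h1 (by positivity)
      _ = 6 * 2 ^ s * 2 ^ i * (((q' - r' : ℕ) : ℝ) * g) ^ w := by ring
      _ ≤ _ := mul_le_mul_of_nonneg_left (pow_le_pow_left₀ (by positivity) h2 w) (by positivity)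
  have hNs : NL w * s ≤ a := by rw [hs, mul_comm]; exact Nat.div_mul_le_self _ _
  have h4 : ((g : ℝ) * 2 ^ ((16 * w + 17) * s)) ^ (w + 1) ≤ (G * 2 ^ a) ^ (w + 1) := by
    calc ((g : ℝ) * 2 ^ ((16 * w + 17) * s)) ^ (w + 1)
        = (g : ℝ) ^ (w + 1) * 2 ^ ((16 * w + 17) * s * (w + 1)) := by rw [mul_pow, ← pow_mul]
      _ ≤ (6 * 2 ^ w / c * (2 ^ s * 2 ^ i * 2 ^ (a * w))) * 2 ^ ((16 * w + 17) * s * (w + 1)) := by
          refine mul_le_mul_of_nonneg_right ?_ (by positivity)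
          rw [div_mul_eq_mul_div, le_div_iff₀ hc, mul_comm]
          refine h3.trans (le_of_eq ?_)
          rw [← pow_mul, add_mul, one_mul, pow_add]
          ring
      _ = 6 * 2 ^ w / c * 2 ^ (s + i + a * w + (16 * w + 17) * s * (w + 1)) := by
          rw [pow_add, pow_add, pow_add]; ring
      _ ≤ G * 2 ^ (a * (w + 1)) := by
          refine mul_le_mul (by linarith) (pow_le_pow_right₀ one_le_two ?_) (by positivity) (by positivity)
          have e : (16 * w + 17) * s * (w + 1) + 2 * s = NL w * s := by unfold NL; ring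
          have e' : a * (w + 1) = a * w + a := by ring
          omega
      _ ≤ G ^ (w + 1) * 2 ^ (a * (w + 1)) := by
          refine mul_le_mul_of_nonneg_right ?_ (by positivity)
          exact le_self_pow₀ (by rw [hG]; exact le_add_of_nonneg_left (by positivity)) (by omega)
      _ = _ := by rw [mul_pow, ← pow_mul]
  have h5 := le_of_pow_le_pow_left₀ (Nat.succ_ne_zero w) (by positivity) h4
  have e2 : (2 : ℝ) ^ a ≤ 2 ^ (a - i) * 2 ^ s := by
    rw [← pow_add]; exact pow_le_pow_right₀ one_le_two (by omega)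
  have e1 : ((2 : ℝ) ^ (16 * s)) ^ (w + 1) * g * 2 ^ s = (g : ℝ) * 2 ^ ((16 * w + 17) * s) := by
    rw [← pow_mul, show (16 * w + 17) * s = 16 * s * (w + 1) + s by ring, pow_add]
    ring
  refine le_of_mul_le_mul_right ?_ (pow_pos two_pos s)
  rw [e1]
  calc (g : ℝ) * 2 ^ ((16 * w + 17) * s) ≤ G * 2 ^ a := h5
    _ ≤ G * (2 ^ (a - i) * 2 ^ s) := mul_le_mul_of_nonneg_left e2 (by positivity)
    _ = _ := (mul_assoc _ _ _).symm

/-- Truncated level weight. -/
def Ws (F : ℝ) (E n : ℕ) : ℝ := ∑ e ∈ Icc 1 E, if e ∣ n then wt F e else 0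

lemma sum_wt_Icc_le (F : ℝ) (E : ℕ) : ∑ e ∈ Icc 1 E, wt F e ≤ E := by
  refine (sum_le_card_nsmul _ _ 1 fun e _ => wt_le_one F e).trans (le_of_eq ?_)
  simp

lemma exists_W_le_Ws (w : ℕ) :
    ∃ B : ℝ, 0 ≤ B ∧ ∀ (F : ℝ) (a n : ℕ), 1 ≤ F → F ≤ 2 ^ (a / NL w) → 0 < n → n < 2 ^ (a + 1) →
      W F n ≤ B * Ws F (2 ^ (3 * (a / NL w))) n := by
  obtain ⟨B₁, hB₁0, hB₁⟩ := exists_card_divisors_dyadic (NL w) (NL_pos w)
  refine ⟨1 + B₁, by positivity, fun F a n hF hFs hn ha => ?_⟩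
  set s := a / NL w with hs
  set E := 2 ^ (3 * s) with hE
  have h1 : (1 : ℝ) ≤ Ws F E n := by
    refine le_trans (le_of_eq ?_) (single_le_sum (f := fun e : ℕ => if e ∣ n then wt F e else 0)
      (fun e _ => by split <;> [exact wt_nonneg F e; exact le_rfl])
      (mem_Icc.2 ⟨le_rfl, Nat.one_le_two_pow⟩ : 1 ∈ Icc 1 E))
    simp [wt_one hF]
  have hsplit : W F n ≤ Ws F E n + B₁ := by
    unfold W
    rw [← sum_filter_add_sum_filter_not n.divisors (fun e => e ≤ E)]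
    refine add_le_add ?_ ?_
    · unfold Ws
      rw [← sum_filter]
      refine sum_le_sum_of_subset_of_nonneg (fun e he => ?_) fun e _ _ => wt_nonneg F e
      obtain ⟨he1, he2⟩ := mem_filter.1 he
      exact mem_filter.2 ⟨mem_Icc.2 ⟨Nat.pos_of_mem_divisors he1, he2⟩,
        Nat.dvd_of_mem_divisors he1⟩
    · calc ∑ e ∈ n.divisors.filter (fun e => ¬e ≤ E), wt F e
          ≤ (n.divisors.filter (fun e => ¬e ≤ E)).card • (1 / (2 : ℝ) ^ s) := by
            refine sum_le_card_nsmul _ _ _ fun e he => ?_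
            obtain ⟨he1, he2⟩ := mem_filter.1 he
            refine Real.sqrt_le_iff.2 ⟨by positivity, (min_le_right _ _).trans ?_⟩
            rw [div_le_iff₀ (Nat.cast_pos.2 (Nat.pos_of_mem_divisors he1))]
            calc F ≤ 2 ^ s := hFs
              _ = (1 / (2 : ℝ) ^ s) ^ 2 * ((2 : ℝ) ^ (3 * s)) := by
                  rw [mul_comm 3 s, pow_mul]; field_simp
              _ ≤ _ := by
                  refine mul_le_mul_of_nonneg_left ?_ (by positivity)
                  have : E ≤ e := (not_le.1 he2).le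
                  rw [hE] at this
                  exact_mod_cast this
        _ ≤ (B₁ * 2 ^ s) * (1 / (2 : ℝ) ^ s) := by
            rw [nsmul_eq_mul]
            refine mul_le_mul_of_nonneg_right (le_trans ?_ (hB₁ a n ha)) (by positivity)
            exact_mod_cast card_le_card (filter_subset _ _)
        _ = B₁ := by field_simp
  have : B₁ ≤ B₁ * Ws F E n := le_mul_of_one_le_right hB₁0 h1
  linarith

/-- Row sums at one level with nonnegative weights on divisors of `r`. -/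
lemma exists_row_level {γ c : ℝ} {w : ℕ} (hdio : Dio γ c w) :
    ∃ A : ℝ, 0 ≤ A ∧ ∀ (F : ℝ) (ψ : ℕ → ℝ), 0 < F → Small (2 * F) ψ → ∀ (q i : ℕ)
      (S Es : Finset ℕ) (cw : ℕ → ℝ), 0 < q → i ≤ Nat.log 2 q / NL w →
      F ≤ 2 ^ (Nat.log 2 q / NL w) → (∀ e ∈ Es, 0 < e) → (∀ e, 0 ≤ cw e) →
      (∀ r ∈ S, 0 < r ∧ r < q ∧ Nat.log 2 q - Nat.log 2 r = i ∧ Level F ψ r) →
      ∑ r ∈ S, T2 γ ψ q r * (∑ e ∈ Es, if e ∣ r then cw e else 0) ≤
        ψ q * (16 * (∑ d ∈ q.divisors.filter (fun d : ℕ => F < (d : ℝ)),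
            min (1 / (2 : ℝ) ^ i) (6 * F / d) * ∑ e ∈ Es, cw e * ((e.gcd d : ℝ) / e))
          + A * ((∑ e ∈ Es, cw e) / (2 ^ i * 2 ^ (15 * (Nat.log 2 q / NL w))))) := by
  obtain ⟨G, hG, hadm⟩ := exists_adm_level hdio
  obtain ⟨A₀, hA₀, hhit⟩ := exists_hit_progression hdio G hG
  obtain ⟨B₁, hB₁0, hB₁⟩ := exists_card_divisors_dyadic (NL w) (NL_pos w)
  refine ⟨A₀ * B₁, by positivity, fun F ψ hF hψ q i S Es cw hq hi hFs hEs hcw hS => ?_⟩
  set a := Nat.log 2 q with ha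
  set s := a / NL w with hs
  set b := a - i with hb
  set M := 2 ^ (16 * s) with hM
  set m := ψ q / (q : ℝ) with hm
  obtain ⟨hqa, haq⟩ := dyadic_mem hq ha.symm
  have hqR : (0 : ℝ) < q := Nat.cast_pos.2 hq
  have hm0 : 0 ≤ m := div_nonneg (hψ q).1 hqR.le
  have hia : i ≤ a := hi.trans (Nat.div_le_self _ _)
  have hrb : ∀ r ∈ S, 2 ^ b ≤ r ∧ r < 2 ^ (b + 1) := fun r hr => by
    obtain ⟨h1, h2, h3, -⟩ := hS r hr
    refine dyadic_mem h1 ?_
    have : Nat.log 2 r ≤ a := Nat.log_mono_right h2.le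
    omega
  set DR : ℕ → ℝ := fun d => min (1 / 2) (6 * F * 2 ^ i / (d : ℝ)) with hDR
  set adm : Finset ℕ := (q.divisors.filter (fun d : ℕ => F < (d : ℝ))).filter
    (fun d : ℕ => (M : ℝ) ^ (w + 1) * (d : ℝ) ≤ G * 2 ^ b) with hadm'
  set P : ℕ → ℕ → Prop := fun d r => d ∣ r ∧ Hit γ (DR d) (((q : ℝ) - r) / d) with hP
  have step1 : ∀ r ∈ S, T2 γ ψ q r ≤ m * ∑ d ∈ adm, if P d r then (d : ℝ) else 0 := by
    intro r hr
    obtain ⟨hr0, hrq, -, hlev⟩ := hS r hr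
    rcases T2_eq_or (γ := γ) hψ hr0 hrq hlev with h0 | ⟨hFg, hit, heq⟩
    · rw [h0]
      exact mul_nonneg hm0 (sum_nonneg fun d _ => by split <;> [exact Nat.cast_nonneg _; exact le_rfl])
    · rw [heq]
      have hg : q.gcd r ∈ adm := by
        refine mem_filter.2 ⟨mem_filter.2
          ⟨Nat.mem_divisors.2 ⟨Nat.gcd_dvd_left q r, hq.ne'⟩, hFg⟩, ?_⟩
        have := hadm ψ F a i q r hF.le hψ hr0 hrq ha.symm (hrb r hr).1 hi hFs hit
        rw [hM]; push_cast; exact this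
      have hPg : P (q.gcd r) r := ⟨Nat.gcd_dvd_right q r, hit.mono (min_le_min le_rfl
        (div_le_div_of_nonneg_right ((D_le (by linarith) hψ hr0 hrq haq (hrb r hr).1).trans
          (le_of_eq (by ring))) (Nat.cast_nonneg _)))⟩
      calc (q.gcd r : ℝ) * min (ψ q / q) (ψ r / r) ≤ (q.gcd r : ℝ) * m :=
            mul_le_mul_of_nonneg_left (min_le_left _ _) (Nat.cast_nonneg _)
        _ = m * (if P (q.gcd r) r then (q.gcd r : ℝ) else 0) := by rw [if_pos hPg, mul_comm]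
        _ ≤ _ := mul_le_mul_of_nonneg_left (single_le_sum
            (f := fun d : ℕ => if P d r then (d : ℝ) else 0)
            (fun d _ => by split <;> [exact Nat.cast_nonneg _; exact le_rfl]) hg) hm0
  have h2b : (2 : ℝ) ^ b / q ≤ 1 / 2 ^ i := by
    rw [div_le_div_iff₀ hqR (by positivity), one_mul, ← pow_add,
      show b + i = a by omega]
    exact_mod_cast hqa
  have hcount : ∀ d ∈ adm, ∀ e ∈ Es,
      ((S.filter (fun r => P d r ∧ e ∣ r)).card : ℝ) * d / q ≤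
        16 * min (1 / 2 ^ i) (6 * F / (d : ℝ)) * ((e.gcd d : ℝ) / e)
          + A₀ / (2 ^ i * (M : ℝ)) := by
    intro d hd e he
    obtain ⟨hd1, hd2⟩ := mem_filter.1 hd
    have hd0 : 0 < d := Nat.pos_of_mem_divisors (mem_filter.1 hd1).1
    have he0 : 0 < e := hEs e he
    have hdR : (0 : ℝ) < d := Nat.cast_pos.2 hd0
    have heR : (0 : ℝ) < e := Nat.cast_pos.2 he0
    obtain ⟨f, hf⟩ := Nat.gcd_dvd_left e d
    have hg0 : 0 < e.gcd d := Nat.gcd_pos_of_pos_left _ he0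
    have hf0 : 0 < f := by
      rcases Nat.eq_zero_or_pos f with rfl | h0
      · rw [mul_zero] at hf; omega
      · exact h0
    have hlcm : d.lcm e = d * f := by
      rw [Nat.lcm, Nat.gcd_comm d e]
      conv_lhs => arg 1; rw [hf]
      rw [mul_left_comm, Nat.mul_div_cancel_left _ hg0]
    have key := hhit d f b q M (DR d) (S.filter (fun r => P d r ∧ e ∣ r)) hd0 hf0
      Nat.one_le_two_pow (le_min (by norm_num) (by positivity)) hd2 ?_
    · have hfe : (1 : ℝ) / f = (e.gcd d : ℝ) / e := by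
        rw [div_eq_div_iff (Nat.cast_pos.2 hf0).ne' heR.ne', one_mul]
        exact_mod_cast hf
      have hDR1 : DR d / 2 ^ i ≤ min (1 / 2 ^ i) (6 * F / (d : ℝ)) := by
        refine le_min ?_ ?_
        · exact div_le_div_of_nonneg_right ((min_le_left _ _).trans (by norm_num)) (by positivity)
        · calc DR d / 2 ^ i ≤ (6 * F * 2 ^ i / (d : ℝ)) / 2 ^ i :=
              div_le_div_of_nonneg_right (min_le_right _ _) (by positivity)
            _ = _ := by field_simp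
      have hDR0 : 0 ≤ DR d := le_min (by norm_num) (by positivity)
      calc ((S.filter (fun r => P d r ∧ e ∣ r)).card : ℝ) * d / q
          ≤ (16 * (2 ^ b / ((d : ℝ) * f)) * DR d + A₀ * (2 ^ b / ((d : ℝ) * M))) * d / q :=
            div_le_div_of_nonneg_right (mul_le_mul_of_nonneg_right key hdR.le) hqR.le
        _ = 16 * ((2 ^ b / q) * DR d) * (1 / f) + A₀ * (2 ^ b / q) / M := by
            field_simp
        _ ≤ 16 * ((1 / 2 ^ i) * DR d) * (1 / f) + A₀ * (1 / 2 ^ i) / M := by gcongr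
        _ = 16 * (DR d / 2 ^ i) * ((e.gcd d : ℝ) / e) + A₀ / (2 ^ i * (M : ℝ)) := by
            rw [hfe]; ring
        _ ≤ _ := by gcongr
    · intro r hr
      obtain ⟨hrS, ⟨hdr, hhit'⟩, her⟩ := mem_filter.1 hr
      refine ⟨(hrb r hrS).2, (hS r hrS).1, hlcm ▸ Nat.lcm_dvd hdr her, ?_⟩
      convert hhit'.neg using 1
      ring
  have hadmcard : (adm.card : ℝ) ≤ B₁ * 2 ^ s :=
    le_trans (by exact_mod_cast card_le_card ((filter_subset _ _).trans (filter_subset _ _)))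
      (hB₁ a q haq)
  have hcs : 0 ≤ ∑ e ∈ Es, cw e := sum_nonneg fun e _ => hcw e
  calc ∑ r ∈ S, T2 γ ψ q r * (∑ e ∈ Es, if e ∣ r then cw e else 0)
      ≤ ∑ r ∈ S, (m * ∑ d ∈ adm, if P d r then (d : ℝ) else 0) *
          (∑ e ∈ Es, if e ∣ r then cw e else 0) :=
        sum_le_sum fun r hr => mul_le_mul_of_nonneg_right (step1 r hr)
          (sum_nonneg fun e _ => by split <;> [exact hcw e; exact le_rfl])
    _ = ψ q * ∑ d ∈ adm, ∑ e ∈ Es,
          cw e * (((S.filter (fun r => P d r ∧ e ∣ r)).card : ℝ) * d / q) := by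
        simp only [mul_sum, sum_mul]
        rw [sum_comm]
        refine (sum_congr rfl fun e _ => sum_comm).trans ?_
        rw [sum_comm]
        refine sum_congr rfl fun d _ => sum_congr rfl fun e _ => ?_
        rw [card_filter, Nat.cast_sum]
        simp only [sum_mul, mul_sum, sum_div]
        refine sum_congr rfl fun r _ => ?_
        by_cases h1 : P d r <;> by_cases h2 : e ∣ r <;> simp [h1, h2, hm] <;> field_simp
    _ ≤ ψ q * ∑ d ∈ adm, (16 * (min (1 / (2 : ℝ) ^ i) (6 * F / d) *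
          ∑ e ∈ Es, cw e * ((e.gcd d : ℝ) / e)) + A₀ * (∑ e ∈ Es, cw e) / (2 ^ i * (M : ℝ))) := by
        refine mul_le_mul_of_nonneg_left (sum_le_sum fun d hd => ?_) (hψ q).1
        calc ∑ e ∈ Es, cw e * (((S.filter (fun r => P d r ∧ e ∣ r)).card : ℝ) * d / q)
            ≤ ∑ e ∈ Es, cw e * (16 * min (1 / 2 ^ i) (6 * F / (d : ℝ)) * ((e.gcd d : ℝ) / e)
                + A₀ / (2 ^ i * (M : ℝ))) :=
              sum_le_sum fun e he => mul_le_mul_of_nonneg_left (hcount d hd e he) (hcw e)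
          _ = _ := by
              simp only [mul_sum, sum_div, ← sum_add_distrib]
              exact sum_congr rfl fun e _ => by ring
    _ ≤ _ := by
        refine mul_le_mul_of_nonneg_left ?_ (hψ q).1
        rw [sum_add_distrib, ← mul_sum, sum_const, nsmul_eq_mul]
        refine add_le_add (mul_le_mul_of_nonneg_left
          (sum_le_sum_of_subset_of_nonneg (filter_subset _ _) fun d _ _ =>
            mul_nonneg (le_min (by positivity) (by positivity))
              (sum_nonneg fun e _ => mul_nonneg (hcw e) (by positivity))) (by norm_num)) ?_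
        have hMs : (M : ℝ) = 2 ^ s * 2 ^ (15 * s) := by
          rw [hM]; push_cast; rw [← pow_add]; congr 1; omega
        calc (adm.card : ℝ) * (A₀ * (∑ e ∈ Es, cw e) / (2 ^ i * (M : ℝ)))
            ≤ B₁ * 2 ^ s * (A₀ * (∑ e ∈ Es, cw e) / (2 ^ i * (M : ℝ))) :=
              mul_le_mul_of_nonneg_right hadmcard (by positivity)
          _ = _ := by rw [hMs]; field_simp

end

end Vale.Agent.P028.ErdosVaaler
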