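import Vale.Agent.P028.ErdosVaaler.Arith

/-!
Sums for a single level `q ψ(q) ≍ F`: the divisor weight
`W F n = ∑_{e ∣ n} (min 1 (F/e))^(1/2)` and its conditional moments.
-/

namespace Vale.Agent.P028.ErdosVaaler

open Finset

noncomputable section

/-- The level weight of one divisor. -/
def wt (F : ℝ) (e : ℕ) : ℝ := Real.sqrt (min 1 (F / e))

/-- The level weight of an integer. -/
def W (F : ℝ) (n : ℕ) : ℝ := ∑ e ∈ n.divisors, wt F e

lemma wt_nonneg (F : ℝ) (e : ℕ) : 0 ≤ wt F e := Real.sqrt_nonneg _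

lemma wt_le_one (F : ℝ) (e : ℕ) : wt F e ≤ 1 := Real.sqrt_le_one.2 (min_le_left _ _)

lemma W_nonneg (F : ℝ) (n : ℕ) : 0 ≤ W F n := sum_nonneg fun e _ => wt_nonneg F e

lemma wt_one {F : ℝ} (hF : 1 ≤ F) : wt F 1 = 1 := by simp [wt, min_eq_left hF]

lemma one_le_W {F : ℝ} (hF : 1 ≤ F) {n : ℕ} (hn : n ≠ 0) : 1 ≤ W F n := by
  rw [← wt_one hF]
  exact single_le_sum (f := fun e => wt F e) (fun e _ => wt_nonneg F e)
    (Nat.one_mem_divisors.2 hn)

lemma wt_le_rpow {F δ : ℝ} (hF : 0 < F) (hδ0 : 0 < δ) (hδ : δ ≤ 1 / 2) {e : ℕ} (he : 0 < e) :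
    wt F e ≤ (F / e) ^ δ := by
  have hx : 0 < F / (e : ℝ) := div_pos hF (Nat.cast_pos.2 he)
  rcases le_total 1 (F / (e : ℝ)) with h | h
  · exact (wt_le_one F e).trans (Real.one_le_rpow h hδ0.le)
  · rw [wt, min_eq_right h, Real.sqrt_eq_rpow]
    exact Real.rpow_le_rpow_of_exponent_ge hx h hδ

lemma exists_tau_le {δ : ℝ} (hδ : 0 < δ) :
    ∃ B : ℝ, 0 ≤ B ∧ ∀ n : ℕ, (n.divisors.card : ℝ) ≤ B * (n : ℝ) ^ δ := by
  obtain ⟨K, hK⟩ := exists_nat_gt (1 / δ)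
  obtain ⟨B, hB⟩ := exists_card_divisors_pow_le K
  have hK0 : (0 : ℝ) < K := lt_trans (by positivity) hK
  have hKn : K ≠ 0 := by rintro rfl; simp at hK0
  refine ⟨(B : ℝ) ^ ((1 : ℝ) / K), by positivity, fun n => ?_⟩
  rcases Nat.eq_zero_or_pos n with rfl | hn
  · simp [Real.zero_rpow hδ.ne']
  have h : ((n.divisors.card : ℝ)) ^ K ≤ (B : ℝ) * n := by exact_mod_cast hB n hn.ne'
  calc (n.divisors.card : ℝ) = ((n.divisors.card : ℝ) ^ K) ^ ((1 : ℝ) / K) := by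
        rw [one_div, Real.pow_rpow_inv_natCast (Nat.cast_nonneg _) hKn]
    _ ≤ ((B : ℝ) * n) ^ ((1 : ℝ) / K) := Real.rpow_le_rpow (by positivity) h (by positivity)
    _ = (B : ℝ) ^ ((1 : ℝ) / K) * (n : ℝ) ^ ((1 : ℝ) / K) :=
        Real.mul_rpow (Nat.cast_nonneg _) (Nat.cast_nonneg _)
    _ ≤ _ := by
        refine mul_le_mul_of_nonneg_left ?_ (by positivity)
        refine Real.rpow_le_rpow_of_exponent_le (Nat.one_le_cast.2 hn) ?_
        rw [div_le_iff₀ hK0]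
        rw [div_lt_iff₀ hδ] at hK
        linarith

lemma exists_gcd_rpow_sum_le {δ : ℝ} (hδ : 0 < δ) :
    ∃ A : ℝ, 0 ≤ A ∧ ∀ d : ℕ, d ≠ 0 → ∀ s : Finset ℕ, (∀ e ∈ s, 0 < e) →
      ∑ e ∈ s, (e.gcd d : ℝ) / (e : ℝ) ^ (1 + δ) ≤ A * d.divisors.card := by
  have hs : Summable fun n : ℕ => (1 : ℝ) / (n : ℝ) ^ (1 + δ) :=
    Real.summable_one_div_nat_rpow.2 (by linarith)
  refine ⟨∑' n : ℕ, (1 : ℝ) / (n : ℝ) ^ (1 + δ), tsum_nonneg fun n => by positivity,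
    fun d hd s hs' => ?_⟩
  rw [← sum_fiberwise_of_maps_to (g := fun e => e.gcd d) (t := d.divisors)
    (fun e _ => Nat.mem_divisors.2 ⟨Nat.gcd_dvd_right e d, hd⟩)]
  refine (sum_le_card_nsmul _ _ _ fun g hg => ?_).trans (le_of_eq (by rw [nsmul_eq_mul, mul_comm]))
  have hg0 : 0 < g := Nat.pos_of_mem_divisors hg
  set G := s.filter (fun e => e.gcd d = g) with hG
  have hdvd : ∀ e ∈ G, g ∣ e := fun e he => by
    rw [← (mem_filter.1 he).2]; exact Nat.gcd_dvd_left e d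
  have hinj : Set.InjOn (fun e => e / g) G := fun x hx y hy hxy => by
    have hxy' : x / g = y / g := hxy
    rw [← Nat.div_mul_cancel (hdvd x hx), hxy', Nat.div_mul_cancel (hdvd y hy)]
  calc ∑ e ∈ G, (e.gcd d : ℝ) / (e : ℝ) ^ (1 + δ)
      ≤ ∑ e ∈ G, (1 : ℝ) / ((e / g : ℕ) : ℝ) ^ (1 + δ) := by
        refine sum_le_sum fun e he => ?_
        rw [(mem_filter.1 he).2]
        obtain ⟨m, rfl⟩ := hdvd e he
        have hm : 0 < m := Nat.pos_of_mul_pos_left (hs' _ (mem_filter.1 he).1)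
        have hmR : (0 : ℝ) < m := Nat.cast_pos.2 hm
        have hgR : (1 : ℝ) ≤ g := Nat.one_le_cast.2 hg0
        rw [Nat.mul_div_cancel_left m hg0]
        push_cast
        rw [Real.mul_rpow (by linarith) hmR.le, div_le_div_iff₀ (by positivity) (by positivity),
          one_mul]
        refine mul_le_mul_of_nonneg_right ?_ (by positivity)
        calc (g : ℝ) = (g : ℝ) ^ (1 : ℝ) := (Real.rpow_one _).symm
          _ ≤ _ := Real.rpow_le_rpow_of_exponent_le hgR (by linarith)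
    _ = ∑ x ∈ G.image (fun e => e / g), (1 : ℝ) / (x : ℝ) ^ (1 + δ) :=
        (sum_image hinj (f := fun x : ℕ => (1 : ℝ) / (x : ℝ) ^ (1 + δ))).symm
    _ ≤ _ := hs.sum_le_tsum _ fun n _ => by positivity

lemma exists_moment_one {δ : ℝ} (hδ : 0 < δ) (hδ' : δ ≤ 1 / 2) :
    ∃ A : ℝ, 0 ≤ A ∧ ∀ (F : ℝ), 0 < F → ∀ d : ℕ, d ≠ 0 → ∀ s : Finset ℕ, (∀ e ∈ s, 0 < e) →
      ∑ e ∈ s, wt F e * ((e.gcd d : ℝ) / e) ≤ A * (F ^ δ * (d : ℝ) ^ δ) := by
  obtain ⟨A, hA0, hA⟩ := exists_gcd_rpow_sum_le hδ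
  obtain ⟨B, hB0, hB⟩ := exists_tau_le hδ
  refine ⟨A * B, by positivity, fun F hF d hd s hs => ?_⟩
  calc ∑ e ∈ s, wt F e * ((e.gcd d : ℝ) / e)
      ≤ ∑ e ∈ s, F ^ δ * ((e.gcd d : ℝ) / (e : ℝ) ^ (1 + δ)) := by
        refine sum_le_sum fun e he => ?_
        have heR : (0 : ℝ) < e := Nat.cast_pos.2 (hs e he)
        calc wt F e * ((e.gcd d : ℝ) / e) ≤ (F / e) ^ δ * ((e.gcd d : ℝ) / e) :=
              mul_le_mul_of_nonneg_right (wt_le_rpow hF hδ hδ' (hs e he)) (by positivity)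
          _ = _ := by
              rw [Real.div_rpow hF.le heR.le, Real.rpow_add heR, Real.rpow_one]
              field_simp
    _ ≤ F ^ δ * (A * d.divisors.card) := by
        rw [← mul_sum]; exact mul_le_mul_of_nonneg_left (hA d hd s hs) (by positivity)
    _ ≤ F ^ δ * (A * (B * (d : ℝ) ^ δ)) :=
        mul_le_mul_of_nonneg_left (mul_le_mul_of_nonneg_left (hB d) hA0) (by positivity)
    _ = _ := by ring

lemma exists_moment_two {δ : ℝ} (hδ : 0 < δ) (hδ' : δ ≤ 1 / 2) :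
    ∃ A : ℝ, 0 ≤ A ∧ ∀ (F : ℝ), 0 < F → ∀ d : ℕ, d ≠ 0 → ∀ s : Finset ℕ, (∀ e ∈ s, 0 < e) →
      ∑ x ∈ s, ∑ y ∈ s, wt F x * wt F y * (((x.lcm y).gcd d : ℝ) / (x.lcm y : ℝ))
        ≤ A * (F ^ (2 * δ) * (d : ℝ) ^ δ) := by
  obtain ⟨A, hA0, hA⟩ := exists_gcd_rpow_sum_le (half_pos hδ)
  obtain ⟨B, hB0, hB⟩ := exists_tau_le hδ
  obtain ⟨B₄, hB₄0, hB₄⟩ := exists_tau_le (show (0 : ℝ) < δ / 4 by positivity)
  refine ⟨A * B * B₄ ^ 2, by positivity, fun F hF d hd s hs => ?_⟩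
  rw [← sum_product' (f := fun x y => wt F x * wt F y * (((x.lcm y).gcd d : ℝ) / (x.lcm y : ℝ)))]
  set P := (s ×ˢ s).image (fun p => p.1.lcm p.2) with hP
  rw [← sum_fiberwise_of_maps_to (g := fun p : ℕ × ℕ => p.1.lcm p.2) (t := P)
    (fun p hp => mem_image_of_mem _ hp)]
  have hPpos : ∀ l ∈ P, 0 < l := fun l hl => by
    obtain ⟨p, hp, rfl⟩ := mem_image.1 hl
    exact Nat.lcm_pos (hs _ (mem_product.1 hp).1) (hs _ (mem_product.1 hp).2)
  calc ∑ l ∈ P, ∑ p ∈ (s ×ˢ s).filter (fun p => p.1.lcm p.2 = l),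
        wt F p.1 * wt F p.2 * (((p.1.lcm p.2).gcd d : ℝ) / (p.1.lcm p.2 : ℝ))
      ≤ ∑ l ∈ P, F ^ (2 * δ) * B₄ ^ 2 * ((l.gcd d : ℝ) / (l : ℝ) ^ (1 + δ / 2)) := by
        refine sum_le_sum fun l hl => ?_
        have hl0 := hPpos l hl
        have hlR : (0 : ℝ) < l := Nat.cast_pos.2 hl0
        have hterm : ∀ p ∈ (s ×ˢ s).filter (fun p => p.1.lcm p.2 = l),
            wt F p.1 * wt F p.2 * (((p.1.lcm p.2).gcd d : ℝ) / (p.1.lcm p.2 : ℝ))
              ≤ F ^ (2 * δ) * ((l.gcd d : ℝ) / (l : ℝ) ^ (1 + δ)) := by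
          intro p hp
          obtain ⟨hp1, hp2⟩ := mem_filter.1 hp
          have hx0 := hs _ (mem_product.1 hp1).1
          have hy0 := hs _ (mem_product.1 hp1).2
          have hxR : (0 : ℝ) < p.1 := Nat.cast_pos.2 hx0
          have hyR : (0 : ℝ) < p.2 := Nat.cast_pos.2 hy0
          rw [hp2]
          have hxy : (l : ℝ) ≤ (p.1 : ℝ) * p.2 := by
            have : l ≤ p.1 * p.2 := hp2 ▸ Nat.le_of_dvd (Nat.mul_pos hx0 hy0)
              (Nat.lcm_dvd (dvd_mul_right _ _) (dvd_mul_left _ _))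
            exact_mod_cast this
          calc wt F p.1 * wt F p.2 * ((l.gcd d : ℝ) / l)
              ≤ (F / p.1) ^ δ * (F / p.2) ^ δ * ((l.gcd d : ℝ) / l) :=
                mul_le_mul_of_nonneg_right (mul_le_mul (wt_le_rpow hF hδ hδ' hx0)
                  (wt_le_rpow hF hδ hδ' hy0) (wt_nonneg _ _) (by positivity)) (by positivity)
            _ = F ^ (2 * δ) / ((p.1 : ℝ) * p.2) ^ δ * ((l.gcd d : ℝ) / l) := by
                rw [Real.div_rpow hF.le hxR.le, Real.div_rpow hF.le hyR.le,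
                  Real.mul_rpow hxR.le hyR.le, two_mul δ, Real.rpow_add hF]
                field_simp
            _ ≤ F ^ (2 * δ) / (l : ℝ) ^ δ * ((l.gcd d : ℝ) / l) := by
                refine mul_le_mul_of_nonneg_right ?_ (by positivity)
                exact div_le_div_of_nonneg_left (by positivity) (by positivity)
                  (Real.rpow_le_rpow hlR.le hxy hδ.le)
            _ = _ := by rw [Real.rpow_add hlR, Real.rpow_one]; field_simp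
        refine (sum_le_card_nsmul _ _ _ hterm).trans ?_
        rw [nsmul_eq_mul]
        have hcard : (((s ×ˢ s).filter (fun p => p.1.lcm p.2 = l)).card : ℝ)
            ≤ B₄ ^ 2 * (l : ℝ) ^ (δ / 2) := by
          have h1 : ((s ×ˢ s).filter (fun p => p.1.lcm p.2 = l)).card
              ≤ (l.divisors ×ˢ l.divisors).card := card_le_card fun p hp => by
            obtain ⟨-, hp2⟩ := mem_filter.1 hp
            exact mem_product.2 ⟨Nat.mem_divisors.2 ⟨hp2 ▸ Nat.dvd_lcm_left _ _, hl0.ne'⟩,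
              Nat.mem_divisors.2 ⟨hp2 ▸ Nat.dvd_lcm_right _ _, hl0.ne'⟩⟩
          rw [card_product] at h1
          calc (((s ×ˢ s).filter (fun p => p.1.lcm p.2 = l)).card : ℝ)
              ≤ (l.divisors.card : ℝ) * l.divisors.card := by exact_mod_cast h1
            _ ≤ (B₄ * (l : ℝ) ^ (δ / 4)) * (B₄ * (l : ℝ) ^ (δ / 4)) :=
                mul_le_mul (hB₄ l) (hB₄ l) (Nat.cast_nonneg _) (by positivity)
            _ = _ := by rw [show δ / 2 = δ / 4 + δ / 4 by ring, Real.rpow_add hlR]; ring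
        refine (mul_le_mul_of_nonneg_right hcard (by positivity)).trans (le_of_eq ?_)
        rw [show (1 : ℝ) + δ = (1 + δ / 2) + δ / 2 by ring, Real.rpow_add hlR (1 + δ / 2)]
        field_simp
    _ ≤ F ^ (2 * δ) * B₄ ^ 2 * (A * d.divisors.card) := by
        rw [← mul_sum]
        exact mul_le_mul_of_nonneg_left (hA d hd P hPpos) (by positivity)
    _ ≤ F ^ (2 * δ) * B₄ ^ 2 * (A * (B * (d : ℝ) ^ δ)) :=
        mul_le_mul_of_nonneg_left (mul_le_mul_of_nonneg_left (hB d) hA0) (by positivity)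
    _ = _ := by ring

/-- The geometric base `2^(-1/4)`. -/
def geo : ℝ := (1 / 2 : ℝ) ^ ((1 : ℝ) / 4)

lemma geo_pos : 0 < geo := Real.rpow_pos_of_pos (by norm_num) _

lemma geo_lt_one : geo < 1 := Real.rpow_lt_one (by norm_num) (by norm_num) (by norm_num)

lemma sum_geo_le (n : ℕ) : ∑ i ∈ range n, geo ^ i ≤ (1 - geo)⁻¹ := by
  rw [← tsum_geometric_of_lt_one geo_pos.le geo_lt_one]
  exact (summable_geometric_of_lt_one geo_pos.le geo_lt_one).sum_le_tsum _ fun i _ => by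
    have := geo_pos; positivity

lemma half_pow_rpow (i : ℕ) : (1 / (2 : ℝ) ^ i) ^ ((1 : ℝ) / 4) = geo ^ i := by
  rw [geo, ← Real.rpow_natCast ((1 / 2 : ℝ) ^ ((1 : ℝ) / 4)) i, ← Real.rpow_mul (by norm_num),
    mul_comm, Real.rpow_mul (by norm_num), Real.rpow_natCast, one_div_pow]

lemma min_le_rpow_mul {x y a : ℝ} (hx : 0 < x) (hy : 0 < y) (ha0 : 0 ≤ a) (ha1 : a ≤ 1) :
    min x y ≤ x ^ a * y ^ (1 - a) := by
  have hm : 0 < min x y := lt_min hx hy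
  calc min x y = min x y ^ a * min x y ^ (1 - a) := by
        rw [← Real.rpow_add hm]; simp
    _ ≤ x ^ a * y ^ (1 - a) :=
        mul_le_mul (Real.rpow_le_rpow hm.le (min_le_left _ _) ha0)
          (Real.rpow_le_rpow hm.le (min_le_right _ _) (by linarith)) (by positivity) (by positivity)

lemma wt_eq_rpow {F : ℝ} {d : ℕ} (hFd : F < d) (hF : 0 < F) :
    wt F d = (F / d) ^ ((1 : ℝ) / 2) := by
  rw [wt, min_eq_right ((div_le_one (hF.trans hFd)).2 hFd.le), Real.sqrt_eq_rpow]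

lemma min_le_wt_plain {F : ℝ} (hF : 0 < F) {d : ℕ} (hFd : F < d) (i : ℕ) :
    min (1 / (2 : ℝ) ^ i) (6 * F / d) ≤ 6 * geo ^ i * wt F d := by
  have hdR : (0 : ℝ) < d := hF.trans hFd
  have h := min_le_rpow_mul (show (0 : ℝ) < 1 / (2 : ℝ) ^ i by positivity)
    (show (0 : ℝ) < 6 * F / d by positivity) (show (0 : ℝ) ≤ 1 / 2 by norm_num) (by norm_num)
  refine h.trans ?_
  have h1 : (1 / (2 : ℝ) ^ i) ^ ((1 : ℝ) / 2) ≤ geo ^ i := by
    rw [← half_pow_rpow]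
    exact Real.rpow_le_rpow_of_exponent_ge (by positivity)
      ((div_le_one (by positivity)).2 (one_le_pow₀ one_le_two)) (by norm_num)
  have h2 : (6 * F / d) ^ (1 - (1 : ℝ) / 2) ≤ 6 * wt F d := by
    rw [wt_eq_rpow hFd hF, mul_div_assoc, show (1 : ℝ) - 1 / 2 = 1 / 2 by norm_num,
      Real.mul_rpow (by norm_num) (by positivity)]
    refine mul_le_mul_of_nonneg_right ?_ (by positivity)
    calc (6 : ℝ) ^ ((1 : ℝ) / 2) ≤ (6 : ℝ) ^ (1 : ℝ) :=
          Real.rpow_le_rpow_of_exponent_le (by norm_num) (by norm_num)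
      _ = 6 := Real.rpow_one _
  calc (1 / (2 : ℝ) ^ i) ^ ((1 : ℝ) / 2) * (6 * F / d) ^ (1 - (1 : ℝ) / 2)
      ≤ geo ^ i * (6 * wt F d) :=
        mul_le_mul h1 h2 (by positivity) (by have := geo_pos; positivity)
    _ = _ := by ring

lemma min_le_wt_weighted {F δ : ℝ} (hF : 0 < F) (hδ : 0 < δ) (hδ' : δ ≤ 1 / 8) (hF1 : 1 ≤ F)
    {d : ℕ} (hFd : F < d) (i : ℕ) :
    min (1 / (2 : ℝ) ^ i) (6 * F / d) * (F ^ δ * (d : ℝ) ^ δ)
      ≤ 6 * F ^ (3 * δ) * geo ^ i * wt F d := by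
  have hdR : (0 : ℝ) < d := hF.trans hFd
  have hx : 0 < F / (d : ℝ) := by positivity
  have h := min_le_rpow_mul (show (0 : ℝ) < 1 / (2 : ℝ) ^ i by positivity)
    (show (0 : ℝ) < 6 * F / d by positivity) (show (0 : ℝ) ≤ 1 / 4 by norm_num) (by norm_num)
  rw [half_pow_rpow, mul_div_assoc, Real.mul_rpow (by norm_num) hx.le] at h
  rw [mul_div_assoc]
  have h6 : (6 : ℝ) ^ (1 - (1 : ℝ) / 4) ≤ 6 := by
    calc (6 : ℝ) ^ (1 - (1 : ℝ) / 4) ≤ (6 : ℝ) ^ (1 : ℝ) :=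
          Real.rpow_le_rpow_of_exponent_le (by norm_num) (by norm_num)
      _ = 6 := Real.rpow_one _
  have hd : (d : ℝ) ^ δ = F ^ δ * (F / d) ^ (-δ) := by
    rw [Real.rpow_neg hx.le, Real.div_rpow hF.le hdR.le]
    field_simp
  have hwt : (F / (d : ℝ)) ^ (1 - (1 : ℝ) / 4) * (F / d) ^ (-δ) ≤ wt F d := by
    rw [← Real.rpow_add hx, wt_eq_rpow hFd hF]
    exact Real.rpow_le_rpow_of_exponent_ge hx ((div_le_one hdR).2 hFd.le) (by linarith)
  have hFpow : F ^ δ * F ^ δ ≤ F ^ (3 * δ) := by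
    rw [← Real.rpow_add hF]
    exact Real.rpow_le_rpow_of_exponent_le hF1 (by linarith)
  have hg := geo_pos
  calc min (1 / (2 : ℝ) ^ i) (6 * (F / d)) * (F ^ δ * (d : ℝ) ^ δ)
      ≤ geo ^ i * ((6 : ℝ) ^ (1 - (1 : ℝ) / 4) * (F / d) ^ (1 - (1 : ℝ) / 4))
          * (F ^ δ * (d : ℝ) ^ δ) := mul_le_mul_of_nonneg_right h (by positivity)
    _ = (6 : ℝ) ^ (1 - (1 : ℝ) / 4) * geo ^ i * (F ^ δ * F ^ δ) *
          ((F / d) ^ (1 - (1 : ℝ) / 4) * (F / d) ^ (-δ)) := by rw [hd]; ring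
    _ ≤ 6 * geo ^ i * F ^ (3 * δ) * wt F d := by gcongr
    _ = _ := by ring

lemma div_le_wt_col {F δ : ℝ} (hF : 0 < F) (hδ : 0 < δ) (hδ' : δ ≤ 1 / 8)
    {d : ℕ} (hFd : F < d) :
    F / (d : ℝ) * (F ^ (2 * δ) * (d : ℝ) ^ δ) ≤ F ^ (3 * δ) * wt F d := by
  have hdR : (0 : ℝ) < d := hF.trans hFd
  have hx : 0 < F / (d : ℝ) := by positivity
  have e : F / (d : ℝ) * (F ^ (2 * δ) * (d : ℝ) ^ δ) = F ^ (3 * δ) * (F / d) ^ (1 - δ) := by
    rw [Real.rpow_sub hx, Real.rpow_one, show (3 : ℝ) * δ = 2 * δ + δ by ring, Real.rpow_add hF,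
      Real.div_rpow hF.le hdR.le]
    field_simp
  rw [e, wt_eq_rpow hFd hF]
  exact mul_le_mul_of_nonneg_left
    (Real.rpow_le_rpow_of_exponent_ge hx ((div_le_one hdR).2 hFd.le) (by linarith)) (by positivity)

end

end Vale.Agent.P028.ErdosVaaler
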