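import Vale.Agent.P028.ErdosVaaler.Column

/-!
Measures of the approximation sets and of their pairwise intersections on the unit interval.
-/

namespace Vale.Agent.P028.ErdosVaaler

open Finset MeasureTheory

noncomputable section

/-- The points `x` with `|q x - a - γ| < p` for some integer `a`. -/
def A (γ p : ℝ) (q : ℕ) : Set ℝ := {x | ∃ a : ℤ, |(q : ℝ) * x - a - γ| < p}

/-- One interval of `A`. -/
def J (γ p : ℝ) (q : ℕ) (a : ℤ) : Set ℝ :=
  Set.Ioo (((a : ℝ) + γ - p) / q) (((a : ℝ) + γ + p) / q)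

/-- The indices whose interval may meet `[0, t)`. -/
def idx (γ p t : ℝ) (q : ℕ) : Finset ℤ := Icc ⌈-p - γ⌉ ⌊(q : ℝ) * t + p - γ⌋

lemma mem_J {γ p x : ℝ} {q : ℕ} (hq : 0 < q) {a : ℤ} :
    x ∈ J γ p q a ↔ |(q : ℝ) * x - a - γ| < p := by
  have hqR : (0 : ℝ) < q := Nat.cast_pos.2 hq
  rw [J, Set.mem_Ioo, div_lt_iff₀ hqR, lt_div_iff₀ hqR, abs_lt]
  constructor <;> rintro ⟨h1, h2⟩ <;> constructor <;> linarith

lemma measureReal_J {γ p : ℝ} (hp : 0 ≤ p) (q : ℕ) (a : ℤ) :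
    volume.real (J γ p q a) = 2 * p / q := by
  rw [J, Real.volume_real_Ioo_of_le (div_le_div_of_nonneg_right (by linarith) (Nat.cast_nonneg q)),
    ← sub_div]
  congr 1; ring

lemma measurableSet_A (γ p : ℝ) (q : ℕ) : MeasurableSet (A γ p q) := by
  have : A γ p q = ⋃ a : ℤ, {x : ℝ | |(q : ℝ) * x - a - γ| < p} := by ext x; simp [A]
  rw [this]
  exact MeasurableSet.iUnion fun a => (isOpen_lt (by fun_prop) (by fun_prop)).measurableSet

lemma A_inter_subset {γ p t : ℝ} {q : ℕ} (hq : 0 < q) :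
    A γ p q ∩ Set.Ico 0 t ⊆ ⋃ a ∈ idx γ p t q, J γ p q a := by
  rintro x ⟨⟨a, ha⟩, hx0, hxt⟩
  have hqR : (0 : ℝ) < q := Nat.cast_pos.2 hq
  obtain ⟨h1, h2⟩ := abs_lt.1 ha
  have h3 : 0 ≤ (q : ℝ) * x := by positivity
  have h4 : (q : ℝ) * x ≤ q * t := mul_le_mul_of_nonneg_left hxt.le hqR.le
  exact Set.mem_biUnion (Finset.mem_Icc.2
    ⟨Int.ceil_le.2 (by linarith), Int.le_floor.2 (by linarith)⟩) ((mem_J hq).2 ha)

lemma abs_measure_A_inter_sub_le {γ p t : ℝ} {q : ℕ} (hq : 0 < q) (hp : 0 ≤ p) (hp' : p ≤ 1 / 2)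
    (ht : 0 ≤ t) : |volume.real (A γ p q ∩ Set.Ico 0 t) - 2 * p * t| ≤ 4 * p / q := by
  have hqR : (0 : ℝ) < q := Nat.cast_pos.2 hq
  have hqt : 0 ≤ (q : ℝ) * t := by positivity
  have hfin : volume (A γ p q ∩ Set.Ico 0 t) ≠ ⊤ :=
    ((measure_mono Set.inter_subset_right).trans_lt measure_Ico_lt_top).ne
  rw [abs_le]
  refine ⟨?_, ?_⟩
  · set s : Finset ℤ := Icc ⌈p - γ⌉ ⌊(q : ℝ) * t - p - γ⌋ with hs
    have hsub : (⋃ a ∈ s, J γ p q a) ⊆ A γ p q ∩ Set.Ico 0 t := by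
      intro x hx
      obtain ⟨a, ha, hx⟩ := Set.mem_iUnion₂.1 hx
      obtain ⟨ha1, ha2⟩ := Finset.mem_Icc.1 ha
      have hx' := (mem_J hq).1 hx
      obtain ⟨h1, h2⟩ := abs_lt.1 hx'
      have b1 := Int.ceil_le.1 ha1
      have b2 := Int.le_floor.1 ha2
      exact ⟨⟨a, hx'⟩, (pos_of_mul_pos_right (by linarith : (0 : ℝ) < q * x) hqR.le).le,
        lt_of_mul_lt_mul_left (by linarith) hqR.le⟩
    have hdisj : (s : Set ℤ).PairwiseDisjoint (J γ p q) := by
      intro a _ b _ hab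
      refine Set.disjoint_left.2 fun x hxa hxb => hab ?_
      obtain ⟨a1, a2⟩ := abs_lt.1 ((mem_J hq).1 hxa)
      obtain ⟨b1, b2⟩ := abs_lt.1 ((mem_J hq).1 hxb)
      have h1 : (a : ℝ) < b + 1 := by linarith
      have h2 : (b : ℝ) < a + 1 := by linarith
      have h1' : a < b + 1 := by exact_mod_cast h1
      have h2' : b < a + 1 := by exact_mod_cast h2
      omega
    have hm := measureReal_mono hsub hfin
    rw [measureReal_biUnion_finset hdisj (fun a _ => measurableSet_Ioo)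
      (fun a _ => measure_Ioo_lt_top.ne)] at hm
    simp only [measureReal_J hp, sum_const, nsmul_eq_mul] at hm
    have hc : (q : ℝ) * t - 2 ≤ s.card := by
      have h1 : ⌊(q : ℝ) * t - p - γ⌋ + 1 - ⌈p - γ⌉ ≤ (s.card : ℤ) := by
        rw [hs, Int.card_Icc]; exact Int.self_le_toNat _
      have h2 : ((⌊(q : ℝ) * t - p - γ⌋ + 1 - ⌈p - γ⌉ : ℤ) : ℝ) ≤ (s.card : ℝ) := by
        exact_mod_cast h1
      push_cast at h2
      linarith [Int.sub_one_lt_floor ((q : ℝ) * t - p - γ), Int.ceil_lt_add_one (p - γ)]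
    have := mul_le_mul_of_nonneg_right hc (show (0 : ℝ) ≤ 2 * p / q by positivity)
    have e : ((q : ℝ) * t - 2) * (2 * p / q) = 2 * p * t - 4 * p / q := by field_simp; ring
    linarith
  · have hm : volume.real (A γ p q ∩ Set.Ico 0 t) ≤ ((idx γ p t q).card : ℝ) * (2 * p / q) := by
      refine (measureReal_mono (A_inter_subset hq) ?_).trans
        ((measureReal_biUnion_finset_le _ _).trans (le_of_eq ?_))
      · exact ((measure_biUnion_finset_le _ _).trans_lt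
          (ENNReal.sum_lt_top.2 fun a _ => measure_Ioo_lt_top)).ne
      · simp only [measureReal_J hp, sum_const, nsmul_eq_mul]
    have hc : ((idx γ p t q).card : ℝ) ≤ q * t + 2 := by
      have h1 : ((idx γ p t q).card : ℤ) = max (⌊(q : ℝ) * t + p - γ⌋ + 1 - ⌈-p - γ⌉) 0 := by
        rw [idx, Int.card_Icc, Int.toNat_eq_max]
      have h2 : ((idx γ p t q).card : ℝ)
          = max (((⌊(q : ℝ) * t + p - γ⌋ + 1 - ⌈-p - γ⌉ : ℤ)) : ℝ) 0 := by exact_mod_cast h1
      rw [h2]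
      refine max_le ?_ (by linarith)
      push_cast
      linarith [Int.floor_le ((q : ℝ) * t + p - γ), Int.le_ceil (-p - γ)]
    have := mul_le_mul_of_nonneg_right hc (show (0 : ℝ) ≤ 2 * p / q by positivity)
    have e : ((q : ℝ) * t + 2) * (2 * p / q) = 2 * p * t + 4 * p / q := by field_simp; ring
    linarith

open scoped Classical in
lemma overlap_le' {γ C : ℝ} {ψ : ℕ → ℝ} (hψ : Small C ψ) {q r : ℕ} (hr : 0 < r) (hrq : r < q)
    (hq2 : ψ q ≤ 1 / 2) (hr2 : ψ r ≤ 1 / 2) :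
    volume.real ((A γ (ψ q) q ∩ A γ (ψ r) r) ∩ Set.Ico 0 1)
      ≤ 48 * (ψ q * ψ r)
        + 6 * (if ((r : ℝ) * ψ q + q * ψ r) / (q.gcd r : ℝ) < 1 / 2 then T γ ψ q r else 0) := by
  have hq : 0 < q := hr.trans hrq
  have hqR : (0 : ℝ) < q := Nat.cast_pos.2 hq
  have hrR : (0 : ℝ) < r := Nat.cast_pos.2 hr
  have hpq := (hψ q).1
  have hpr := (hψ r).1
  set g := q.gcd r with hg
  have hg0 : 0 < g := Nat.gcd_pos_of_pos_left _ hq
  have hgR : (0 : ℝ) < g := Nat.cast_pos.2 hg0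
  obtain ⟨q', hq'⟩ := Nat.gcd_dvd_left q r
  obtain ⟨r', hr'⟩ := Nat.gcd_dvd_right q r
  have hco : Nat.Coprime q' r' := by
    have := Nat.coprime_div_gcd_div_gcd hg0 (m := q) (n := r)
    rwa [← hg, show q / g = q' by rw [hq', Nat.mul_div_cancel_left _ hg0],
      show r / g = r' by rw [hr', Nat.mul_div_cancel_left _ hg0]] at this
  rw [← hg] at hq' hr'
  have hq'0 : 0 < q' := by
    rcases Nat.eq_zero_or_pos q' with rfl | h0
    · simp at hq'; omega
    · exact h0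
  set μ := min (ψ q / (q : ℝ)) (ψ r / (r : ℝ)) with hμ
  set D := ((r : ℝ) * ψ q + q * ψ r) / (g : ℝ) with hD
  set k := ((q : ℝ) - r) / (g : ℝ) with hk
  set Iq := idx γ (ψ q) 1 q with hIq
  set Ir := idx γ (ψ r) 1 r with hIr
  set P := (Iq ×ˢ Ir).filter
    (fun p => ∃ x, x ∈ J γ (ψ q) q p.1 ∧ x ∈ J γ (ψ r) r p.2) with hP
  have hcov : (A γ (ψ q) q ∩ A γ (ψ r) r) ∩ Set.Ico 0 1
      ⊆ ⋃ p ∈ P, (J γ (ψ q) q p.1 ∩ J γ (ψ r) r p.2) := by
    rintro x ⟨⟨hxq, hxr⟩, hx⟩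
    obtain ⟨a, ha, hxa⟩ := Set.mem_iUnion₂.1 (A_inter_subset hq ⟨hxq, hx⟩)
    obtain ⟨b, hb, hxb⟩ := Set.mem_iUnion₂.1 (A_inter_subset hr ⟨hxr, hx⟩)
    exact Set.mem_biUnion (x := (a, b))
      (Finset.mem_filter.2 ⟨Finset.mem_product.2 ⟨ha, hb⟩, x, hxa, hxb⟩) ⟨hxa, hxb⟩
  have hvol : volume.real ((A γ (ψ q) q ∩ A γ (ψ r) r) ∩ Set.Ico 0 1)
      ≤ (P.card : ℝ) * (2 * μ) := by
    refine (measureReal_mono hcov ?_).trans ((measureReal_biUnion_finset_le _ _).trans ?_)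
    · exact ((measure_biUnion_finset_le _ _).trans_lt (ENNReal.sum_lt_top.2 fun p _ =>
        (measure_mono Set.inter_subset_left).trans_lt measure_Ioo_lt_top)).ne
    · rw [← nsmul_eq_mul]
      refine sum_le_card_nsmul _ _ _ fun p _ => ?_
      have h1 : volume.real (J γ (ψ q) q p.1 ∩ J γ (ψ r) r p.2) ≤ 2 * (ψ q / q) :=
        (measureReal_mono Set.inter_subset_left
          (show volume (J γ (ψ q) q p.1) ≠ ⊤ from measure_Ioo_lt_top.ne)).trans
          (le_of_eq (by rw [measureReal_J hpq]; ring))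
      have h2 : volume.real (J γ (ψ q) q p.1 ∩ J γ (ψ r) r p.2) ≤ 2 * (ψ r / r) :=
        (measureReal_mono Set.inter_subset_right
          (show volume (J γ (ψ r) r p.2) ≠ ⊤ from measure_Ioo_lt_top.ne)).trans
          (le_of_eq (by rw [measureReal_J hpr]; ring))
      rw [hμ, mul_min_of_nonneg _ _ zero_le_two]
      exact le_min h1 h2
  set φ : ℤ × ℤ → ℤ := fun p => p.1 * (r' : ℤ) - p.2 * (q' : ℤ) with hφ
  have hclose : ∀ p ∈ P, |k * γ - (φ p : ℝ)| < D := by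
    rintro ⟨a, b⟩ hp
    obtain ⟨-, x, hxa, hxb⟩ := Finset.mem_filter.1 hp
    obtain ⟨a1, a2⟩ := abs_lt.1 ((mem_J hq).1 hxa)
    obtain ⟨b1, b2⟩ := abs_lt.1 ((mem_J hr).1 hxb)
    have e : k * γ - (φ (a, b) : ℝ) = ((q : ℝ) * ((r : ℝ) * x - b - γ) * (-1)
        + (r : ℝ) * ((q : ℝ) * x - a - γ)) / g := by
      rw [hk, hφ, hq', hr']; push_cast; field_simp; ring
    rw [e, hD, abs_div, abs_of_pos hgR]
    refine div_lt_div_of_pos_right ?_ hgR
    rw [abs_lt]
    constructor <;>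
      nlinarith [mul_lt_mul_of_pos_left a1 hrR, mul_lt_mul_of_pos_left a2 hrR,
        mul_lt_mul_of_pos_left b1 hqR, mul_lt_mul_of_pos_left b2 hqR]
  have hfib : P.card ≤ 3 * g * (P.image φ).card := by
    refine card_le_mul_card_image P (3 * g) fun n _ => ?_
    set F := P.filter (fun p => φ p = n) with hF
    set lo := ⌈-ψ q - γ⌉ with hlo
    have hrange : ∀ p ∈ F, lo ≤ p.1 ∧ (p.1 - lo).toNat ≤ q + 1 := by
      intro p hp
      have h1 := (Finset.mem_product.1 (Finset.mem_filter.1 (Finset.mem_filter.1 hp).1).1).1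
      obtain ⟨h2, h3⟩ := Finset.mem_Icc.1 h1
      refine ⟨h2, ?_⟩
      have h5 : ((p.1 : ℝ) - lo) ≤ (q : ℝ) + 1 := by
        have := Int.le_floor.1 h3
        have := Int.le_ceil (-ψ q - γ)
        rw [← hlo] at this
        linarith
      have h6 : p.1 - lo ≤ (q : ℤ) + 1 := by exact_mod_cast h5
      omega
    refine le_trans (card_le_card_of_injOn (t := range (2 * g + 1))
      (fun p => (p.1 - lo).toNat / q') ?_ ?_) ?_
    · intro p hp
      refine Finset.mem_range.2 (Nat.lt_succ_of_le ?_)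
      calc (p.1 - lo).toNat / q' ≤ (q + 1) / q' := Nat.div_le_div_right (hrange p hp).2
        _ ≤ (2 * g * q') / q' := Nat.div_le_div_right (by rw [mul_assoc, ← hq']; omega)
        _ = 2 * g := Nat.mul_div_cancel _ hq'0
    · intro x hx y hy hxy
      obtain ⟨hxP, hxn⟩ := Finset.mem_filter.1 (Finset.mem_coe.1 hx)
      obtain ⟨hyP, hyn⟩ := Finset.mem_filter.1 (Finset.mem_coe.1 hy)
      have hxy' : (x.1 - lo).toNat / q' = (y.1 - lo).toNat / q' := hxy
      have hd : (q' : ℤ) ∣ (x.1 - y.1) * (r' : ℤ) :=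
        ⟨x.2 - y.2, by simp only [hφ] at hxn hyn; linear_combination hxn - hyn⟩
      have h2 := (Nat.isCoprime_iff_coprime.2 hco).dvd_of_dvd_mul_right hd
      have hlt : |x.1 - y.1| < (q' : ℤ) := by
        have a1 := Nat.div_add_mod (x.1 - lo).toNat q'
        have a2 := Nat.div_add_mod (y.1 - lo).toNat q'
        have a3 := Nat.mod_lt (x.1 - lo).toNat hq'0
        have a4 := Nat.mod_lt (y.1 - lo).toNat hq'0
        have a5 := (hrange x (Finset.mem_coe.1 hx)).1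
        have a6 := (hrange y (Finset.mem_coe.1 hy)).1
        rw [hxy'] at a1
        rw [abs_lt]
        omega
      have h3 : x.1 = y.1 := sub_eq_zero.1 (Int.eq_zero_of_abs_lt_dvd h2 hlt)
      have h4 : x.2 * (q' : ℤ) = y.2 * (q' : ℤ) := by
        simp only [hφ] at hxn hyn; rw [h3] at hxn; linarith
      exact Prod.ext h3 (mul_right_cancel₀ (Int.natCast_ne_zero.2 hq'0.ne') h4)
    · rw [card_range]; omega
  have hμ0 : 0 ≤ μ := le_min (by positivity) (by positivity)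
  have hD0 : 0 ≤ D := by positivity
  refine hvol.trans ?_
  have hPR : (P.card : ℝ) ≤ 3 * g * (P.image φ).card := by exact_mod_cast hfib
  have himg : ∀ n ∈ P.image φ, |k * γ - (n : ℝ)| < D := fun n hn => by
    obtain ⟨p, hp, rfl⟩ := Finset.mem_image.1 hn
    exact hclose p hp
  have hT0 : 0 ≤ T γ ψ q r := T_nonneg hψ q r
  rcases le_or_gt (1 / 2) D with hbig | hsmall
  · have hcard : ((P.image φ).card : ℝ) ≤ 4 * D := by
      have hsub : P.image φ ⊆ Icc ⌈k * γ - D⌉ ⌊k * γ + D⌋ := fun n hn => by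
        obtain ⟨h1, h2⟩ := abs_lt.1 (himg n hn)
        exact Finset.mem_Icc.2 ⟨Int.ceil_le.2 (by linarith), Int.le_floor.2 (by linarith)⟩
      have h1 : ((P.image φ).card : ℤ) ≤ max (⌊k * γ + D⌋ + 1 - ⌈k * γ - D⌉) 0 := by
        rw [← Int.toNat_eq_max, ← Int.card_Icc]
        exact_mod_cast card_le_card hsub
      have h2 : ((P.image φ).card : ℝ)
          ≤ max (((⌊k * γ + D⌋ + 1 - ⌈k * γ - D⌉ : ℤ)) : ℝ) 0 := by exact_mod_cast h1
      refine h2.trans (max_le ?_ (by linarith))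
      push_cast
      linarith [Int.floor_le (k * γ + D), Int.le_ceil (k * γ - D)]
    have hkey : (g : ℝ) * D * μ ≤ 2 * (ψ q * ψ r) := by
      rw [hD, mul_div_cancel₀ _ hgR.ne']
      have h1 : (r : ℝ) * ψ q * μ ≤ ψ q * ψ r := by
        calc (r : ℝ) * ψ q * μ ≤ (r : ℝ) * ψ q * (ψ r / r) :=
              mul_le_mul_of_nonneg_left (min_le_right _ _) (by positivity)
          _ = _ := by field_simp
      have h2 : (q : ℝ) * ψ r * μ ≤ ψ q * ψ r := by
        calc (q : ℝ) * ψ r * μ ≤ (q : ℝ) * ψ r * (ψ q / q) :=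
              mul_le_mul_of_nonneg_left (min_le_left _ _) (by positivity)
          _ = _ := by field_simp
      rw [add_mul]; linarith
    calc (P.card : ℝ) * (2 * μ) ≤ (3 * g * (4 * D)) * (2 * μ) :=
          mul_le_mul_of_nonneg_right (hPR.trans (mul_le_mul_of_nonneg_left hcard (by positivity)))
            (by positivity)
      _ = 24 * ((g : ℝ) * D * μ) := by ring
      _ ≤ _ := by rw [if_neg (not_lt.2 hbig)]; linarith
  · rw [if_pos hsmall]
    rcases P.eq_empty_or_nonempty with hPe | ⟨p₀, hp₀⟩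
    · rw [hPe, card_empty, Nat.cast_zero, zero_mul]
      positivity
    have hone : (P.image φ).card ≤ 1 := by
      refine card_le_one.2 fun x hx y hy => ?_
      obtain ⟨a1, a2⟩ := abs_lt.1 (himg x hx)
      obtain ⟨b1, b2⟩ := abs_lt.1 (himg y hy)
      have h1 : (x : ℝ) < y + 1 := by linarith
      have h2 : (y : ℝ) < x + 1 := by linarith
      have h1' : x < y + 1 := by exact_mod_cast h1
      have h2' : y < x + 1 := by exact_mod_cast h2
      omega
    have hTeq : T γ ψ q r = g * μ := by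
      unfold T
      rw [← hg, if_pos]
      exact ⟨φ p₀, (hclose p₀ hp₀).trans_le (le_min hsmall.le le_rfl)⟩
    calc (P.card : ℝ) * (2 * μ) ≤ (3 * g * ((1 : ℕ) : ℝ)) * (2 * μ) :=
          mul_le_mul_of_nonneg_right
            (hPR.trans (mul_le_mul_of_nonneg_left (Nat.cast_le.2 hone) (by positivity)))
            (by positivity)
      _ = 6 * T γ ψ q r := by rw [hTeq, Nat.cast_one]; ring
      _ ≤ _ := le_add_of_nonneg_left (by positivity)

open scoped Classical in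
lemma overlap_le {γ C : ℝ} {ψ : ℕ → ℝ} (hψ : Small C ψ) {q r : ℕ} (hr : 0 < r) (hrq : r < q)
    (hq2 : ψ q ≤ 1 / 2) (hr2 : ψ r ≤ 1 / 2) :
    volume.real ((A γ (ψ q) q ∩ A γ (ψ r) r) ∩ Set.Ico 0 1)
      ≤ 48 * (ψ q * ψ r) + 6 * T γ ψ q r := by
  refine (overlap_le' hψ hr hrq hq2 hr2).trans ?_
  split
  · exact le_rfl
  · linarith [T_nonneg (γ := γ) hψ q r]

end

end Vale.Agent.P028.ErdosVaaler
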