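import Vale.Agent.P028.ErdosVaaler.Sums
import Vale.Agent.P028.ErdosVaaler.Hits

/-!
The exceptional part of the pairwise overlaps sums to a linear term.
-/

namespace Vale.Agent.P028.ErdosVaaler

open Finset

noncomputable section

open scoped Classical

/-- The exceptional overlap of `q` and `r`. -/
def T (γ : ℝ) (ψ : ℕ → ℝ) (q r : ℕ) : ℝ :=
  if Hit γ (min (1 / 2) (((r : ℝ) * ψ q + q * ψ r) / (q.gcd r : ℝ)))
      (((q : ℝ) - r) / (q.gcd r : ℝ))
  then (q.gcd r : ℝ) * min (ψ q / q) (ψ r / r) else 0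

/-- The standing hypothesis on `ψ`. -/
def Small (C : ℝ) (ψ : ℕ → ℝ) : Prop := ∀ q : ℕ, 0 ≤ ψ q ∧ ψ q ≤ C / q

lemma T_nonneg {γ C : ℝ} {ψ : ℕ → ℝ} (hψ : Small C ψ) (q r : ℕ) : 0 ≤ T γ ψ q r := by
  unfold T
  split
  · exact mul_nonneg (Nat.cast_nonneg _)
      (le_min (div_nonneg (hψ q).1 (Nat.cast_nonneg _)) (div_nonneg (hψ r).1 (Nat.cast_nonneg _)))
  · exact le_rfl

lemma T_le_gcd {γ C : ℝ} {ψ : ℕ → ℝ} (hψ : Small C ψ) (q r : ℕ) :
    T γ ψ q r ≤ (q.gcd r : ℝ) * (ψ q / q) := by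
  unfold T
  split
  · exact mul_le_mul_of_nonneg_left (min_le_left _ _) (Nat.cast_nonneg _)
  · exact mul_nonneg (Nat.cast_nonneg _) (div_nonneg (hψ q).1 (Nat.cast_nonneg _))

/-- The exponent fixing which scales count as near. -/
def NN (w : ℕ) : ℕ := (16 * w + 17) * (w + 1) + 1

lemma NN_pos (w : ℕ) : 0 < NN w := Nat.succ_pos _

lemma dyadic_mem {q a : ℕ} (hq : 0 < q) (ha : Nat.log 2 q = a) :
    2 ^ a ≤ q ∧ q < 2 ^ (a + 1) :=
  ⟨ha ▸ Nat.pow_log_le_self 2 hq.ne', ha ▸ Nat.lt_pow_succ_log_self one_lt_two q⟩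

lemma D_le {C : ℝ} {ψ : ℕ → ℝ} (hC : 0 ≤ C) (hψ : Small C ψ) {a i q r : ℕ}
    (hr : 0 < r) (hrq : r < q) (haq : q < 2 ^ (a + 1)) (hbr : 2 ^ (a - i) ≤ r) :
    (r : ℝ) * ψ q + q * ψ r ≤ 3 * C * 2 ^ i := by
  have hrR : (0 : ℝ) < r := Nat.cast_pos.2 hr
  have hqR : (0 : ℝ) < q := Nat.cast_pos.2 (hr.trans hrq)
  have h1 : (r : ℝ) * ψ q ≤ C := by
    calc (r : ℝ) * ψ q ≤ q * (C / q) :=
          mul_le_mul (Nat.cast_le.2 hrq.le) (hψ q).2 (hψ q).1 hqR.le
      _ = C := by field_simp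
  have h2 : (q : ℝ) ≤ 2 * 2 ^ i * r := by
    have : q ≤ 2 * 2 ^ i * r := by
      calc q ≤ 2 ^ (a + 1) := haq.le
        _ ≤ 2 ^ (1 + i + (a - i)) := Nat.pow_le_pow_right two_pos (by omega)
        _ = 2 * 2 ^ i * 2 ^ (a - i) := by rw [pow_add, pow_add, pow_one]
        _ ≤ _ := Nat.mul_le_mul_left _ hbr
    exact_mod_cast this
  have h3 : (q : ℝ) * ψ r ≤ 2 * C * 2 ^ i := by
    calc (q : ℝ) * ψ r ≤ (2 * 2 ^ i * r) * (C / r) :=
          mul_le_mul h2 (hψ r).2 (hψ r).1 (by positivity)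
      _ = _ := by field_simp
  have h4 : C ≤ C * 2 ^ i := le_mul_of_one_le_right hC (one_le_pow₀ one_le_two)
  linarith

/-- A nonzero exceptional overlap forces the gcd to be small. -/
lemma exists_adm {γ c : ℝ} {w : ℕ} (hdio : Dio γ c w) {C : ℝ} (hC : 0 ≤ C) :
    ∃ G : ℝ, 0 < G ∧ ∀ (ψ : ℕ → ℝ) (a i q r : ℕ), Small C ψ → 0 < r → r < q →
      Nat.log 2 q = a → 2 ^ (a - i) ≤ r → i ≤ a / NN w →
      Hit γ (min (1 / 2) (((r : ℝ) * ψ q + q * ψ r) / (q.gcd r : ℝ)))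
        (((q : ℝ) - r) / (q.gcd r : ℝ)) →
      ((2 : ℝ) ^ (16 * (a / NN w))) ^ (w + 1) * (q.gcd r : ℝ) ≤ G * 2 ^ (a - i) := by
  obtain ⟨hc, hw, hdio⟩ := hdio
  refine ⟨3 * C * 2 ^ w / c + 1, by positivity, ?_⟩
  intro ψ a i q r hψ hr hrq ha hbr his hhit
  obtain ⟨n, hn⟩ := hhit
  set g := q.gcd r with hg
  set G := 3 * C * 2 ^ w / c + 1 with hG
  have hq : 0 < q := hr.trans hrq
  have hg0 : 0 < g := Nat.gcd_pos_of_pos_left _ hq
  have hgR : (0 : ℝ) < g := Nat.cast_pos.2 hg0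
  obtain ⟨q', hq'⟩ := Nat.gcd_dvd_left q r
  obtain ⟨r', hr'⟩ := Nat.gcd_dvd_right q r
  rw [← hg] at hq' hr'
  have hlt : r' < q' := Nat.lt_of_mul_lt_mul_left (a := g) (by rw [← hq', ← hr']; exact hrq)
  have hk : ((q : ℝ) - r) / g = ((q' - r' : ℕ) : ℝ) := by
    rw [hq', hr', Nat.cast_sub hlt.le]; push_cast; field_simp
  rw [hk] at hn
  have hk0 : 0 < q' - r' := Nat.sub_pos_of_lt hlt
  obtain ⟨hqa, haq⟩ := dyadic_mem hq ha
  have h1 : c / (((q' - r' : ℕ) : ℝ)) ^ w ≤ 3 * C * 2 ^ i / g := by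
    refine (hdio _ hk0 n).trans (hn.le.trans ((min_le_right _ _).trans ?_))
    exact div_le_div_of_nonneg_right (D_le hC hψ hr hrq haq hbr) hgR.le
  have h2 : ((q' - r' : ℕ) : ℝ) * g ≤ 2 ^ (a + 1) := by
    have : (q' - r') * g ≤ 2 ^ (a + 1) := by
      rw [Nat.sub_mul, mul_comm q', ← hq']
      omega
    exact_mod_cast this
  have hkR : (0 : ℝ) < ((q' - r' : ℕ) : ℝ) := Nat.cast_pos.2 hk0
  rw [div_le_div_iff₀ (by positivity) hgR] at h1
  have h3 : c * (g : ℝ) ^ (w + 1) ≤ 3 * C * 2 ^ i * (2 ^ (a + 1)) ^ w := by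
    calc c * (g : ℝ) ^ (w + 1) = c * g * (g : ℝ) ^ w := by ring
      _ ≤ 3 * C * 2 ^ i * ((q' - r' : ℕ) : ℝ) ^ w * (g : ℝ) ^ w :=
          mul_le_mul_of_nonneg_right h1 (by positivity)
      _ = 3 * C * 2 ^ i * (((q' - r' : ℕ) : ℝ) * g) ^ w := by ring
      _ ≤ _ := mul_le_mul_of_nonneg_left (pow_le_pow_left₀ (by positivity) h2 w) (by positivity)
  set s := a / NN w with hs
  have hNs : NN w * s ≤ a := by rw [hs, mul_comm]; exact Nat.div_mul_le_self _ _
  have h4 : ((g : ℝ) * 2 ^ ((16 * w + 17) * s)) ^ (w + 1) ≤ (G * 2 ^ a) ^ (w + 1) := by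
    calc ((g : ℝ) * 2 ^ ((16 * w + 17) * s)) ^ (w + 1)
        = (g : ℝ) ^ (w + 1) * 2 ^ ((16 * w + 17) * s * (w + 1)) := by rw [mul_pow, ← pow_mul]
      _ ≤ (3 * C * 2 ^ w / c * (2 ^ i * 2 ^ (a * w))) * 2 ^ ((16 * w + 17) * s * (w + 1)) := by
          refine mul_le_mul_of_nonneg_right ?_ (by positivity)
          rw [div_mul_eq_mul_div, le_div_iff₀ hc, mul_comm]
          refine h3.trans (le_of_eq ?_)
          rw [← pow_mul, add_mul, one_mul, pow_add]
          ring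
      _ = 3 * C * 2 ^ w / c * 2 ^ (i + a * w + (16 * w + 17) * s * (w + 1)) := by
          rw [pow_add, pow_add]; ring
      _ ≤ G * 2 ^ (a * (w + 1)) := by
          refine mul_le_mul (by linarith) (pow_le_pow_right₀ one_le_two ?_) (by positivity) (by positivity)
          have e : (16 * w + 17) * s * (w + 1) + s = NN w * s := by unfold NN; ring
          have e' : a * (w + 1) = a * w + a := by ring
          omega
      _ ≤ G ^ (w + 1) * 2 ^ (a * (w + 1)) := by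
          refine mul_le_mul_of_nonneg_right ?_ (by positivity)
          exact le_self_pow₀ (by rw [hG]; exact le_add_of_nonneg_left (by positivity)) (by omega)
      _ = _ := by rw [mul_pow, ← pow_mul]
  have h5 := le_of_pow_le_pow_left₀ (Nat.succ_ne_zero w) (by positivity) h4
  have e2 : (2 : ℝ) ^ a ≤ 2 ^ (a - i) * 2 ^ s := by
    rw [← pow_add]; exact pow_le_pow_right₀ one_le_two (by omega)
  have e1 : ((2 : ℝ) ^ (16 * s)) ^ (w + 1) * g * 2 ^ s = (g : ℝ) * 2 ^ ((16 * w + 17) * s) := by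
    rw [← pow_mul, show (16 * w + 17) * s = 16 * s * (w + 1) + s by ring, pow_add]
    ring
  refine le_of_mul_le_mul_right ?_ (pow_pos two_pos s)
  rw [e1]
  calc (g : ℝ) * 2 ^ ((16 * w + 17) * s) ≤ G * 2 ^ a := h5
    _ ≤ G * (2 ^ (a - i) * 2 ^ s) := mul_le_mul_of_nonneg_left e2 (by positivity)
    _ = _ := (mul_assoc _ _ _).symm

/-- Truncated divisor weight. -/
def Ls (E n : ℕ) : ℝ := ∑ e ∈ Icc 1 E, if e ∣ n then h e / (e : ℝ) else 0

lemma exists_L_le_Ls (w : ℕ) :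
    ∃ B : ℝ, 0 ≤ B ∧ ∀ a n : ℕ, 0 < n → n < 2 ^ (a + 1) →
      L n ≤ B * Ls (2 ^ (2 * (a / NN w))) n := by
  obtain ⟨B₁, hB₁0, hB₁⟩ := exists_card_divisors_dyadic (NN w) (NN_pos w)
  obtain ⟨B₂, hB₂⟩ := exists_poly_le_two_pow (NN w) 4 (NN_pos w)
  refine ⟨1 + B₁ * B₂, by positivity, fun a n hn ha => ?_⟩
  set s := a / NN w with hs
  set E := 2 ^ (2 * s) with hE
  have h1 : (1 : ℝ) ≤ Ls E n := by
    refine le_trans ?_ (single_le_sum (f := fun e : ℕ => if e ∣ n then h e / (e : ℝ) else 0)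
      (fun e _ => by split <;> [exact div_nonneg (h_nonneg e) (Nat.cast_nonneg e); exact le_rfl])
      (mem_Icc.2 ⟨le_rfl, Nat.one_le_two_pow⟩ : 1 ∈ Icc 1 E))
    simp [h]
  have hsplit : L n ≤ Ls E n + B₁ * B₂ := by
    unfold L
    rw [← sum_filter_add_sum_filter_not n.divisors (fun e => e ≤ E)]
    refine add_le_add ?_ ?_
    · unfold Ls
      rw [← sum_filter]
      refine sum_le_sum_of_subset_of_nonneg (fun e he => ?_) fun e _ _ =>
        div_nonneg (h_nonneg e) (Nat.cast_nonneg e)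
      obtain ⟨he1, he2⟩ := mem_filter.1 he
      exact mem_filter.2 ⟨mem_Icc.2 ⟨Nat.pos_of_mem_divisors he1, he2⟩,
        Nat.dvd_of_mem_divisors he1⟩
    · calc ∑ e ∈ n.divisors.filter (fun e => ¬e ≤ E), h e / (e : ℝ)
          ≤ (n.divisors.filter (fun e => ¬e ≤ E)).card •
              (((B₂ * 2 ^ s : ℕ) : ℝ) / (E : ℝ)) := by
            refine sum_le_card_nsmul _ _ _ fun e he => ?_
            obtain ⟨he1, he2⟩ := mem_filter.1 he
            refine div_le_div₀ (Nat.cast_nonneg _) ?_ (Nat.cast_pos.2 (pow_pos two_pos _))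
              (Nat.cast_le.2 (not_le.1 he2).le)
            exact (h_le_dyadic ((Nat.divisor_le he1).trans_lt ha)).trans (Nat.cast_le.2 (hB₂ a))
        _ ≤ (B₁ * 2 ^ s) * (((B₂ * 2 ^ s : ℕ) : ℝ) / (E : ℝ)) := by
            rw [nsmul_eq_mul]
            refine mul_le_mul_of_nonneg_right (le_trans ?_ (hB₁ a n ha)) (by positivity)
            exact_mod_cast card_le_card (filter_subset _ _)
        _ = B₁ * B₂ := by
            rw [hE]; push_cast
            rw [mul_comm 2 s, pow_mul]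
            field_simp
  have : B₁ * B₂ ≤ B₁ * B₂ * Ls E n := le_mul_of_one_le_right (by positivity) h1
  linarith

lemma sum_Icc_h_div_le (w : ℕ) :
    ∃ B : ℝ, 0 ≤ B ∧ ∀ a : ℕ,
      ∑ e ∈ Icc 1 (2 ^ (2 * (a / NN w))), h e / (e : ℝ) ≤ B * 2 ^ (3 * (a / NN w)) := by
  obtain ⟨B₂, hB₂⟩ := exists_poly_le_two_pow (NN w) 4 (NN_pos w)
  refine ⟨B₂, Nat.cast_nonneg _, fun a => ?_⟩
  set s := a / NN w with hs
  have hsa : 2 * s ≤ a := by
    have h1 : a / NN w * NN w ≤ a := Nat.div_mul_le_self _ _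
    have h2 : 2 ≤ NN w := by unfold NN; nlinarith
    calc 2 * s = s * 2 := mul_comm _ _
      _ ≤ s * NN w := Nat.mul_le_mul_left _ h2
      _ ≤ a := h1
  refine (sum_le_card_nsmul _ _ (((B₂ * 2 ^ s : ℕ) : ℝ)) fun e he => ?_).trans (le_of_eq ?_)
  · obtain ⟨he1, he2⟩ := mem_Icc.1 he
    refine (div_le_self (h_nonneg e) (Nat.one_le_cast.2 he1)).trans ?_
    refine (h_le_dyadic (a := a) ?_).trans (Nat.cast_le.2 (hB₂ a))
    calc e ≤ 2 ^ (2 * s) := he2
      _ ≤ 2 ^ a := Nat.pow_le_pow_right two_pos hsa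
      _ < _ := Nat.pow_lt_pow_right one_lt_two (Nat.lt_succ_self a)
  · rw [Nat.card_Icc, Nat.add_sub_cancel, nsmul_eq_mul]
    push_cast
    rw [show 3 * s = 2 * s + s by ring, pow_add]
    ring

/-- Scales far below `q`. -/
lemma exists_far' (N : ℕ) (hN : 0 < N) :
    ∃ A : ℝ, 0 ≤ A ∧ ∀ (γ C : ℝ) (ψ : ℕ → ℝ), Small C ψ → ∀ (q : ℕ) (S : Finset ℕ),
      (∀ r ∈ S, 0 < r ∧ r < q ∧ Nat.log 2 q / N < Nat.log 2 q - Nat.log 2 r) →
      ∑ r ∈ S, T γ ψ q r ≤ A * ψ q := by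
  obtain ⟨B, hB0, hB⟩ := exists_card_divisors_dyadic N hN
  refine ⟨B, hB0, fun γ C ψ hψ q S hS => ?_⟩
  rcases eq_or_ne q 0 with rfl | hq
  · have : S = ∅ := eq_empty_of_forall_notMem fun r hr => by have := (hS r hr).2.1; omega
    rw [this, sum_empty]
    exact mul_nonneg hB0 (hψ 0).1
  set a := Nat.log 2 q with ha
  set s := a / N with hs
  obtain ⟨hqa, haq⟩ := dyadic_mem (Nat.pos_of_ne_zero hq) ha.symm
  set R := 2 ^ (a - s) with hR
  have hsub : S ⊆ Ioc 0 R := fun r hr => by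
    obtain ⟨h1, -, h3⟩ := hS r hr
    refine mem_Ioc.2 ⟨h1, (Nat.lt_pow_succ_log_self one_lt_two r).le.trans
      (Nat.pow_le_pow_right two_pos ?_)⟩
    have h4 : s < a - Nat.log 2 r := h3
    have h5 : Nat.log 2 r + 1 ≤ a - s := by clear_value s; omega
    exact h5
  have hgcd : ∀ r : ℕ, (q.gcd r : ℝ) ≤ ∑ d ∈ q.divisors, (if d ∣ r then (d : ℝ) else 0) := by
    intro r
    refine le_trans (le_of_eq ?_) (single_le_sum (f := fun d : ℕ => if d ∣ r then (d : ℝ) else 0)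
      (fun d _ => by split <;> [exact Nat.cast_nonneg _; exact le_rfl])
      (Nat.mem_divisors.2 ⟨Nat.gcd_dvd_left q r, hq⟩))
    rw [if_pos (Nat.gcd_dvd_right q r)]
  have hqR : (0 : ℝ) < q := Nat.cast_pos.2 (Nat.pos_of_ne_zero hq)
  calc ∑ r ∈ S, T γ ψ q r ≤ ∑ r ∈ S, (q.gcd r : ℝ) * (ψ q / q) :=
        sum_le_sum fun r _ => T_le_gcd hψ q r
    _ ≤ ∑ r ∈ Ioc 0 R, (q.gcd r : ℝ) * (ψ q / q) :=
        sum_le_sum_of_subset_of_nonneg hsub fun r _ _ =>
          mul_nonneg (Nat.cast_nonneg _) (div_nonneg (hψ q).1 hqR.le)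
    _ ≤ (∑ r ∈ Ioc 0 R, ∑ d ∈ q.divisors, (if d ∣ r then (d : ℝ) else 0)) * (ψ q / q) := by
        rw [← sum_mul]
        exact mul_le_mul_of_nonneg_right (sum_le_sum fun r _ => hgcd r)
          (div_nonneg (hψ q).1 hqR.le)
    _ ≤ ((q.divisors.card : ℝ) * R) * (ψ q / q) := by
        refine mul_le_mul_of_nonneg_right ?_ (div_nonneg (hψ q).1 hqR.le)
        rw [sum_comm, ← nsmul_eq_mul]
        refine sum_le_card_nsmul _ _ _ fun d _ => ?_
        rw [← sum_filter, sum_const, Nat.Ioc_filter_dvd_card_eq_div, nsmul_eq_mul]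
        exact_mod_cast Nat.div_mul_le_self R d
    _ ≤ B * 2 ^ s * R * (ψ q / q) :=
        mul_le_mul_of_nonneg_right (mul_le_mul_of_nonneg_right (hB a q haq) (Nat.cast_nonneg _))
          (div_nonneg (hψ q).1 hqR.le)
    _ ≤ B * q * (ψ q / q) := by
        refine mul_le_mul_of_nonneg_right ?_ (div_nonneg (hψ q).1 hqR.le)
        rw [mul_assoc]
        refine mul_le_mul_of_nonneg_left ?_ hB0
        have : 2 ^ s * R ≤ q := by
          rw [hR, ← pow_add, Nat.add_sub_cancel' (Nat.div_le_self _ _)]; exact hqa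
        exact_mod_cast this
    _ = B * ψ q := by field_simp

lemma exists_far (w : ℕ) :
    ∃ A : ℝ, 0 ≤ A ∧ ∀ (γ C : ℝ) (ψ : ℕ → ℝ), Small C ψ → ∀ (q : ℕ) (S : Finset ℕ),
      (∀ r ∈ S, 0 < r ∧ r < q ∧ Nat.log 2 q / NN w < Nat.log 2 q - Nat.log 2 r) →
      ∑ r ∈ S, T γ ψ q r ≤ A * ψ q :=
  exists_far' (NN w) (NN_pos w)

/-- Row sums with the weight `L r`. -/
lemma exists_row {γ c : ℝ} {w : ℕ} (hdio : Dio γ c w) {C : ℝ} (hC : 0 ≤ C) :
    ∃ A : ℝ, 0 ≤ A ∧ ∀ (ψ : ℕ → ℝ), Small C ψ → ∀ (q i : ℕ) (S : Finset ℕ), 0 < q →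
      i ≤ Nat.log 2 q / NN w →
      (∀ r ∈ S, 0 < r ∧ r < q ∧ Nat.log 2 q - Nat.log 2 r = i) →
      ∑ r ∈ S, T γ ψ q r * L r ≤ A * (ψ q * L q) / (1 + (i : ℝ)) ^ 4 := by
  obtain ⟨G, hG, hadm⟩ := exists_adm hdio hC
  obtain ⟨A₀, hA₀, hhit⟩ := exists_hit_progression hdio G hG
  obtain ⟨BL, hBL, hL⟩ := exists_L_le_Ls w
  obtain ⟨A₁, hA₁, hgcd⟩ := exists_gcd_sum_le
  obtain ⟨A₂, hA₂, hhL⟩ := exists_sum_h_mul_L_le
  obtain ⟨A₃, hA₃, hmin⟩ := exists_min_le
  obtain ⟨B₁, hB₁0, hB₁⟩ := exists_card_divisors_dyadic (NN w) (NN_pos w)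
  obtain ⟨B₄, hB₄0, hB₄⟩ := sum_Icc_h_div_le w
  refine ⟨BL * (16 * (1 + 3 * C) * A₁ * A₃ * A₂ + A₀ * B₁ * B₄ * A₃), by positivity,
    fun ψ hψ q i S hq hi hS => ?_⟩
  set a := Nat.log 2 q with ha
  set s := a / NN w with hs
  set b := a - i with hb
  set M := 2 ^ (16 * s) with hM
  set E := 2 ^ (2 * s) with hE
  set m := ψ q / (q : ℝ) with hm
  obtain ⟨hqa, haq⟩ := dyadic_mem hq ha.symm
  have hqR : (0 : ℝ) < q := Nat.cast_pos.2 hq
  have hm0 : 0 ≤ m := div_nonneg (hψ q).1 hqR.le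
  have hia : i ≤ a := hi.trans (Nat.div_le_self _ _)
  have hrb : ∀ r ∈ S, 2 ^ b ≤ r ∧ r < 2 ^ (b + 1) := fun r hr => by
    obtain ⟨h1, h2, h3⟩ := hS r hr
    refine dyadic_mem h1 ?_
    have : Nat.log 2 r ≤ a := Nat.log_mono_right h2.le
    omega
  set DR : ℕ → ℝ := fun d => min (1 / 2) (3 * C * 2 ^ i / (d : ℝ)) with hDR
  set adm : Finset ℕ := q.divisors.filter (fun d : ℕ => (M : ℝ) ^ (w + 1) * (d : ℝ) ≤ G * 2 ^ b) with hadm'
  set P : ℕ → ℕ → Prop := fun d r => d ∣ r ∧ Hit γ (DR d) (((q : ℝ) - r) / d) with hP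
  have step1 : ∀ r ∈ S, T γ ψ q r ≤ m * ∑ d ∈ adm, if P d r then (d : ℝ) else 0 := by
    intro r hr
    obtain ⟨hr0, hrq, -⟩ := hS r hr
    unfold T
    split
    · rename_i hit
      have hg : q.gcd r ∈ adm := by
        refine mem_filter.2 ⟨Nat.mem_divisors.2 ⟨Nat.gcd_dvd_left q r, hq.ne'⟩, ?_⟩
        have := hadm ψ a i q r hψ hr0 hrq ha.symm (hrb r hr).1 hi hit
        rw [hM]; push_cast; exact this
      have hPg : P (q.gcd r) r := ⟨Nat.gcd_dvd_right q r, hit.mono (min_le_min le_rfl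
        (div_le_div_of_nonneg_right (D_le hC hψ hr0 hrq haq (hrb r hr).1) (Nat.cast_nonneg _)))⟩
      calc (q.gcd r : ℝ) * min (ψ q / q) (ψ r / r) ≤ (q.gcd r : ℝ) * m :=
            mul_le_mul_of_nonneg_left (min_le_left _ _) (Nat.cast_nonneg _)
        _ = m * (if P (q.gcd r) r then (q.gcd r : ℝ) else 0) := by rw [if_pos hPg, mul_comm]
        _ ≤ _ := mul_le_mul_of_nonneg_left (single_le_sum
            (f := fun d : ℕ => if P d r then (d : ℝ) else 0)
            (fun d _ => by split <;> [exact Nat.cast_nonneg _; exact le_rfl]) hg) hm0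
    · exact mul_nonneg hm0 (sum_nonneg fun d _ => by split <;> [exact Nat.cast_nonneg _; exact le_rfl])
  have h2b : (2 : ℝ) ^ b / q ≤ 1 / 2 ^ i := by
    rw [div_le_div_iff₀ hqR (by positivity), one_mul, ← pow_add,
      show b + i = a by omega]
    exact_mod_cast hqa
  have hcount : ∀ d ∈ adm, ∀ e ∈ Icc 1 E,
      ((S.filter (fun r => P d r ∧ e ∣ r)).card : ℝ) * d / q ≤
        16 * ((1 + 3 * C) * min (1 / 2 ^ i) (1 / (d : ℝ))) * ((e.gcd d : ℝ) / e)
          + A₀ / (2 ^ i * (M : ℝ)) := by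
    intro d hd e he
    obtain ⟨hd1, hd2⟩ := mem_filter.1 hd
    have hd0 : 0 < d := Nat.pos_of_mem_divisors hd1
    have he0 : 0 < e := (mem_Icc.1 he).1
    have hdR : (0 : ℝ) < d := Nat.cast_pos.2 hd0
    have heR : (0 : ℝ) < e := Nat.cast_pos.2 he0
    obtain ⟨f, hf⟩ := Nat.gcd_dvd_left e d
    have hg0 : 0 < e.gcd d := Nat.gcd_pos_of_pos_left _ he0
    have hf0 : 0 < f := by
      rcases Nat.eq_zero_or_pos f with rfl | h0
      · rw [mul_zero] at hf; omega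
      · exact h0
    have hlcm : d.lcm e = d * f := by
      rw [Nat.lcm, Nat.gcd_comm d e]
      conv_lhs => arg 1; rw [hf]
      rw [mul_left_comm, Nat.mul_div_cancel_left _ hg0]
    have key := hhit d f b q M (DR d) (S.filter (fun r => P d r ∧ e ∣ r)) hd0 hf0
      Nat.one_le_two_pow (le_min (by norm_num) (by positivity)) hd2 ?_
    · have hfe : (1 : ℝ) / f = (e.gcd d : ℝ) / e := by
        rw [div_eq_div_iff (Nat.cast_pos.2 hf0).ne' heR.ne', one_mul]
        exact_mod_cast hf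
      have hDR1 : DR d / 2 ^ i ≤ (1 + 3 * C) * min (1 / 2 ^ i) (1 / (d : ℝ)) := by
        rw [mul_min_of_nonneg _ _ (by positivity)]
        refine le_min ?_ ?_
        · calc DR d / 2 ^ i ≤ (1 / 2) / 2 ^ i :=
              div_le_div_of_nonneg_right (min_le_left _ _) (by positivity)
            _ ≤ _ := by
              rw [mul_one_div]
              exact div_le_div_of_nonneg_right (by linarith) (by positivity)
        · calc DR d / 2 ^ i ≤ (3 * C * 2 ^ i / (d : ℝ)) / 2 ^ i :=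
              div_le_div_of_nonneg_right (min_le_right _ _) (by positivity)
            _ = 3 * C * (1 / (d : ℝ)) := by field_simp
            _ ≤ _ := mul_le_mul_of_nonneg_right (by linarith) (by positivity)
      have hDR0 : 0 ≤ DR d := le_min (by norm_num) (by positivity)
      calc ((S.filter (fun r => P d r ∧ e ∣ r)).card : ℝ) * d / q
          ≤ (16 * (2 ^ b / ((d : ℝ) * f)) * DR d + A₀ * (2 ^ b / ((d : ℝ) * M))) * d / q :=
            div_le_div_of_nonneg_right (mul_le_mul_of_nonneg_right key hdR.le) hqR.le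
        _ = 16 * ((2 ^ b / q) * DR d) * (1 / f) + A₀ * (2 ^ b / q) / M := by
            field_simp
        _ ≤ 16 * ((1 / 2 ^ i) * DR d) * (1 / f) + A₀ * (1 / 2 ^ i) / M := by gcongr
        _ = 16 * (DR d / 2 ^ i) * ((e.gcd d : ℝ) / e) + A₀ / (2 ^ i * (M : ℝ)) := by
            rw [hfe]; ring
        _ ≤ _ := by gcongr
    · intro r hr
      obtain ⟨hrS, ⟨hdr, hhit'⟩, her⟩ := mem_filter.1 hr
      refine ⟨(hrb r hrS).2, (hS r hrS).1, hlcm ▸ Nat.lcm_dvd hdr her, ?_⟩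
      convert hhit'.neg using 1
      ring
  calc ∑ r ∈ S, T γ ψ q r * L r
      ≤ ∑ r ∈ S, (m * ∑ d ∈ adm, if P d r then (d : ℝ) else 0) * (BL * Ls E r) := by
        refine sum_le_sum fun r hr => mul_le_mul (step1 r hr)
          (hL a r (hS r hr).1 ((hS r hr).2.1.trans haq)) (L_nonneg r) ?_
        exact mul_nonneg hm0 (sum_nonneg fun d _ => by split <;> [exact Nat.cast_nonneg _; exact le_rfl])
    _ = BL * ψ q * ∑ d ∈ adm, ∑ e ∈ Icc 1 E,
          (h e / (e : ℝ)) * (((S.filter (fun r => P d r ∧ e ∣ r)).card : ℝ) * d / q) := by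
        simp only [Ls, mul_sum, sum_mul]
        rw [sum_comm]
        refine (sum_congr rfl fun e _ => sum_comm).trans ?_
        rw [sum_comm]
        refine sum_congr rfl fun d _ => sum_congr rfl fun e _ => ?_
        rw [card_filter, Nat.cast_sum]
        simp only [sum_mul, mul_sum, sum_div]
        refine sum_congr rfl fun r _ => ?_
        by_cases h1 : P d r <;> by_cases h2 : e ∣ r <;> simp [h1, h2, hm] <;> field_simp
    _ ≤ BL * ψ q * ∑ d ∈ adm, ∑ e ∈ Icc 1 E, (h e / (e : ℝ)) *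
          (16 * ((1 + 3 * C) * min (1 / 2 ^ i) (1 / (d : ℝ))) * ((e.gcd d : ℝ) / e)
            + A₀ / (2 ^ i * (M : ℝ))) := by
        refine mul_le_mul_of_nonneg_left ?_ (mul_nonneg hBL (hψ q).1)
        exact sum_le_sum fun d hd => sum_le_sum fun e he =>
          mul_le_mul_of_nonneg_left (hcount d hd e he)
            (div_nonneg (h_nonneg e) (Nat.cast_nonneg e))
    _ ≤ BL * ψ q * ∑ d ∈ adm, (16 * (1 + 3 * C) * A₁ * A₃ / (1 + (i : ℝ)) ^ 4 * (h d / d * L d)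
          + A₀ * B₄ * 2 ^ (3 * s) / (2 ^ i * (M : ℝ))) := by
        refine mul_le_mul_of_nonneg_left (sum_le_sum fun d hd => ?_) (mul_nonneg hBL (hψ q).1)
        have hd0 : 0 < d := Nat.pos_of_mem_divisors (mem_filter.1 hd).1
        calc ∑ e ∈ Icc 1 E, (h e / (e : ℝ)) *
              (16 * ((1 + 3 * C) * min (1 / 2 ^ i) (1 / (d : ℝ))) * ((e.gcd d : ℝ) / e)
                + A₀ / (2 ^ i * (M : ℝ)))
            = 16 * (1 + 3 * C) * min (1 / 2 ^ i) (1 / (d : ℝ)) *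
                (∑ e ∈ Icc 1 E, h e * (e.gcd d : ℝ) / (e : ℝ) ^ 2)
              + A₀ / (2 ^ i * (M : ℝ)) * ∑ e ∈ Icc 1 E, h e / (e : ℝ) := by
              rw [mul_sum, mul_sum, ← sum_add_distrib]
              exact sum_congr rfl fun e _ => by ring
          _ ≤ 16 * (1 + 3 * C) * (A₃ * (h d / d) / (1 + (i : ℝ)) ^ 4) * (A₁ * L d)
              + A₀ / (2 ^ i * (M : ℝ)) * (B₄ * 2 ^ (3 * s)) := by
              refine add_le_add ?_ (mul_le_mul_of_nonneg_left (hB₄ a) (by positivity))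
              refine mul_le_mul ?_ (hgcd d hd0.ne' _ fun e he => (mem_Icc.1 he).1)
                (sum_nonneg fun e _ => div_nonneg
                  (mul_nonneg (h_nonneg e) (Nat.cast_nonneg _)) (sq_nonneg _)) ?_
              · exact mul_le_mul_of_nonneg_left (hmin i d hd0) (by positivity)
              · have := h_nonneg d
                positivity
          _ = _ := by ring
    _ ≤ BL * ψ q * (16 * (1 + 3 * C) * A₁ * A₃ / (1 + (i : ℝ)) ^ 4 * (A₂ * L q)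
          + A₀ * B₁ * B₄ * A₃ / (1 + (i : ℝ)) ^ 4 * L q) := by
        refine mul_le_mul_of_nonneg_left ?_ (mul_nonneg hBL (hψ q).1)
        rw [sum_add_distrib, ← mul_sum, sum_const, nsmul_eq_mul]
        refine add_le_add (mul_le_mul_of_nonneg_left ?_ (by positivity)) ?_
        · exact (sum_le_sum_of_subset_of_nonneg (filter_subset _ _) fun d _ _ => mul_nonneg
            (div_nonneg (h_nonneg d) (Nat.cast_nonneg d)) (L_nonneg d)).trans (hhL q hq.ne')
        · have hcard : (adm.card : ℝ) ≤ B₁ * 2 ^ s :=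
            le_trans (by exact_mod_cast card_le_card (filter_subset _ _)) (hB₁ a q haq)
          have hi1 : (1 : ℝ) / 2 ^ i ≤ A₃ / (1 + (i : ℝ)) ^ 4 := by
            have := hmin i 1 one_pos
            rw [Nat.cast_one, div_one, show h 1 = 1 by simp [h], div_one, mul_one,
              min_eq_left] at this
            · exact this
            · rw [div_le_one (by positivity)]; exact one_le_pow₀ one_le_two
          have hMs : (2 : ℝ) ^ s * 2 ^ (3 * s) ≤ (M : ℝ) := by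
            rw [hM]; push_cast; rw [← pow_add]; exact pow_le_pow_right₀ one_le_two (by omega)
          calc (adm.card : ℝ) * (A₀ * B₄ * 2 ^ (3 * s) / (2 ^ i * (M : ℝ)))
              ≤ B₁ * 2 ^ s * (A₀ * B₄ * 2 ^ (3 * s) / (2 ^ i * (M : ℝ))) :=
                mul_le_mul_of_nonneg_right hcard (by positivity)
            _ = A₀ * B₁ * B₄ * (1 / 2 ^ i) * ((2 ^ s * 2 ^ (3 * s)) / (M : ℝ)) := by ring
            _ ≤ A₀ * B₁ * B₄ * (A₃ / (1 + (i : ℝ)) ^ 4) * 1 := by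
                refine mul_le_mul (mul_le_mul_of_nonneg_left hi1 (by positivity)) ?_
                  (by positivity) (by positivity)
                exact div_le_one_of_le₀ hMs (Nat.cast_nonneg _)
            _ ≤ A₀ * B₁ * B₄ * A₃ / (1 + (i : ℝ)) ^ 4 * L q := by
                rw [mul_one, ← mul_div_assoc]
                exact le_mul_of_one_le_right (by positivity) (one_le_L hq.ne')
    _ = _ := by ring

end

end Vale.Agent.P028.ErdosVaaler
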