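import Vale.Agent.P028.ErdosVaaler.Arith

/-!
Weighted gcd and divisor sums, all bounded by constants times the divisor weight `L`.
-/

namespace Vale.Agent.P028.ErdosVaaler

open Finset

noncomputable section

lemma exists_gcd_sum_le :
    ∃ A : ℝ, 0 ≤ A ∧ ∀ d : ℕ, d ≠ 0 → ∀ s : Finset ℕ, (∀ e ∈ s, 0 < e) →
      ∑ e ∈ s, h e * (e.gcd d : ℝ) / (e : ℝ) ^ 2 ≤ A * L d := by
  obtain ⟨B, hB0, hB⟩ := exists_sum_h_sq_le
  refine ⟨16 * B, by positivity, fun d hd s hs => ?_⟩
  rw [← sum_fiberwise_of_maps_to (g := fun e => e.gcd d) (t := d.divisors)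
    (fun e _ => Nat.mem_divisors.2 ⟨Nat.gcd_dvd_right e d, hd⟩), L, mul_sum]
  refine sum_le_sum fun g hg => ?_
  have hg0 : 0 < g := Nat.pos_of_mem_divisors hg
  set F := s.filter (fun e => e.gcd d = g) with hF
  have hdvd : ∀ e ∈ F, g ∣ e := fun e he => by
    rw [← (mem_filter.1 he).2]; exact Nat.gcd_dvd_left e d
  have hinj : Set.InjOn (fun e => e / g) F := fun x hx y hy hxy => by
    have hxy' : x / g = y / g := hxy
    rw [← Nat.div_mul_cancel (hdvd x hx), hxy', Nat.div_mul_cancel (hdvd y hy)]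
  calc ∑ e ∈ F, h e * (e.gcd d : ℝ) / (e : ℝ) ^ 2
      ≤ ∑ e ∈ F, 16 * (h g / g) *
          (h (e / g) ^ 2 / ((e / g : ℕ) : ℝ) ^ ((5 : ℝ) / 4)) := by
        refine sum_le_sum fun e he => ?_
        rw [(mem_filter.1 he).2]
        obtain ⟨m, rfl⟩ := hdvd e he
        have hm : 0 < m := Nat.pos_of_mul_pos_left (hs _ (mem_filter.1 he).1)
        rw [Nat.mul_div_cancel_left m hg0]
        have hgR : (0 : ℝ) < g := Nat.cast_pos.2 hg0
        have hmR : (1 : ℝ) ≤ m := Nat.one_le_cast.2 hm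
        have h54 : (m : ℝ) ^ ((5 : ℝ) / 4) ≤ (m : ℝ) ^ 2 := by
          rw [← Real.rpow_natCast (m : ℝ) 2]
          exact Real.rpow_le_rpow_of_exponent_le hmR (by norm_num)
        have hmpos : (0 : ℝ) < (m : ℝ) ^ ((5 : ℝ) / 4) := by positivity
        calc h (g * m) * (g : ℝ) / ((g * m : ℕ) : ℝ) ^ 2
            ≤ 16 * (h g * h m) * g / ((g : ℝ) * m) ^ 2 := by
              push_cast
              exact div_le_div_of_nonneg_right
                (mul_le_mul_of_nonneg_right (h_mul_le g m) hgR.le) (sq_nonneg _)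
          _ = 16 * (h g / g) * (h m / (m : ℝ) ^ 2) := by field_simp
          _ ≤ 16 * (h g / g) * (h m ^ 2 / (m : ℝ) ^ ((5 : ℝ) / 4)) := by
              refine mul_le_mul_of_nonneg_left ?_
                (mul_nonneg (by norm_num) (div_nonneg (h_nonneg g) hgR.le))
              exact div_le_div₀ (sq_nonneg _) (le_self_pow₀ (one_le_h m) two_ne_zero)
                hmpos h54
    _ = 16 * (h g / g) * ∑ x ∈ F.image (fun e => e / g),
          h x ^ 2 / (x : ℝ) ^ ((5 : ℝ) / 4) := by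
        rw [sum_image hinj, mul_sum]
    _ ≤ 16 * (h g / g) * B := by
        refine mul_le_mul_of_nonneg_left (hB _ fun x hx => ?_)
          (mul_nonneg (by norm_num) (div_nonneg (h_nonneg g) (Nat.cast_nonneg g)))
        obtain ⟨e, he, rfl⟩ := mem_image.1 hx
        exact Nat.div_pos (Nat.le_of_dvd (hs e (mem_filter.1 he).1) (hdvd e he)) hg0
    _ = 16 * B * (h g / g) := by ring

lemma exists_sum_h_mul_L_le :
    ∃ A : ℝ, 0 ≤ A ∧ ∀ q : ℕ, q ≠ 0 →
      ∑ d ∈ q.divisors, h d / d * L d ≤ A * L q := by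
  obtain ⟨B, hB0, hB⟩ := exists_sum_h_sq_le
  refine ⟨16 * B, by positivity, fun q hq => ?_⟩
  have step : ∑ d ∈ q.divisors, h d / d * L d
      = ∑ p ∈ q.divisors.sigma (fun d => d.divisors),
          (h p.1 / p.1) * (h p.2 / p.2) := by
    rw [sum_sigma]
    exact sum_congr rfl fun d _ => by rw [L, mul_sum]
  have hle : ∀ p ∈ q.divisors.sigma (fun d => d.divisors),
      (h p.1 / p.1) * (h p.2 / p.2)
        ≤ 16 * ((h p.2 ^ 2 / (p.2 : ℝ) ^ ((5 : ℝ) / 4)) *
            (h (p.1 / p.2) / ((p.1 / p.2 : ℕ) : ℝ))) := by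
    rintro ⟨d, e⟩ hp
    obtain ⟨hd, he⟩ := mem_sigma.1 hp
    simp only at hd he ⊢
    obtain ⟨f, rfl⟩ := Nat.dvd_of_mem_divisors he
    have he0 : 0 < e := Nat.pos_of_mem_divisors he
    have hf0 : 0 < f := Nat.pos_of_mul_pos_left (Nat.pos_of_mem_divisors hd)
    simp only [Nat.mul_div_cancel_left f he0]
    push_cast
    have heR : (1 : ℝ) ≤ e := Nat.one_le_cast.2 he0
    have hfR : (0 : ℝ) < f := Nat.cast_pos.2 hf0
    have h54 : (e : ℝ) ^ ((5 : ℝ) / 4) ≤ (e : ℝ) ^ 2 := by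
      rw [← Real.rpow_natCast (e : ℝ) 2]
      exact Real.rpow_le_rpow_of_exponent_le heR (by norm_num)
    calc h (e * f) / ((e : ℝ) * f) * (h e / e)
        ≤ 16 * (h e * h f) / ((e : ℝ) * f) * (h e / e) := by
          refine mul_le_mul_of_nonneg_right ?_ (div_nonneg (h_nonneg e) (Nat.cast_nonneg e))
          exact div_le_div_of_nonneg_right (h_mul_le e f) (by positivity)
      _ = 16 * ((h e ^ 2 / (e : ℝ) ^ 2) * (h f / f)) := by field_simp
      _ ≤ _ := by
          refine mul_le_mul_of_nonneg_left ?_ (by norm_num)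
          refine mul_le_mul_of_nonneg_right ?_ (div_nonneg (h_nonneg f) hfR.le)
          exact div_le_div_of_nonneg_left (sq_nonneg _) (by positivity) h54
  set φ : (Σ _ : ℕ, ℕ) → ℕ × ℕ := fun p => (p.2, p.1 / p.2) with hφ
  set H : ℕ × ℕ → ℝ :=
    fun x => (h x.1 ^ 2 / (x.1 : ℝ) ^ ((5 : ℝ) / 4)) * (h x.2 / (x.2 : ℝ)) with hH
  have hinj : Set.InjOn φ (q.divisors.sigma (fun d => d.divisors)) := by
    rintro ⟨d, e⟩ hx ⟨d', e'⟩ hy hxy
    obtain ⟨-, he⟩ := mem_sigma.1 (mem_coe.1 hx)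
    obtain ⟨-, he'⟩ := mem_sigma.1 (mem_coe.1 hy)
    simp only [hφ, Prod.mk.injEq] at hxy
    simp only at he he'
    obtain ⟨rfl, h2⟩ := hxy
    have : d = d' := by
      rw [← Nat.div_mul_cancel (Nat.dvd_of_mem_divisors he), h2,
        Nat.div_mul_cancel (Nat.dvd_of_mem_divisors he')]
    subst this; rfl
  have hsub : (q.divisors.sigma (fun d => d.divisors)).image φ ⊆ q.divisors ×ˢ q.divisors := by
    intro x hx
    obtain ⟨⟨d, e⟩, hp, rfl⟩ := mem_image.1 hx
    obtain ⟨hd, he⟩ := mem_sigma.1 hp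
    have h1 := Nat.dvd_of_mem_divisors hd
    have h2 := Nat.dvd_of_mem_divisors he
    exact mem_product.2 ⟨Nat.mem_divisors.2 ⟨h2.trans h1, hq⟩,
      Nat.mem_divisors.2 ⟨(Nat.div_dvd_of_dvd h2).trans h1, hq⟩⟩
  rw [step]
  calc _ ≤ ∑ p ∈ q.divisors.sigma (fun d => d.divisors), 16 * H (φ p) := sum_le_sum hle
    _ = 16 * ∑ x ∈ (q.divisors.sigma (fun d => d.divisors)).image φ, H x := by
        rw [sum_image hinj, mul_sum]
    _ ≤ 16 * ∑ x ∈ q.divisors ×ˢ q.divisors, H x := by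
        refine mul_le_mul_of_nonneg_left
          (sum_le_sum_of_subset_of_nonneg hsub fun x _ _ => ?_) (by norm_num)
        exact mul_nonneg (by positivity) (div_nonneg (h_nonneg _) (Nat.cast_nonneg _))
    _ = 16 * ((∑ e ∈ q.divisors, h e ^ 2 / (e : ℝ) ^ ((5 : ℝ) / 4)) * L q) := by
        rw [L, sum_mul_sum, sum_product]
    _ ≤ 16 * (B * L q) := by
        refine mul_le_mul_of_nonneg_left (mul_le_mul_of_nonneg_right
          (hB _ fun e he => Nat.pos_of_mem_divisors he) (L_nonneg q)) (by norm_num)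
    _ = _ := by ring

lemma sum_gcd_div_le (l r : ℕ) (hl : l ≠ 0) :
    ∑ d ∈ r.divisors, (l.gcd d : ℝ) / d ≤ (l.divisors.card : ℝ) * L r := by
  rw [← sum_fiberwise_of_maps_to (g := fun d => l.gcd d) (t := l.divisors)
    (fun d _ => Nat.mem_divisors.2 ⟨Nat.gcd_dvd_left l d, hl⟩)]
  refine (sum_le_sum fun g hg => ?_).trans (le_of_eq (by rw [sum_const, nsmul_eq_mul]))
  have hg0 : 0 < g := Nat.pos_of_mem_divisors hg
  set F := r.divisors.filter (fun d => l.gcd d = g) with hF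
  have hdvd : ∀ d ∈ F, g ∣ d := fun d hd => by
    rw [← (mem_filter.1 hd).2]; exact Nat.gcd_dvd_right l d
  have hinj : Set.InjOn (fun e => e / g) F := fun x hx y hy hxy => by
    have hxy' : x / g = y / g := hxy
    rw [← Nat.div_mul_cancel (hdvd x hx), hxy', Nat.div_mul_cancel (hdvd y hy)]
  calc ∑ d ∈ F, (l.gcd d : ℝ) / d = ∑ d ∈ F, (1 : ℝ) / ((d / g : ℕ) : ℝ) := by
        refine sum_congr rfl fun d hd => ?_
        rw [(mem_filter.1 hd).2]
        obtain ⟨m, rfl⟩ := hdvd d hd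
        have hgR : (0 : ℝ) < g := Nat.cast_pos.2 hg0
        rw [Nat.mul_div_cancel_left m hg0]
        push_cast
        field_simp
    _ = ∑ x ∈ F.image (fun e => e / g), (1 : ℝ) / x := (sum_image hinj (f := fun x : ℕ => (1 : ℝ) / x)).symm
    _ ≤ ∑ x ∈ r.divisors, (1 : ℝ) / x := by
        refine sum_le_sum_of_subset_of_nonneg (fun x hx => ?_) fun x _ _ => by positivity
        obtain ⟨d, hd, rfl⟩ := mem_image.1 hx
        have h1 := Nat.mem_divisors.1 (mem_filter.1 hd).1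
        exact Nat.mem_divisors.2 ⟨(Nat.div_dvd_of_dvd (hdvd d hd)).trans h1.1, h1.2⟩
    _ ≤ L r := sum_inv_divisors_le_L r

lemma exists_lcm_sum_le :
    ∃ A : ℝ, 0 ≤ A ∧ ∀ r : ℕ, ∀ s : Finset ℕ, (∀ e ∈ s, 0 < e) →
      ∑ d ∈ r.divisors, (1 / (d : ℝ)) * (∑ x ∈ s, ∑ y ∈ s,
        h x * h y / ((x : ℝ) * y) * (((x.lcm y).gcd d : ℝ) / (x.lcm y : ℝ))) ≤ A * L r := by
  obtain ⟨B, hB0, hB⟩ := exists_sum_h_sq_le
  obtain ⟨C, hC⟩ := exists_card_divisors_pow_le 2
  refine ⟨Real.sqrt C * B ^ 2, by positivity, fun r s hs => ?_⟩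
  have key : ∀ x ∈ s, ∀ y ∈ s,
      ∑ d ∈ r.divisors, (1 / (d : ℝ)) *
        (h x * h y / ((x : ℝ) * y) * (((x.lcm y).gcd d : ℝ) / (x.lcm y : ℝ)))
      ≤ Real.sqrt C * L r * ((h x ^ 2 / (x : ℝ) ^ ((5 : ℝ) / 4)) *
          (h y ^ 2 / (y : ℝ) ^ ((5 : ℝ) / 4))) := by
    intro x hx y hy
    have hx0 := hs x hx
    have hy0 := hs y hy
    set l := x.lcm y with hl
    have hl0 : 0 < l := Nat.lcm_pos hx0 hy0
    have hlR : (0 : ℝ) < l := Nat.cast_pos.2 hl0
    have hxR : (0 : ℝ) < x := Nat.cast_pos.2 hx0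
    have hyR : (0 : ℝ) < y := Nat.cast_pos.2 hy0
    calc ∑ d ∈ r.divisors, (1 / (d : ℝ)) *
          (h x * h y / ((x : ℝ) * y) * ((l.gcd d : ℝ) / (l : ℝ)))
        = h x * h y / ((x : ℝ) * y * l) * ∑ d ∈ r.divisors, (l.gcd d : ℝ) / d := by
          rw [mul_sum]
          exact sum_congr rfl fun d _ => by field_simp
      _ ≤ h x * h y / ((x : ℝ) * y * l) * ((l.divisors.card : ℝ) * L r) :=
          mul_le_mul_of_nonneg_left (sum_gcd_div_le l r hl0.ne')
            (div_nonneg (mul_nonneg (h_nonneg x) (h_nonneg y)) (by positivity))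
      _ = h x * h y / ((x : ℝ) * y) * ((l.divisors.card : ℝ) / l) * L r := by field_simp
      _ ≤ h x ^ 2 * h y ^ 2 / ((x : ℝ) * y) *
            (Real.sqrt C / ((x : ℝ) * y) ^ ((1 : ℝ) / 4)) * L r := by
          refine mul_le_mul_of_nonneg_right (mul_le_mul ?_ ?_ (by positivity) ?_) (L_nonneg r)
          · exact div_le_div_of_nonneg_right (mul_le_mul (le_self_pow₀ (one_le_h x) two_ne_zero)
              (le_self_pow₀ (one_le_h y) two_ne_zero) (h_nonneg y) (sq_nonneg _)) (by positivity)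
          · have h1 : (l.divisors.card : ℝ) ≤ Real.sqrt C * Real.sqrt l := by
              rw [← Real.sqrt_mul (Nat.cast_nonneg C)]
              exact Real.le_sqrt_of_sq_le (by exact_mod_cast hC l hl0.ne')
            have h2 : (x : ℝ) * y ≤ (l : ℝ) ^ 2 := by
              have hg : x.gcd y ≤ l := (Nat.gcd_le_left y hx0).trans
                (Nat.le_of_dvd hl0 (Nat.dvd_lcm_left x y))
              have hxy : x * y ≤ l ^ 2 := by
                rw [← Nat.gcd_mul_lcm x y, ← hl, sq]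
                exact Nat.mul_le_mul_right l hg
              exact_mod_cast hxy
            have h3 : ((x : ℝ) * y) ^ ((1 : ℝ) / 4) ≤ Real.sqrt l := by
              refine (Real.rpow_le_rpow (by positivity) h2 (by norm_num)).trans (le_of_eq ?_)
              rw [Real.sqrt_eq_rpow, ← Real.rpow_natCast (l : ℝ) 2,
                ← Real.rpow_mul hlR.le]
              norm_num
            have hs0 : 0 < Real.sqrt l := Real.sqrt_pos.2 hlR
            calc (l.divisors.card : ℝ) / l ≤ Real.sqrt C * Real.sqrt l / l :=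
                  div_le_div_of_nonneg_right h1 hlR.le
              _ = Real.sqrt C / Real.sqrt l := by
                  rw [div_eq_div_iff hlR.ne' hs0.ne', mul_assoc,
                    Real.mul_self_sqrt hlR.le]
              _ ≤ _ := div_le_div_of_nonneg_left (Real.sqrt_nonneg _) (by positivity) h3
          · exact div_nonneg (mul_nonneg (sq_nonneg _) (sq_nonneg _)) (by positivity)
      _ = _ := by
          rw [show (5 : ℝ) / 4 = 1 + 1 / 4 by norm_num, Real.rpow_add hxR,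
            Real.rpow_add hyR, Real.rpow_one, Real.rpow_one,
            Real.mul_rpow hxR.le hyR.le]
          field_simp
  calc ∑ d ∈ r.divisors, (1 / (d : ℝ)) * (∑ x ∈ s, ∑ y ∈ s,
        h x * h y / ((x : ℝ) * y) * (((x.lcm y).gcd d : ℝ) / (x.lcm y : ℝ)))
      = ∑ x ∈ s, ∑ y ∈ s, ∑ d ∈ r.divisors, (1 / (d : ℝ)) *
        (h x * h y / ((x : ℝ) * y) * (((x.lcm y).gcd d : ℝ) / (x.lcm y : ℝ))) := by
        simp only [mul_sum]
        rw [sum_comm]
        exact sum_congr rfl fun x _ => sum_comm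
    _ ≤ ∑ x ∈ s, ∑ y ∈ s, Real.sqrt C * L r * ((h x ^ 2 / (x : ℝ) ^ ((5 : ℝ) / 4)) *
          (h y ^ 2 / (y : ℝ) ^ ((5 : ℝ) / 4))) :=
        sum_le_sum fun x hx => sum_le_sum fun y hy => key x hx y hy
    _ = Real.sqrt C * L r * ((∑ x ∈ s, h x ^ 2 / (x : ℝ) ^ ((5 : ℝ) / 4)) *
          ∑ y ∈ s, h y ^ 2 / (y : ℝ) ^ ((5 : ℝ) / 4)) := by
        rw [sum_mul_sum, mul_sum]
        simp only [mul_sum]
    _ ≤ Real.sqrt C * L r * (B * B) := by
        refine mul_le_mul_of_nonneg_left (mul_le_mul (hB s hs) (hB s hs)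
          (sum_nonneg fun y _ => by positivity) hB0)
          (mul_nonneg (Real.sqrt_nonneg _) (L_nonneg r))
    _ = _ := by ring

/-- `min (2^-i) (1/d)` is summable in `i` with a loss of a power of `log d`. -/
lemma exists_min_le :
    ∃ A : ℝ, 0 ≤ A ∧ ∀ i d : ℕ, 0 < d →
      min (1 / (2 : ℝ) ^ i) (1 / (d : ℝ)) ≤ A * (h d / d) / (1 + (i : ℝ)) ^ 4 := by
  obtain ⟨B, -, hB⟩ := exists_pow_le_two_pow 4
  refine ⟨2 * B + 1, by positivity, fun i d hd => ?_⟩
  set l := Nat.log 2 d with hl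
  have hdR : (0 : ℝ) < d := Nat.cast_pos.2 hd
  have hh : h d = ((1 : ℝ) + l) ^ 4 := rfl
  rw [le_div_iff₀ (by positivity)]
  rcases le_or_gt i l with hil | hil
  · calc min (1 / (2 : ℝ) ^ i) (1 / (d : ℝ)) * (1 + (i : ℝ)) ^ 4
        ≤ 1 / (d : ℝ) * (1 + (l : ℝ)) ^ 4 := by
          refine mul_le_mul (min_le_right _ _) ?_ (by positivity) (by positivity)
          gcongr
      _ = h d / d := by rw [hh]; ring
      _ ≤ _ := le_mul_of_one_le_left (div_nonneg (h_nonneg d) hdR.le) (le_add_of_nonneg_left (by positivity))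
  · obtain ⟨j, rfl⟩ := Nat.exists_eq_add_of_le hil.le
    have h1 : (d : ℝ) ≤ 2 * 2 ^ l := by
      have := (Nat.lt_pow_succ_log_self one_lt_two d).le
      rw [pow_succ'] at this
      exact_mod_cast this
    have h2 : ((1 : ℝ) + j) ^ 4 ≤ B * 2 ^ j := by
      have := hB j
      rw [add_comm j 1] at this
      exact_mod_cast this
    have h3 : ((1 : ℝ) + ((l + j : ℕ) : ℝ)) ^ 4 ≤ ((1 : ℝ) + l) ^ 4 * ((1 : ℝ) + j) ^ 4 := by
      push_cast
      rw [← mul_pow]
      gcongr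
      nlinarith [(Nat.cast_nonneg l : (0 : ℝ) ≤ l), (Nat.cast_nonneg j : (0 : ℝ) ≤ j)]
    calc min (1 / (2 : ℝ) ^ (l + j)) (1 / (d : ℝ)) * (1 + ((l + j : ℕ) : ℝ)) ^ 4
        ≤ 1 / (2 : ℝ) ^ (l + j) * (((1 : ℝ) + l) ^ 4 * (B * 2 ^ j)) := by
          refine mul_le_mul (min_le_left _ _) (h3.trans ?_) (by positivity) (by positivity)
          exact mul_le_mul_of_nonneg_left h2 (by positivity)
      _ = B * h d / 2 ^ l := by rw [hh, pow_add]; field_simp
      _ ≤ (2 * B + 1) * (h d / d) := by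
          rw [div_le_iff₀ (by positivity)]
          have hq : (1 : ℝ) ≤ 2 * 2 ^ l / d := (one_le_div hdR).2 h1
          calc B * h d ≤ B * h d * (2 * 2 ^ l / d) :=
                le_mul_of_one_le_right (mul_nonneg (Nat.cast_nonneg _) (h_nonneg d)) hq
            _ = 2 * B * (h d / d) * 2 ^ l := by ring
            _ ≤ _ := by
                refine mul_le_mul_of_nonneg_right (mul_le_mul_of_nonneg_right ?_ ?_) (by positivity)
                · linarith
                · exact div_nonneg (h_nonneg d) hdR.le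

lemma sum_inv_sq_le (s : ℕ) : ∑ i ∈ range s, 1 / (1 + (i : ℝ)) ^ 2 ≤ 2 := by
  suffices H : ∀ n : ℕ, ∑ i ∈ range (n + 1), 1 / (1 + (i : ℝ)) ^ 2 ≤ 2 - 1 / (1 + (n : ℝ)) by
    rcases s with _ | n
    · simp
    · have : (0 : ℝ) ≤ 1 / (1 + (n : ℝ)) := by positivity
      linarith [H n]
  intro n
  induction n with
  | zero => norm_num
  | succ n ih =>
    rw [sum_range_succ]
    push_cast
    have key : 1 / (1 + ((n : ℝ) + 1)) ^ 2 ≤ 1 / (1 + (n : ℝ)) - 1 / (1 + ((n : ℝ) + 1)) := by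
      rw [div_sub_div _ _ (by positivity) (by positivity),
        div_le_div_iff₀ (by positivity) (by positivity)]
      nlinarith [(Nat.cast_nonneg n : (0 : ℝ) ≤ n)]
    linarith [key]

end

end Vale.Agent.P028.ErdosVaaler
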